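import Vale.Agent.P200.W.Defs
import Vale.Agent.P200.V.Main

/-!
From division ring points to monomial ideals (all degree sequences).

Compare the last part of `V/Main.lean` (`avg_closed`, `average`; here `N = 1` and no flags) and
`M/Trans.lean` (`trM`, `trM_degree`, `trM_ncard`, `mem_trM`, `trM_cycles`).  `M_d = trM D E B (piece I d)`
for `B` large does not depend on `B > d + 1` (`wt_lt_iff` in `V/Mono.lean`: the order `wt B` on exponents of the same degree `< B` is
`cl`), so `M = ⋃ M_d` is defined with the uniform order.  Up-closed: right multiplication by the variable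
(`theta_mul_zv`) and `I * lin ⊆ I`.  `a_i e_i ∈ M` by `hpow` and `mem_trM`.  Dimensions: `trM_ncard`; cycles: `trM_cycles`;
Betti numbers as in `V.average` (`nat_avg`, `betti_rc`).
-/

namespace Vale.Agent.P200.W

open MvPolynomial Module
open Vale.Agent.P200.B Vale.Agent.P200.G Vale.Agent.P200.L Vale.Agent.P200.M Vale.Agent.P200.V

section aux

variable {K : Type*} [Field K] {D : Type*} [DivisionRing D] {n : ℕ}

/-- the lowest monomials of a space over `D`, with the order `cl` -/
def w17low (U : Submodule D (YR D n)) : Set (Fin n →₀ ℕ) :=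
  {m | ∃ u ∈ U, u.coeff m ≠ 0 ∧ ∀ m', cl m' m → u.coeff m' = 0}

theorem w17_exists_set (p : (Fin n →₀ ℕ) → Prop) :
    ∃ S : Set (Fin n →₀ ℕ), ∀ m, m ∈ S ↔ p m := ⟨{m | p m}, fun _ => Iff.rfl⟩

theorem w17_low_eq {B e : ℕ} (hB : e < B) {U : Submodule D (YR D n)} (hU : U ≤ YD D n e) :
    w17low U = inm B U := by
  ext m
  constructor
  · rintro ⟨u, hu, h1, h2⟩
    refine ⟨u, hu, h1, fun m' hm' => ?_⟩
    by_contra h3
    exact h3 (h2 m' ((wt_lt_iff hB (hU hu m h1) (hU hu m' h3)).1 hm'))
  · rintro ⟨u, hu, h1, h2⟩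
    refine ⟨u, hu, h1, fun m' hm' => ?_⟩
    by_contra h3
    exact h3 (h2 m' ((wt_lt_iff hB (hU hu m h1) (hU hu m' h3)).2 hm'))

theorem w17_coeff_mul_zv (u : YR D n) (i : Fin n) (m' : Fin n →₀ ℕ) :
    (u * zv D n i).coeff m' = if m' i = 0 then 0 else u.coeff (m' - Finsupp.single i 1) := by
  classical
  induction u using AddMonoidAlgebra.induction_linear with
  | zero =>
    rw [zero_mul, AddMonoidAlgebra.coeff_zero, Finsupp.zero_apply, Finsupp.zero_apply, ite_self]
  | add a b ha hb =>
    rw [add_mul, AddMonoidAlgebra.coeff_add, Finsupp.add_apply, ha, hb,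
      AddMonoidAlgebra.coeff_add, Finsupp.add_apply]
    split_ifs
    · rw [add_zero]
    · rfl
  | single m c =>
    unfold zv
    rw [AddMonoidAlgebra.single_mul_single, mul_one, AddMonoidAlgebra.coeff_single,
      AddMonoidAlgebra.coeff_single, Finsupp.single_apply, Finsupp.single_apply]
    by_cases h : m' i = 0
    · rw [if_pos h, if_neg]
      rintro rfl
      rw [Finsupp.add_apply, Finsupp.single_eq_same] at h
      omega
    · rw [if_neg h]
      have h2 : m + Finsupp.single i 1 = m' ↔ m = m' - Finsupp.single i 1 := by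
        constructor
        · rintro rfl
          rw [add_tsub_cancel_right]
        · intro h1
          rw [h1, tsub_add_cancel_of_le]
          rw [Finsupp.single_le_iff]
          omega
      simp only [h2]

theorem w17_low_mul {U U' : Submodule D (YR D n)} (i : Fin n)
    (h : ∀ u ∈ U, u * zv D n i ∈ U') {m : Fin n →₀ ℕ} (hm : m ∈ w17low U) :
    m + Finsupp.single i 1 ∈ w17low U' := by
  obtain ⟨u, hu, h1, h2⟩ := hm
  refine ⟨u * zv D n i, h u hu, ?_, fun m' hm' => ?_⟩
  · rw [w17_coeff_mul_zv, if_neg, add_tsub_cancel_right]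
    · exact h1
    · rw [Finsupp.add_apply, Finsupp.single_eq_same]
      omega
  · rw [w17_coeff_mul_zv]
    by_cases hi : m' i = 0
    · rw [if_pos hi]
    · rw [if_neg hi]
      apply h2
      obtain ⟨j, hj, hk⟩ := hm'
      have e1 : ∀ k, (m' - Finsupp.single i 1 : Fin n →₀ ℕ) k =
          m' k - (Finsupp.single i 1 : Fin n →₀ ℕ) k := fun k => Finsupp.tsub_apply _ _ _
      have e2 : ∀ k, (m + Finsupp.single i 1 : Fin n →₀ ℕ) k =
          m k + (Finsupp.single i 1 : Fin n →₀ ℕ) k := fun k => Finsupp.add_apply _ _ _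
      have e3 : ∀ k, (Finsupp.single i 1 : Fin n →₀ ℕ) k ≤ m' k := by
        intro k
        by_cases hki : i = k
        · rw [← hki, Finsupp.single_eq_same]
          omega
        · rw [Finsupp.single_eq_of_ne (fun h => hki h.symm)]
          exact Nat.zero_le _
      refine ⟨j, ?_, fun k hjk => ?_⟩
      · have a1 := e1 j
        have a2 := e2 j
        have a3 := e3 j
        rw [a1]
        rw [a2] at hj
        omega
      · have a1 := e1 k
        have a2 := e2 k
        have a3 := e3 k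
        have a4 := hk k hjk
        rw [a1]
        rw [a2] at a4
        omega

theorem w17_lin_eq (e : Fin n → D) :
    M.lin e = ∑ k, zv D n k * AddMonoidAlgebra.single 0 (e k) := by
  unfold M.lin
  refine Finset.sum_congr rfl fun k _ => ?_
  unfold zv
  rw [AddMonoidAlgebra.single_mul_single, one_mul, add_zero]

theorem w17_xim_pow (E : Fin n → Fin n → D)
    (hrow : ∀ i j, i ≠ j → ∀ k l, E i k * E j l = E j l * E i k) (m : Fin n →₀ ℕ) (i : Fin n)
    (k : ℕ) : xim E (m + Finsupp.single i k) = xim E m * M.lin (E i) ^ k := by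
  induction k with
  | zero => rw [Finsupp.single_zero, add_zero, pow_zero, mul_one]
  | succ k ih =>
    rw [Finsupp.single_add, ← add_assoc, xim_add E hrow, ih, pow_succ, mul_assoc]

variable [Algebra K D]

theorem w17_VD_mul_zv {V V' : Submodule K (MvPolynomial (Fin n) K)} (k : Fin n)
    (h : ∀ v ∈ V, v * X k ∈ V') {u : YR D n} (hu : u ∈ VD D V) : u * zv D n k ∈ VD D V' := by
  rw [mem_VD_iff_m1c] at hu ⊢
  intro φ
  rw [← bD_X (K := K), m1c_mul_bD]
  exact h _ (hu φ)

theorem w17_VD_mul_lin {V V' : Submodule K (MvPolynomial (Fin n) K)}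
    (h : ∀ v ∈ V, ∀ k, v * X k ∈ V') (e : Fin n → D) {u : YR D n} (hu : u ∈ VD D V) :
    u * M.lin e ∈ VD D V' := by
  rw [w17_lin_eq, Finset.mul_sum]
  refine Submodule.sum_mem _ fun k _ => ?_
  rw [← mul_assoc]
  exact mul_single_mem_VD V' (w17_VD_mul_zv k (fun v hv => h v hv k) hu) _

end aux

theorem w17_arith (b b' A B z w z' w' : ℕ) (h1 : b + A + B = z + w) (h2 : b' + A + B = z' + w')
    (h3 : z ≤ z') (h4 : w ≤ w') : b ≤ b' := by
  omega

theorem w17_betti {K : Type*} [Field K] {n : ℕ} {I J : Ideal (MvPolynomial (Fin n) K)}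
    (hI : HomIdeal I) (hJ : HomIdeal J)
    (hdim : ∀ d, finrank K (piece I d) = finrank K (piece J d))
    (hcyc : ∀ d p, finrank K (rc X (piece I (d + 1)) (homogeneousSubmodule (Fin n) K d) p) ≤
        finrank K (rc X (piece J (d + 1)) (homogeneousSubmodule (Fin n) K d) p)) (p j : ℕ) :
    betti I p j ≤ betti J p j := by
  rcases lt_or_ge j p with hj | hj
  · rw [betti_of_lt I (Or.inr hj)]
    exact Nat.zero_le _
  obtain ⟨e, rfl⟩ := Nat.exists_eq_add_of_le hj
  rcases e with _ | d
  · have h1 := betti_rc_zero I hI p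
    have h2 := betti_rc_zero J hJ p
    have h3 := hcyc 0 p
    have h4 := hdim 0
    rw [h4] at h1
    exact w17_arith _ _ _ 0 _ 0 _ 0 h1 h2 h3 le_rfl
  · have h1 := betti_rc I hI p d
    have h2 := betti_rc J hJ p d
    have h3 := hcyc (d + 1) p
    have h4 := hcyc d (p + 1)
    have h5 := hdim (d + 1)
    rw [h5] at h1
    exact w17_arith _ _ _ _ _ _ _ _ h1 h2 h3 h4

theorem degenerate {K : Type*} [Field K] {D : Type*} [DivisionRing D] [Algebra K D] {n : ℕ}
    (a : Fin n → ℕ) (ha : ∀ i, 1 ≤ a i) (E : Fin n → Fin n → D)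
    (hrow : ∀ i j, i ≠ j → ∀ k l, E i k * E j l = E j l * E i k) (hind : LinearIndependent D E)
    (I : Ideal (MvPolynomial (Fin n) K)) (hI : HomIdeal I)
    (hpow : ∀ i, (M.lin (E i) ^ a i : YR D n) ∈ VD D (piece I (a i))) :
    ∃ M : Set (Fin n →₀ ℕ), (∀ m ∈ M, ∀ i, m + Finsupp.single i 1 ∈ M) ∧
      (∀ i, Finsupp.single i (a i) ∈ M) ∧
      (∀ d, finrank K (piece I d) = finrank K (piece (monIdeal K M) d)) ∧
      ∀ p j, betti I p j ≤ betti (monIdeal K M) p j := by
  have hle : ∀ d, VD D (piece I d) ≤ YD D n d := fun d => VD_le_YD (G.piece_le I d)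
  have hcle : ∀ d, (VD D (piece I d)).comap (theta E) ≤ YD D n d := fun d =>
    (finrank_comap_theta E hrow hind _ (hle d)).1
  have htr : ∀ d B, d < B →
      w17low ((VD D (piece I d)).comap (theta E)) = trM D E B (piece I d) :=
    fun d B hB => w17_low_eq hB (hcle d)
  have hmul : ∀ d, ∀ v ∈ piece I d, ∀ k, v * X k ∈ piece I (d + 1) := by
    intro d v hv k
    refine ⟨I.mul_mem_right _ hv.1, ?_⟩
    exact ((mem_homogeneousSubmodule _ _).1 hv.2).mul (isHomogeneous_X K k)
  obtain ⟨S, hS⟩ := w17_exists_set fun m =>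
      m ∈ w17low ((VD D (piece I (∑ i, m i))).comap (theta E))
  have hup : ∀ m ∈ S, ∀ i, m + Finsupp.single i 1 ∈ S := by
    intro m hm i
    rw [hS] at hm ⊢
    have h2 : ∑ j, (m + Finsupp.single i 1 : Fin n →₀ ℕ) j = ∑ i, m i + 1 := by
      rw [m4_deg_add, m4_deg_single]
    rw [h2]
    refine w17_low_mul i (fun u hu => ?_) hm
    change theta E (u * zv D n i) ∈ VD D (piece I (∑ i, m i + 1))
    rw [theta_mul_zv E hrow]
    exact w17_VD_mul_lin (hmul _) _ hu
  have hdeg : ∀ d, {m | m ∈ S ∧ ∑ i, m i = d} = trM D E (d + 1) (piece I d) := by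
    intro d
    rw [← htr d (d + 1) (Nat.lt_succ_self d)]
    ext m
    constructor
    · rintro ⟨h1, h2⟩
      rw [hS, h2] at h1
      exact h1
    · intro h1
      have h2 : ∑ i, m i = d := by
        rw [htr d (d + 1) (Nat.lt_succ_self d)] at h1
        exact trM_degree E hrow hind (G.piece_le I d) m h1
      refine ⟨?_, h2⟩
      rw [hS, h2]
      exact h1
  have hfin : ∀ d, (trM D E (d + 1) (piece I d)).Finite := fun d =>
    (deg_finite n d).subset fun m hm => trM_degree E hrow hind (G.piece_le I d) m hm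
  have hdim : ∀ d, finrank K (piece I d) = finrank K (piece (monIdeal K S) d) := by
    intro d
    rw [piece_monIdeal hup, hdeg, G.finrank_restrictSupport _ (hfin d),
      trM_ncard E hrow hind (Nat.lt_succ_self d) (G.piece_le I d)]
  have hcyc : ∀ d p,
      finrank K (rc X (piece I (d + 1)) (homogeneousSubmodule (Fin n) K d) p) ≤
        finrank K (rc X (piece (monIdeal K S) (d + 1)) (homogeneousSubmodule (Fin n) K d) p) := by
    intro d p
    rw [piece_monIdeal hup, hdeg]
    exact trM_cycles E hrow hind (Nat.lt_succ_self (d + 1)) (G.piece_le I (d + 1))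
  refine ⟨S, hup, fun i => ?_, hdim, fun p j => ?_⟩
  · have h1 : ∑ j, (Finsupp.single i (a i) : Fin n →₀ ℕ) j = a i := by
      classical
      simp only [Finsupp.single_apply]
      simp
    rw [hS, h1, htr (a i) (a i + 1) (Nat.lt_succ_self _)]
    apply mem_trM
    have h2 := w17_xim_pow E hrow 0 i (a i)
    rw [zero_add, m4_xim_zero, one_mul] at h2
    rw [h2]
    exact hpow i
  · exact w17_betti hI (homIdeal_monIdeal hup) hdim hcyc p j

section count

variable {K : Type*} [Field K] {n : ℕ}

/-- the number of exponents outside `S` -/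
theorem w17_card (a : Fin n → ℕ) (I : Ideal (MvPolynomial (Fin n) K)) {S : Set (Fin n →₀ ℕ)}
    (hup : ∀ m ∈ S, ∀ i, m + Finsupp.single i 1 ∈ S) (hpw : ∀ i, Finsupp.single i (a i) ∈ S)
    (hdim : ∀ d, finrank K (piece I d) = finrank K (piece (monIdeal K S) d))
    (T : ℕ → Finset (Fin n → ℕ))
    (hT : ∀ d m, m ∈ T d ↔ m ∈ boxD a d ∧ Finsupp.equivFunOnFinite.symm m ∈ S) (d : ℕ) :
    (T d).card + hilb I d = (boxD a d).card := by
  classical
  set A := (Finset.univ : Finset (Fin n)).finsuppAntidiag d with hA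
  have hmA : ∀ m : Fin n →₀ ℕ, m ∈ A ↔ ∑ i, m i = d := by
    intro m
    rw [hA, Finset.mem_finsuppAntidiag]
    exact ⟨fun h => h.1, fun h => ⟨h, Finset.subset_univ _⟩⟩
  have h1 := finrank_piece_add_hilb I d
  have h2 : {m | m ∈ S ∧ ∑ i, m i = d} = ((A.filter fun m => m ∈ S : Finset (Fin n →₀ ℕ)) :
      Set (Fin n →₀ ℕ)) := by
    ext m
    rw [Finset.mem_coe, Finset.mem_filter, hmA]
    exact and_comm
  rw [hdim, piece_monIdeal hup, h2, G.finrank_restrictSupport _ (Finset.finite_toSet _),
    Set.ncard_coe_finset, G.finrank_homogeneousSubmodule, ← hA] at h1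
  have h3 := Finset.card_filter_add_card_filter_not (s := A) (fun m => m ∈ S)
  have h4 : (A.filter fun m => m ∉ S).card = ((boxD a d).filter fun m => m ∉ T d).card := by
    refine Finset.card_nbij' (fun m => (m : Fin n → ℕ)) (fun m => Finsupp.equivFunOnFinite.symm m)
      ?_ ?_ ?_ ?_
    · intro m hm
      rw [Finset.mem_coe, Finset.mem_filter, hmA] at hm
      have h5 : (Finsupp.equivFunOnFinite.symm (m : Fin n → ℕ) : Fin n →₀ ℕ) = m := by
        ext i
        rfl
      rw [Finset.mem_coe, Finset.mem_filter, hT, h5, mem_boxD]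
      refine ⟨⟨fun i => ?_, hm.1⟩, fun h => hm.2 h.2⟩
      by_contra hi
      change ¬ m i < a i at hi
      apply hm.2
      have h6 : m = Finsupp.single i (a i) + (m - Finsupp.single i (a i)) := by
        rw [add_tsub_cancel_of_le]
        rw [Finsupp.single_le_iff]
        omega
      rw [h6]
      exact up_add hup (hpw i) _
    · intro m hm
      rw [Finset.mem_coe, Finset.mem_filter, hT] at hm
      rw [Finset.mem_coe, Finset.mem_filter, hmA]
      exact ⟨(mem_boxD.1 hm.1).2, fun h => hm.2 ⟨hm.1, h⟩⟩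
    · intro m _
      ext i
      rfl
    · intro m _
      rfl
  have h5 := Finset.card_filter_add_card_filter_not (s := boxD a d) (fun m => m ∈ T d)
  have h6 : (boxD a d).filter (fun m => m ∈ T d) = T d := by
    ext m
    rw [Finset.mem_filter, hT]
    exact ⟨fun h => h.2, fun h => ⟨h.1, h⟩⟩
  rw [h6] at h5
  omega

theorem w17_egh (a : Fin n → ℕ) (hmono : Monotone a) (I : Ideal (MvPolynomial (Fin n) K))
    {S : Set (Fin n →₀ ℕ)}
    (hup : ∀ m ∈ S, ∀ i, m + Finsupp.single i 1 ∈ S) (hpw : ∀ i, Finsupp.single i (a i) ∈ S)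
    (hdim : ∀ d, finrank K (piece I d) = finrank K (piece (monIdeal K S) d)) : EGH a I := by
  classical
  obtain ⟨T, hT⟩ : ∃ T : ℕ → Finset (Fin n → ℕ), ∀ d m, m ∈ T d ↔
      m ∈ boxD a d ∧ Finsupp.equivFunOnFinite.symm m ∈ S :=
    ⟨fun d => (boxD a d).filter fun m => Finsupp.equivFunOnFinite.symm m ∈ S, fun d m =>
      Finset.mem_filter⟩
  intro d
  have hsub : T d ⊆ boxD a d := fun m hm => ((hT d m).1 hm).1
  have h1 := clementsLindstrom a hmono d (T d) hsub
  have h2 : upShadow a (T d) ⊆ T (d + 1) := by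
    intro y hy
    rw [hT]
    refine ⟨upShadow_subset_boxD hsub hy, ?_⟩
    obtain ⟨-, m, hm, i, rfl⟩ := mem_upShadow.1 hy
    have h3 := hup _ ((hT d m).1 hm).2 i
    have h4 : (Finsupp.equivFunOnFinite.symm (Function.update m i (m i + 1)) : Fin n →₀ ℕ) =
        Finsupp.equivFunOnFinite.symm m + Finsupp.single i 1 := by
      ext j
      rw [Finsupp.add_apply]
      change Function.update m i (m i + 1) j = m j + (Finsupp.single i 1 : Fin n →₀ ℕ) j
      rcases eq_or_ne j i with rfl | hj
      · rw [Function.update_self, Finsupp.single_eq_same]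
      · rw [Function.update_of_ne hj, Finsupp.single_eq_of_ne hj, add_zero]
    rw [h4]
    exact h3
  have h3 := Finset.card_le_card h2
  have h4 := w17_card a I hup hpw hdim T hT d
  have h5 := w17_card a I hup hpw hdim T hT (d + 1)
  have h6 : (boxD a d).card - hilb I d = (T d).card := by omega
  rw [h6]
  omega

end count

/-- the growth inequalities -/
theorem egh_of_point {K : Type*} [Field K] {D : Type*} [DivisionRing D] [Algebra K D] {n : ℕ}
    (a : Fin n → ℕ) (hmono : Monotone a) (ha : ∀ i, 1 ≤ a i) (E : Fin n → Fin n → D)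
    (hrow : ∀ i j, i ≠ j → ∀ k l, E i k * E j l = E j l * E i k) (hind : LinearIndependent D E)
    (I : Ideal (MvPolynomial (Fin n) K)) (hI : HomIdeal I)
    (hpow : ∀ i, (M.lin (E i) ^ a i : YR D n) ∈ VD D (piece I (a i))) : EGH a I := by
  obtain ⟨S, hup, hpw, hdim, -⟩ := degenerate a ha E hrow hind I hI hpow
  exact w17_egh a hmono I hup hpw hdim

end Vale.Agent.P200.W
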