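import Vale.Agent.P200.W.Oper

/-!
The dimension of the block algebra over `L1`.

`QQ` is the `L1`-subalgebra generated by the `sg j` and `th j`.  It is spanned over `L1` by the `b^(2R)`
elements `∏_j (th j)^(i_j) * ∏_j (sg j)^(k_j)` (ordered product), `i_j, k_j < b`: the span contains `1` and is stable
under left multiplication by the generators, because `th j` is a root of a polynomial of degree `b`
over `L1` (`∏_i (T - θ_j i) = (c j 0)⁻¹ ∑ c j m T^(b-m)`), `sg j * th j = g_j(th j) * sg j`
(`g_j ∈ L1[T]`, `g_j(θ_j i) = θ_j (i+1)`), `sg j ^ b = c j 0` and the `sg` commute up to powers of `ζ`.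
-/

namespace Vale.Agent.P200.W

open MvPolynomial Module
open Vale.Agent.P200.B Vale.Agent.P200.G Vale.Agent.P200.L Vale.Agent.P200.M Vale.Agent.P200.V

section general
variable {L A : Type*} [Field L] [Ring A] [Algebra L A]

/-- the algebra generated by a root of a polynomial of degree `≤ b` -/
theorem w6_adjoin (y : A) (p : Polynomial L) (b : ℕ) (hp : p ≠ 0) (hd : p.natDegree ≤ b)
    (h : Polynomial.aeval y p = 0) :
    FiniteDimensional L (Algebra.adjoin L {y}) ∧ finrank L (Algebra.adjoin L {y}) ≤ b := by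
  set p' := p * Polynomial.C p.leadingCoeff⁻¹ with hp'
  have hm : p'.Monic := Polynomial.monic_mul_leadingCoeff_inv hp
  have hdeg : p'.natDegree ≤ b := by
    have h1 : p'.degree = p.degree := Polynomial.degree_mul_leadingCoeff_inv p hp
    have h2 : p'.natDegree = p.natDegree := Polynomial.natDegree_eq_of_degree_eq h1
    omega
  have ha : Polynomial.aeval y p' = 0 := by rw [hp', map_mul, h, zero_mul]
  have hle : Subalgebra.toSubmodule (Algebra.adjoin L {y}) ≤
      (Polynomial.degreeLT L b).map (Polynomial.aeval y).toLinearMap := by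
    intro x hx
    rw [Subalgebra.mem_toSubmodule, Algebra.adjoin_singleton_eq_range_aeval] at hx
    obtain ⟨q, rfl⟩ := hx
    refine ⟨q %ₘ p', ?_, ?_⟩
    · rw [SetLike.mem_coe, Polynomial.mem_degreeLT]
      calc (q %ₘ p').degree < p'.degree := Polynomial.degree_modByMonic_lt q hm
        _ ≤ (p'.natDegree : WithBot ℕ) := Polynomial.degree_le_natDegree
        _ ≤ (b : WithBot ℕ) := by exact_mod_cast hdeg
    · have h3 := Polynomial.modByMonic_add_div q p'
      have h4 : Polynomial.aeval y q = Polynomial.aeval y (q %ₘ p') := by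
        conv_lhs => rw [← h3]
        rw [map_add, map_mul, ha, zero_mul, add_zero]
      simpa using h4.symm
  have hfd : FiniteDimensional L (Polynomial.degreeLT L b) :=
    Module.Finite.equiv (Polynomial.degreeLTEquiv L b).symm
  have hfr : finrank L (Polynomial.degreeLT L b) = b := by
    rw [(Polynomial.degreeLTEquiv L b).finrank_eq]; simp
  have hfd2 : FiniteDimensional L
      ((Polynomial.degreeLT L b).map (Polynomial.aeval y).toLinearMap) := inferInstance
  refine ⟨Submodule.finiteDimensional_of_le hle, ?_⟩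
  calc finrank L (Subalgebra.toSubmodule (Algebra.adjoin L {y}))
      ≤ finrank L ((Polynomial.degreeLT L b).map (Polynomial.aeval y).toLinearMap) :=
        Submodule.finrank_mono hle
    _ ≤ finrank L (Polynomial.degreeLT L b) := Submodule.finrank_map_le _ _
    _ = b := hfr

/-- `S` is a finite dimensional left stable space containing `1` -/
def W6P (L : Type*) {A : Type*} [Field L] [Ring A] [Algebra L A] (G : Set A) (d : ℕ) : Prop :=
  ∃ S : Submodule L A, FiniteDimensional L S ∧ finrank L S ≤ d ∧ 1 ∈ S ∧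
    ∀ x ∈ G, ∀ s ∈ S, x * s ∈ S

theorem w6_empty : W6P L (∅ : Set A) 1 := by
  refine ⟨L ∙ (1 : A), inferInstance, ?_, Submodule.mem_span_singleton_self _, ?_⟩
  · simpa using finrank_span_le_card (R := L) ({1} : Set A)
  intro x hx
  exact absurd hx (Set.notMem_empty x)

theorem w6_step {G : Set A} {d b : ℕ} (hG : W6P L G d) (y : A)
    (h1 : FiniteDimensional L (Algebra.adjoin L {y})) (h2 : finrank L (Algebra.adjoin L {y}) ≤ b)
    (hc : ∀ x ∈ G, ∃ z ∈ Algebra.adjoin L {y}, x * y = z * x) :
    W6P L (insert y G) (b * d) := by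
  obtain ⟨S, hS1, hS2, hS3, hS4⟩ := hG
  set B := Subalgebra.toSubmodule (Algebra.adjoin L {y}) with hB
  have hBf : FiniteDimensional L B := h1
  have hBr : finrank L B ≤ b := h2
  have hcc : ∀ x ∈ G, ∀ w ∈ Algebra.adjoin L {y}, ∃ z ∈ Algebra.adjoin L {y}, x * w = z * x := by
    intro x hx w hw
    induction hw using Algebra.adjoin_induction with
    | mem w hw =>
      rw [Set.mem_singleton_iff] at hw
      subst hw
      exact hc x hx
    | algebraMap r => exact ⟨algebraMap L A r, Subalgebra.algebraMap_mem _ r, (Algebra.commutes r x).symm⟩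
    | add u v _ _ hu hv =>
      obtain ⟨z, hz, hz'⟩ := hu
      obtain ⟨t, ht, ht'⟩ := hv
      exact ⟨z + t, add_mem hz ht, by rw [mul_add, add_mul, hz', ht']⟩
    | mul u v _ _ hu hv =>
      obtain ⟨z, hz, hz'⟩ := hu
      obtain ⟨t, ht, ht'⟩ := hv
      exact ⟨z * t, mul_mem hz ht, by rw [← mul_assoc, hz', mul_assoc, ht', mul_assoc]⟩
  refine ⟨B * S, ?_, ?_, ?_, ?_⟩
  · exact Module.Finite.of_fg ((Module.Finite.iff_fg.1 hBf).mul (Module.Finite.iff_fg.1 hS1))
  · rw [← Submodule.mulMap_range]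
    calc finrank L (LinearMap.range (Submodule.mulMap B S)) ≤ finrank L (TensorProduct L B S) :=
          LinearMap.finrank_range_le _
      _ = finrank L B * finrank L S := Module.finrank_tensorProduct
      _ ≤ b * d := Nat.mul_le_mul hBr hS2
  · have h3 : (1 : A) * 1 ∈ B * S := Submodule.mul_mem_mul (Subalgebra.one_mem _) hS3
    simpa using h3
  · intro x hx s hs
    rcases Set.mem_insert_iff.1 hx with rfl | hx
    · induction hs using Submodule.mul_induction_on' with
      | mem_mul_mem m hm n hn =>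
        rw [← mul_assoc]
        exact Submodule.mul_mem_mul (Subalgebra.mul_mem _ (Algebra.subset_adjoin (Set.mem_singleton _)) hm) hn
      | add u _ v _ hu hv => rw [mul_add]; exact add_mem hu hv
    · induction hs using Submodule.mul_induction_on' with
      | mem_mul_mem m hm n hn =>
        obtain ⟨z, hz, hz'⟩ := hcc x hx m hm
        rw [← mul_assoc, hz', mul_assoc]
        exact Submodule.mul_mem_mul hz (hS4 x hx n hn)
      | add u _ v _ hu hv => rw [mul_add]; exact add_mem hu hv

theorem w6_end {G : Set A} {d : ℕ} (hG : W6P L G d) :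
    FiniteDimensional L (Algebra.adjoin L G) ∧ finrank L (Algebra.adjoin L G) ≤ d := by
  obtain ⟨S, hS1, hS2, hS3, hS4⟩ := hG
  have hst : ∀ x ∈ Algebra.adjoin L G, ∀ s ∈ S, x * s ∈ S := by
    intro x hx
    induction hx using Algebra.adjoin_induction with
    | mem x hx => exact hS4 x hx
    | algebraMap r =>
      intro s hs
      rw [← Algebra.smul_def]
      exact S.smul_mem r hs
    | add u v _ _ hu hv => intro s hs; rw [add_mul]; exact add_mem (hu s hs) (hv s hs)
    | mul u v _ _ hu hv => intro s hs; rw [mul_assoc]; exact hu _ (hv s hs)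
  have hle : Subalgebra.toSubmodule (Algebra.adjoin L G) ≤ S := by
    intro x hx
    have := hst x hx 1 hS3
    rwa [mul_one] at this
  exact ⟨Submodule.finiteDimensional_of_le hle, (Submodule.finrank_mono hle).trans hS2⟩

end general

variable {L1 Ω : Type*} [Field L1] [Field Ω] [Algebra L1 Ω] {b R : ℕ}

/-- the block algebra over `L1` -/
def QQ (L1 : Type*) {Ω : Type*} [Field L1] [Field Ω] [Algebra L1 Ω] {b R : ℕ} (ζ : Ω)
    (ρ : Fin R → Ω) (θ : Fin R → ZMod b → Ω) :
    Subalgebra L1 (Module.End Ω ((Fin R → ZMod b) → Ω)) :=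
  Algebra.adjoin L1 (Set.range (sg ζ ρ) ∪ Set.range (th θ))

theorem EE_mem_QQ (ζ : Ω) (ρ : Fin R → Ω) (θ : Fin R → ZMod b → Ω) (j : Fin R) (ε : Fin 2) :
    EE ζ ρ θ j ε ∈ QQ L1 ζ ρ θ := by
  have h1 : sg ζ ρ j ∈ QQ L1 ζ ρ θ := Algebra.subset_adjoin (Or.inl ⟨j, rfl⟩)
  have h2 : th θ j ∈ QQ L1 ζ ρ θ := Algebra.subset_adjoin (Or.inr ⟨j, rfl⟩)
  unfold EE
  fin_cases ε
  · exact h1
  · exact neg_mem (mul_mem h2 h1)

theorem w6_wsum_zero {A : Type*} [Semiring A] (x y : A) (N : ℕ) : wsum x y N 0 = x ^ N := by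
  induction N with
  | zero => simp [wsum]
  | succ N ih => rw [wsum, ih, pow_succ']

theorem w6_aeval_th (θ : Fin R → ZMod b → Ω) (j : Fin R) (p : Polynomial L1)
    (φ : (Fin R → ZMod b) → Ω) (κ : Fin R → ZMod b) :
    Polynomial.aeval (th θ j) p φ κ = Polynomial.aeval (θ j (κ j)) p * φ κ := by
  induction p using Polynomial.induction_on' generalizing φ with
  | add p q hp hq => rw [map_add, map_add, LinearMap.add_apply, Pi.add_apply, hp, hq, add_mul]
  | monomial n a =>
    have hpow : ∀ (n : ℕ) (φ : (Fin R → ZMod b) → Ω), ((th θ j) ^ n) φ κ = (θ j (κ j)) ^ n * φ κ := by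
      intro n
      induction n with
      | zero => intro φ; simp
      | succ n ih =>
        intro φ
        rw [pow_succ', Module.End.mul_apply]
        show θ j (κ j) * ((th θ j) ^ n) φ κ = _
        rw [ih, pow_succ']
        ring
    rw [Polynomial.aeval_monomial, Polynomial.aeval_monomial, ← Algebra.smul_def, ← Algebra.smul_def,
      LinearMap.smul_apply, Pi.smul_apply, hpow, smul_mul_assoc]

theorem finrank_QQ [NeZero b] {ζ : L1} (hζ : ζ ^ b = 1) (ρ : Fin R → Ω)
    (θ : Fin R → ZMod b → Ω) (c : Fin R → ℕ → L1) (h0 : ∀ j, c j 0 ≠ 0)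
    (hρ : ∀ j, ρ j ^ b = algebraMap L1 Ω (c j 0))
    (hc : ∀ j, ∑ m ∈ Finset.range (b + 1),
        Polynomial.C (algebraMap L1 Ω (c j m)) * Polynomial.X ^ (b - m) =
      Polynomial.C (algebraMap L1 Ω (c j 0)) * ∏ i, (Polynomial.X - Polynomial.C (θ j i)))
    (g : Fin R → Polynomial L1) (hg : ∀ j i, Polynomial.aeval (θ j i) (g j) = θ j (i + 1)) :
    FiniteDimensional L1 (QQ L1 (algebraMap L1 Ω ζ) ρ θ) ∧
      finrank L1 (QQ L1 (algebraMap L1 Ω ζ) ρ θ) ≤ b ^ (R * 2) := by
  have hb : b ≠ 0 := NeZero.ne b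
  have hζ' : (algebraMap L1 Ω ζ) ^ b = 1 := by rw [← map_pow, hζ, map_one]
  have hζ0 : ζ ≠ 0 := by
    rintro rfl
    rw [zero_pow hb] at hζ
    exact zero_ne_one hζ
  set s : Fin R → Module.End Ω ((Fin R → ZMod b) → Ω) := sg (algebraMap L1 Ω ζ) ρ with hs
  set t : Fin R → Module.End Ω ((Fin R → ZMod b) → Ω) := th θ with ht
  -- relations
  have hss : ∀ i j, i < j → s i * s j = ζ • (s j * s i) := by
    intro i j hij
    have := EE_comm hζ' ρ θ hij 0 0
    simp only [EE, Matrix.cons_val_zero] at this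
    rw [hs, this, algebraMap_smul]
  have hsb : ∀ j, s j ^ b = algebraMap L1 _ (c j 0) := by
    intro j
    have h := wsum_EE hζ' ρ θ j (fun m => algebraMap L1 Ω (c j m)) (hρ j) (hc j) (Nat.zero_le b)
    rw [w6_wsum_zero] at h
    simp only [EE, Matrix.cons_val_zero] at h
    rw [hs, h, ← IsScalarTower.algebraMap_apply L1 Ω]
  have htt : ∀ i j, t i * t j = t j * t i := by
    intro i j
    refine LinearMap.ext fun φ => funext fun κ => ?_
    show θ i (κ i) * (θ j (κ j) * φ κ) = θ j (κ j) * (θ i (κ i) * φ κ)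
    ring
  have hst : ∀ i j, i ≠ j → s i * t j = t j * s i := by
    intro i j hij
    refine LinearMap.ext fun φ => funext fun κ => ?_
    show ρ i * _ ^ _ * (θ j ((κ + (Pi.single i 1 : Fin R → ZMod b)) j) * φ (κ + Pi.single i 1)) =
      θ j (κ j) * (ρ i * _ ^ _ * φ (κ + Pi.single i 1))
    have : (κ + (Pi.single i 1 : Fin R → ZMod b)) j = κ j := by
      rw [Pi.add_apply, Pi.single_eq_of_ne (Ne.symm hij), add_zero]
    rw [this]
    ring
  have hsg : ∀ j, s j * t j = Polynomial.aeval (t j) (g j) * s j := by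
    intro j
    refine LinearMap.ext fun φ => funext fun κ => ?_
    rw [Module.End.mul_apply, Module.End.mul_apply, ht, w6_aeval_th, hg]
    show ρ j * _ ^ _ * (θ j ((κ + (Pi.single j 1 : Fin R → ZMod b)) j) * φ (κ + Pi.single j 1)) =
      θ j (κ j + 1) * (ρ j * _ ^ _ * φ (κ + Pi.single j 1))
    have : (κ + (Pi.single j 1 : Fin R → ZMod b)) j = κ j + 1 := by
      rw [Pi.add_apply, Pi.single_eq_same]
    rw [this]
    ring
  -- the algebras generated by one element
  have has : ∀ j, FiniteDimensional L1 (Algebra.adjoin L1 {s j}) ∧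
      finrank L1 (Algebra.adjoin L1 {s j}) ≤ b := by
    intro j
    refine w6_adjoin (s j) (Polynomial.X ^ b - Polynomial.C (c j 0)) b
      (Polynomial.X_pow_sub_C_ne_zero (Nat.pos_of_ne_zero hb) _)
      (Polynomial.natDegree_X_pow_sub_C).le ?_
    rw [map_sub, map_pow, Polynomial.aeval_X, Polynomial.aeval_C, hsb, sub_self]
  have hat : ∀ j, FiniteDimensional L1 (Algebra.adjoin L1 {t j}) ∧
      finrank L1 (Algebra.adjoin L1 {t j}) ≤ b := by
    intro j
    set p : Polynomial L1 := ∑ m ∈ Finset.range (b + 1),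
      Polynomial.C (c j m) * Polynomial.X ^ (b - m) with hp
    have hmap : p.map (algebraMap L1 Ω) =
        Polynomial.C (algebraMap L1 Ω (c j 0)) * ∏ i, (Polynomial.X - Polynomial.C (θ j i)) := by
      rw [← hc j, hp, Polynomial.map_sum]
      refine Finset.sum_congr rfl fun m _ => ?_
      rw [Polynomial.map_mul, Polynomial.map_C, Polynomial.map_pow, Polynomial.map_X]
    have hp0 : p ≠ 0 := by
      intro h
      rw [h, Polynomial.map_zero] at hmap
      have h1 : Polynomial.C (algebraMap L1 Ω (c j 0)) ≠ 0 := by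
        rw [Ne, Polynomial.C_eq_zero]
        exact (map_ne_zero _).2 (h0 j)
      have h2 : (∏ i, (Polynomial.X - Polynomial.C (θ j i))) ≠ 0 :=
        Finset.prod_ne_zero_iff.2 fun i _ => Polynomial.X_sub_C_ne_zero _
      exact mul_ne_zero h1 h2 hmap.symm
    refine w6_adjoin (t j) p b hp0 ?_ ?_
    · refine Polynomial.natDegree_sum_le_of_forall_le _ _ fun m _ => ?_
      exact (Polynomial.natDegree_C_mul_X_pow_le _ _).trans (Nat.sub_le _ _)
    · refine LinearMap.ext fun φ => funext fun κ => ?_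
      rw [ht, w6_aeval_th, Polynomial.aeval_def, ← Polynomial.eval_map, hmap, Polynomial.eval_mul,
        Polynomial.eval_prod, Finset.prod_eq_zero (Finset.mem_univ (κ j))]
      · simp
      · simp
  -- first the `s j`
  have hS : ∀ n : ℕ, n ≤ R → W6P L1 {x | ∃ j : Fin R, (j : ℕ) < n ∧ x = s j} (b ^ n) := by
    intro n
    induction n with
    | zero =>
      intro _
      have : {x | ∃ j : Fin R, (j : ℕ) < 0 ∧ x = s j} = ∅ := by
        ext x; simp
      rw [this, pow_zero]
      exact w6_empty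
    | succ n ih =>
      intro hn
      have h1 := w6_step (ih (by omega)) (s ⟨n, hn⟩) (has _).1 (has _).2 (by
        rintro x ⟨j, hj, rfl⟩
        refine ⟨ζ • s ⟨n, hn⟩, Subalgebra.smul_mem _ (Algebra.subset_adjoin (Set.mem_singleton _)) _, ?_⟩
        rw [hss j ⟨n, hn⟩ (Fin.lt_def.2 hj), smul_mul_assoc])
      rw [pow_succ']
      convert h1 using 1
      ext x
      simp only [Set.mem_ofPred_eq, Set.mem_insert_iff]
      constructor
      · rintro ⟨j, hj, rfl⟩
        rcases Nat.lt_succ_iff_lt_or_eq.1 hj with h | h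
        · exact Or.inr ⟨j, h, rfl⟩
        · left
          congr 1
          exact Fin.ext h
      · rintro (rfl | ⟨j, hj, rfl⟩)
        · exact ⟨⟨n, hn⟩, Nat.lt_succ_self n, rfl⟩
        · exact ⟨j, by omega, rfl⟩
  have hT : ∀ n : ℕ, n ≤ R → W6P L1 (Set.range s ∪ {x | ∃ j : Fin R, (j : ℕ) < n ∧ x = t j})
      (b ^ (R + n)) := by
    intro n
    induction n with
    | zero =>
      intro _
      have h1 := hS R le_rfl
      rw [add_zero]
      convert h1 using 1
      ext x
      simp [eq_comm]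
    | succ n ih =>
      intro hn
      have h1 := w6_step (ih (by omega)) (t ⟨n, hn⟩) (hat _).1 (hat _).2 (by
        rintro x (⟨j, rfl⟩ | ⟨j, hj, rfl⟩)
        · by_cases hjn : j = ⟨n, hn⟩
          · subst hjn
            exact ⟨Polynomial.aeval (t ⟨n, hn⟩) (g ⟨n, hn⟩), by
              rw [Algebra.adjoin_singleton_eq_range_aeval]; exact ⟨_, rfl⟩, hsg _⟩
          · exact ⟨t ⟨n, hn⟩, Algebra.subset_adjoin (Set.mem_singleton _), hst _ _ hjn⟩
        · exact ⟨t ⟨n, hn⟩, Algebra.subset_adjoin (Set.mem_singleton _), htt _ _⟩)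
      rw [show R + (n + 1) = (R + n) + 1 from rfl, pow_succ']
      convert h1 using 1
      ext x
      simp only [Set.mem_union, Set.mem_ofPred_eq, Set.mem_insert_iff]
      constructor
      · rintro (h | ⟨j, hj, rfl⟩)
        · exact Or.inr (Or.inl h)
        · rcases Nat.lt_succ_iff_lt_or_eq.1 hj with h | h
          · exact Or.inr (Or.inr ⟨j, h, rfl⟩)
          · left
            congr 1
            exact Fin.ext h
      · rintro (rfl | h | ⟨j, hj, rfl⟩)
        · exact Or.inr ⟨⟨n, hn⟩, Nat.lt_succ_self n, rfl⟩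
        · exact Or.inl h
        · exact Or.inr ⟨j, by omega, rfl⟩
  have hfin := hT R le_rfl
  have hset : (Set.range s ∪ {x | ∃ j : Fin R, (j : ℕ) < R ∧ x = t j}) =
      Set.range s ∪ Set.range t := by
    ext x
    simp [eq_comm]
  rw [hset, ← mul_two] at hfin
  exact w6_end hfin

end Vale.Agent.P200.W
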