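import Vale.Agent.P200.W.Strand

/-!
From the Euler characteristic relations to vanishing of the `N`-th difference.

The polynomials in the shift which kill `u = D^N h` eventually form an ideal of `ℂ[X]`.  For a `b`-th
root of unity `ω ≠ 1` the polynomial `f_ω = ∑_{i<b} (ω X)^i = (X - 1) G_ω` satisfies: `f_ω ^ N` kills
`h` (Euler characteristic relation), so `G_ω ^ N` kills `u`.  The `G_ω` have no common root.
-/

namespace Vale.Agent.P200.W

open Polynomial

/-- the shift -/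
noncomputable def w10S : Module.End ℂ (ℕ → ℂ) where
  toFun u := fun t => u (t + 1)
  map_add' _ _ := rfl
  map_smul' _ _ := rfl

theorem w10S_pow (i : ℕ) (u : ℕ → ℂ) (t : ℕ) : (w10S ^ i) u t = u (t + i) := by
  induction i generalizing t with
  | zero => simp
  | succ i ih =>
    rw [pow_succ', Module.End.mul_apply]
    show (w10S ^ i) u (t + 1) = _
    rw [ih]
    congr 1
    omega

theorem w10_aeval (p : ℂ[X]) (u : ℕ → ℂ) (t : ℕ) :
    (aeval w10S p) u t = ∑ i ∈ Finset.range (p.natDegree + 1), p.coeff i * u (t + i) := by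
  rw [aeval_eq_sum_range, LinearMap.sum_apply, Finset.sum_apply]
  refine Finset.sum_congr rfl (fun i _ => ?_)
  rw [LinearMap.smul_apply, Pi.smul_apply, w10S_pow, smul_eq_mul]

theorem w10_zero (p : ℂ[X]) (u : ℕ → ℂ) (t1 : ℕ) (hu : ∀ t, t1 ≤ t → u t = 0) (t : ℕ)
    (ht : t1 ≤ t) : (aeval w10S p) u t = 0 := by
  rw [w10_aeval]
  refine Finset.sum_eq_zero (fun i _ => ?_)
  rw [hu (t + i) (by omega), mul_zero]

/-- the polynomials in the shift which kill `u` eventually -/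
def w10I (u : ℕ → ℂ) : Ideal ℂ[X] where
  carrier := {p | ∃ t1, ∀ t, t1 ≤ t → (aeval w10S p) u t = 0}
  add_mem' := by
    rintro p q ⟨t1, h1⟩ ⟨t2, h2⟩
    refine ⟨max t1 t2, fun t ht => ?_⟩
    rw [map_add, LinearMap.add_apply, Pi.add_apply, h1 t (le_trans (le_max_left _ _) ht),
      h2 t (le_trans (le_max_right _ _) ht), add_zero]
  zero_mem' := ⟨0, fun t _ => by rw [map_zero]; rfl⟩
  smul_mem' := by
    rintro q p ⟨t1, h1⟩
    refine ⟨t1, fun t ht => ?_⟩
    rw [smul_eq_mul, map_mul, Module.End.mul_apply]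
    exact w10_zero q _ t1 h1 t ht

theorem mem_w10I {u : ℕ → ℂ} {p : ℂ[X]} :
    p ∈ w10I u ↔ ∃ t1, ∀ t, t1 ≤ t → (aeval w10S p) u t = 0 := Iff.rfl

/-- an ideal of `ℂ[X]` without common root contains `1` -/
theorem w10_one_mem (I : Ideal ℂ[X]) (h : ∀ z : ℂ, ∃ p ∈ I, eval z p ≠ 0) : (1 : ℂ[X]) ∈ I := by
  obtain ⟨d, hd⟩ := (IsPrincipalIdealRing.principal I).principal
  have hI : ∀ p, p ∈ I ↔ d ∣ p := by
    intro p
    rw [hd]
    exact Ideal.mem_span_singleton
  have hroot : ∀ z : ℂ, eval z d ≠ 0 := by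
    intro z hz
    obtain ⟨p, hp, hpz⟩ := h z
    obtain ⟨q, hq⟩ := (hI p).1 hp
    apply hpz
    rw [hq, eval_mul, hz, zero_mul]
  have hdeg : d.degree = 0 := by
    by_contra hne
    obtain ⟨z, hz⟩ := IsAlgClosed.exists_root d hne
    exact hroot z hz
  have hu : IsUnit d := Polynomial.isUnit_iff_degree_eq_zero.2 hdeg
  exact (hI 1).2 hu.dvd

/-- the factor -/
noncomputable def w10f (b : ℕ) (w : ℂ) : ℂ[X] := ∑ i ∈ Finset.range b, (C w * X) ^ i

theorem w10f_mul (b : ℕ) (w : ℂ) (hw : w ^ b = 1) : w10f b w * (C w * X - 1) = X ^ b - 1 := by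
  unfold w10f
  rw [geom_sum_mul, mul_pow, ← C_pow, hw, C_1, one_mul]

theorem w10f_eval (b : ℕ) (w z : ℂ) : eval z (w10f b w) = ∑ i ∈ Finset.range b, (w * z) ^ i := by
  unfold w10f
  rw [eval_finsetSum]
  refine Finset.sum_congr rfl (fun i _ => ?_)
  rw [eval_pow, eval_mul, eval_C, eval_X]

theorem w10_geom (b : ℕ) (w : ℂ) (hw : w ^ b = 1) (hw1 : w ≠ 1) :
    ∑ i ∈ Finset.range b, w ^ i = 0 := by
  have h := geom_sum_mul w b
  rw [hw, sub_self] at h
  rcases mul_eq_zero.1 h with h | h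
  · exact h
  · exact absurd (sub_eq_zero.1 h) hw1

theorem w10_root (b : ℕ) (hb : 2 ≤ b) (z : ℂ) : ∃ w : ℂ, w ^ b = 1 ∧ w ≠ 1 ∧
    ∀ G : ℂ[X], w10f b w = (X - C 1) * G → eval z G ≠ 0 := by
  have hb0 : b ≠ 0 := by omega
  have hbC : (b : ℂ) ≠ 0 := by exact_mod_cast hb0
  have hprim := Complex.isPrimitiveRoot_exp b hb0
  set w0 := Complex.exp (2 * Real.pi * Complex.I / b) with hw0
  have hw0b : w0 ^ b = 1 := hprim.pow_eq_one
  have hw01 : w0 ≠ 1 := hprim.ne_one (by omega)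
  by_cases hz1 : z = 1
  · refine ⟨w0, hw0b, hw01, fun G hG hGz => ?_⟩
    have h1 := w10f_mul b w0 hw0b
    rw [hG] at h1
    have h2 := congrArg (fun p => eval z (derivative p)) h1
    simp only [derivative_mul, derivative_sub, derivative_X, derivative_C, derivative_one,
      derivative_X_pow, eval_add, eval_mul, eval_sub, eval_X, eval_C, eval_one, eval_zero,
      eval_pow, hz1] at h2
    rw [hz1] at hGz
    rw [hGz] at h2
    simp at h2
    exact hbC h2.symm
  · by_cases hzb : z ^ b = 1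
    · have hz0 : z ≠ 0 := by
        intro h0
        rw [h0, zero_pow hb0] at hzb
        exact zero_ne_one hzb
      refine ⟨z⁻¹, by rw [inv_pow, hzb, inv_one], by
        intro h; exact hz1 (inv_eq_one.1 h), fun G hG hGz => ?_⟩
      have h1 := w10f_eval b z⁻¹ z
      rw [hG, eval_mul, hGz, mul_zero, inv_mul_cancel₀ hz0] at h1
      simp only [one_pow, Finset.sum_const, Finset.card_range, nsmul_eq_mul, mul_one] at h1
      exact hbC h1.symm
    · refine ⟨w0, hw0b, hw01, fun G hG hGz => ?_⟩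
      have h1 := w10f_mul b w0 hw0b
      rw [hG] at h1
      have h2 := congrArg (eval z) h1
      rw [eval_mul, eval_mul, hGz, mul_zero, zero_mul, eval_sub, eval_pow, eval_X, eval_one] at h2
      exact hzb (sub_eq_zero.1 h2.symm)

/-- generating function of the box numbers -/
theorem w10_gen {A : Type*} [CommSemiring A] (N b : ℕ) (s : A) :
    (∑ i ∈ Finset.range b, s ^ i) ^ N =
      ∑ i ∈ Finset.range (N * (b - 1) + 1), (bx N b i : A) * s ^ i := by
  have h1 : (∑ i ∈ Finset.range b, s ^ i) ^ N =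
      ∏ _j : Fin N, ∑ i ∈ Finset.range b, s ^ i := by
    rw [Finset.prod_const, Finset.card_univ, Fintype.card_fin]
  rw [h1, Finset.prod_univ_sum]
  have h2 : ∀ m ∈ Fintype.piFinset (fun _ : Fin N => Finset.range b),
      (∑ j, m j) ∈ Finset.range (N * (b - 1) + 1) := by
    intro m hm
    rw [Fintype.mem_piFinset] at hm
    rw [Finset.mem_range, Nat.lt_succ_iff]
    calc ∑ j, m j ≤ ∑ _j : Fin N, (b - 1) := by
          refine Finset.sum_le_sum (fun j _ => ?_)
          have := Finset.mem_range.1 (hm j)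
          omega
      _ = N * (b - 1) := by
          rw [Finset.sum_const, Finset.card_univ, Fintype.card_fin, smul_eq_mul]
  rw [← Finset.sum_fiberwise_of_maps_to h2]
  refine Finset.sum_congr rfl (fun i _ => ?_)
  have h3 : ∀ m ∈ (Fintype.piFinset (fun _ : Fin N => Finset.range b)).filter
      (fun m => ∑ j, m j = i), ∏ j, s ^ m j = s ^ i := by
    intro m hm
    rw [Finset.prod_pow_eq_pow_sum, (Finset.mem_filter.1 hm).2]
  rw [Finset.sum_congr rfl h3, Finset.sum_const, nsmul_eq_mul]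
  rfl

theorem w10_D (N : ℕ) (h : ℕ → ℤ) :
    aeval w10S ((X - C 1 : ℂ[X]) ^ N) (fun t => (h t : ℂ)) =
      fun t => ((Q.Growth.D^[N] h t : ℤ) : ℂ) := by
  induction N with
  | zero =>
    rw [pow_zero, map_one, Module.End.one_apply]
    rfl
  | succ N ih =>
    rw [pow_succ', map_mul, Module.End.mul_apply, ih]
    funext t
    rw [Q.Growth.D_iter_succ, Int.cast_sub]
    simp only [map_sub, aeval_X, map_one, LinearMap.sub_apply, Pi.sub_apply]
    rfl

/-- the Euler characteristic relation, with a root of unity -/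
theorem w10_euler {N b : ℕ} (hb : 2 ≤ b) (h : ℕ → ℤ) (t0 : ℕ)
    (H : ∀ t, t0 ≤ t → ∀ r,
      ∑ i ∈ (Finset.range (N * (b - 1) + 1)).filter (fun i => i % b = r % b),
        (bx N b i : ℤ) * h (t + i) =
      ∑ i ∈ (Finset.range (N * (b - 1) + 1)).filter (fun i => i % b = 0),
        (bx N b i : ℤ) * h (t + i))
    (w : ℂ) (hw : w ^ b = 1) (hw1 : w ≠ 1) (t : ℕ) (ht : t0 ≤ t) :
    ∑ i ∈ Finset.range (N * (b - 1) + 1), (bx N b i : ℂ) * w ^ i * (h (t + i) : ℂ) = 0 := by
  have hmap : ∀ i ∈ Finset.range (N * (b - 1) + 1), i % b ∈ Finset.range b := by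
    intro i _
    exact Finset.mem_range.2 (Nat.mod_lt _ (by omega))
  rw [← Finset.sum_fiberwise_of_maps_to hmap]
  have h1 : ∀ r ∈ Finset.range b,
      ∑ i ∈ (Finset.range (N * (b - 1) + 1)).filter (fun i => i % b = r),
        (bx N b i : ℂ) * w ^ i * (h (t + i) : ℂ) =
      w ^ r * (((∑ i ∈ (Finset.range (N * (b - 1) + 1)).filter (fun i => i % b = 0),
        (bx N b i : ℤ) * h (t + i) : ℤ)) : ℂ) := by
    intro r hr
    have hr' : r % b = r := Nat.mod_eq_of_lt (Finset.mem_range.1 hr)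
    have h2 := H t ht r
    rw [hr'] at h2
    rw [← h2, Int.cast_sum, Finset.mul_sum]
    refine Finset.sum_congr rfl (fun i hi => ?_)
    have hi2 : i % b = r := (Finset.mem_filter.1 hi).2
    rw [pow_eq_pow_mod i hw, hi2, Int.cast_mul, Int.cast_natCast]
    ring
  rw [Finset.sum_congr rfl h1, ← Finset.sum_mul, w10_geom b w hw hw1, zero_mul]

theorem w10_mem {N b : ℕ} (hb : 2 ≤ b) (h : ℕ → ℤ) (t0 : ℕ)
    (H : ∀ t, t0 ≤ t → ∀ r,
      ∑ i ∈ (Finset.range (N * (b - 1) + 1)).filter (fun i => i % b = r % b),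
        (bx N b i : ℤ) * h (t + i) =
      ∑ i ∈ (Finset.range (N * (b - 1) + 1)).filter (fun i => i % b = 0),
        (bx N b i : ℤ) * h (t + i))
    (w : ℂ) (hw : w ^ b = 1) (hw1 : w ≠ 1) :
    (w10f b w) ^ N ∈ w10I (fun t => (h t : ℂ)) := by
  rw [mem_w10I]
  refine ⟨t0, fun t ht => ?_⟩
  rw [← w10_euler hb h t0 H w hw hw1 t ht]
  unfold w10f
  rw [w10_gen N b (C w * X), map_sum, LinearMap.sum_apply, Finset.sum_apply]
  refine Finset.sum_congr rfl (fun i _ => ?_)
  have e : ((bx N b i : ℕ) : ℂ[X]) * (C w * X) ^ i = C ((bx N b i : ℂ) * w ^ i) * X ^ i := by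
    rw [mul_pow, C_mul, C_pow, ← mul_assoc]
    rfl
  rw [e, map_mul, aeval_C, map_pow, aeval_X, Module.End.mul_apply,
    Module.algebraMap_end_apply, Pi.smul_apply, w10S_pow, smul_eq_mul]

theorem diff_eq_zero {N b : ℕ} (hb : 2 ≤ b) (h : ℕ → ℤ) (t0 : ℕ)
    (H : ∀ t, t0 ≤ t → ∀ r,
      ∑ i ∈ (Finset.range (N * (b - 1) + 1)).filter (fun i => i % b = r % b),
        (bx N b i : ℤ) * h (t + i) =
      ∑ i ∈ (Finset.range (N * (b - 1) + 1)).filter (fun i => i % b = 0),
        (bx N b i : ℤ) * h (t + i)) :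
    ∃ t1, ∀ t, t1 ≤ t → Q.Growth.D^[N] h t = 0 := by
  have hone : (1 : ℂ[X]) ∈ w10I (fun t => ((Q.Growth.D^[N] h t : ℤ) : ℂ)) := by
    apply w10_one_mem
    intro z
    obtain ⟨w, hw, hw1, hG⟩ := w10_root b hb z
    have hroot : IsRoot (w10f b w) 1 := by
      rw [IsRoot, w10f_eval]
      simp only [mul_one]
      exact w10_geom b w hw hw1
    obtain ⟨G, hGe⟩ := dvd_iff_isRoot.2 hroot
    refine ⟨G ^ N, ?_, ?_⟩
    · have h1 := w10_mem hb h t0 H w hw hw1
      rw [mem_w10I] at h1 ⊢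
      obtain ⟨t1, h1⟩ := h1
      refine ⟨t1, fun t ht => ?_⟩
      rw [← w10_D, ← Module.End.mul_apply, ← map_mul, ← mul_pow, mul_comm G, ← hGe]
      exact h1 t ht
    · rw [eval_pow]
      exact pow_ne_zero _ (hG G hGe)
  rw [mem_w10I] at hone
  obtain ⟨t1, h1⟩ := hone
  refine ⟨t1, fun t ht => ?_⟩
  have h2 := h1 t ht
  rw [map_one, Module.End.one_apply] at h2
  exact_mod_cast h2

end Vale.Agent.P200.W
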