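import Vale.Agent.P200.Q.Dom3

/-!
Divisibility from the growth.  `H : ℕ → ℕ` with `D^(N+1) H = 0` eventually, and
`m C(s+N, N) ≤ H (b s + T)`, `H (T' + b s) ≤ m C(s+e+N, N)`.  Then `m = b^N μ` where `μ = D^N H` (eventually
constant).

Proof.  `G(s) = H(T'' + b s)` (any `T''`): `D^N G = b^N μ`, `D^(N+1) G = 0` eventually (the shift `E_s` of
`s` is `E^b`, `E^b - 1 = (E - 1)(1 + E + ... + E^(b-1))`, or: `H` is eventually a polynomial of degree `≤ N` with leading coefficient
`μ/N!`).  A function `f` with `D^(N+1) f = 0` eventually and `D^N f = c > 0` (eventually) tends to `+∞` (`N ≥ 1`), for `N = 0` it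
equals `c`; so from `m C(s+N,N) ≤ G(s)` for large `s` we get `m ≤ b^N μ` and from `G(s) ≤ m C(s+e+N,N)` we get
`b^N μ ≤ m`.  (See `Q/Dom3.lean`: `D_iter_choose`, `bound`, `pos_of_growth`.)
-/

namespace Vale.Agent.P200.W

open Vale.Agent.P200.Q.Growth

theorem w11_D_sub (f g : ℕ → ℤ) (n c : ℕ) :
    D^[n] (fun c => f c - g c) c = D^[n] f c - D^[n] g c := by
  induction n generalizing c with
  | zero => rfl
  | succ n ih =>
    rw [D_iter_succ, D_iter_succ, D_iter_succ, ih, ih]
    ring

theorem w11_D_mul (k : ℤ) (f : ℕ → ℤ) (n c : ℕ) :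
    D^[n] (fun c => k * f c) c = k * D^[n] f c := by
  induction n generalizing c with
  | zero => rfl
  | succ n ih =>
    rw [D_iter_succ, D_iter_succ, ih, ih]
    ring

theorem w11_D_sum (b : ℕ) (f : ℕ → ℕ → ℤ) (n c : ℕ) :
    D^[n] (fun c => ∑ j ∈ Finset.range b, f j c) c = ∑ j ∈ Finset.range b, D^[n] (f j) c := by
  induction n generalizing c with
  | zero => rfl
  | succ n ih =>
    rw [D_iter_succ, ih, ih, ← Finset.sum_sub_distrib]
    exact Finset.sum_congr rfl fun j _ => (D_iter_succ _ _ _).symm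

theorem w11_tele (f : ℕ → ℤ) (b x : ℕ) :
    f (x + b) - f x = ∑ j ∈ Finset.range b, D f (x + j) := by
  induction b with
  | zero => simp
  | succ b ih =>
    rw [Finset.sum_range_succ, ← ih]
    simp only [D, ← add_assoc]
    ring

/-- dilation multiplies the `N`-th difference by `b ^ N` -/
theorem w11_dilate (b : ℕ) (μ : ℤ) (t1 : ℕ) (N : ℕ) : ∀ (f : ℕ → ℤ),
    (∀ t, t1 ≤ t → D^[N] f t = μ) → ∀ T s, t1 ≤ b * s + T →
      D^[N] (fun s => f (b * s + T)) s = b ^ N * μ := by
  induction N with
  | zero =>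
    intro f h T s hs
    simpa using h _ hs
  | succ N ih =>
    intro f h T s hs
    have e : D (fun s => f (b * s + T)) =
        fun s => ∑ j ∈ Finset.range b, D f (b * s + (T + j)) := by
      funext s
      have := w11_tele f b (b * s + T)
      simp only [D] at this ⊢
      have e1 : b * (s + 1) + T = b * s + T + b := by ring
      rw [e1, this]
      refine Finset.sum_congr rfl fun j _ => ?_
      rw [show b * s + (T + j) = b * s + T + j by ring]
    rw [Function.iterate_succ_apply, e, w11_D_sum b (fun j s => D f (b * s + (T + j)))]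
    rw [Finset.sum_congr rfl (g := fun _ => (b : ℤ) ^ N * μ)]
    · rw [Finset.sum_const, Finset.card_range, nsmul_eq_mul]
      ring
    · intro j _
      refine ih (D f) (fun t ht => ?_) (T + j) s (by omega)
      have := h t ht
      rwa [Function.iterate_succ_apply] at this

/-- a function with an eventually negative `N`-th difference is eventually negative -/
theorem w11_ev_neg (N : ℕ) : ∀ (F : ℕ → ℤ) (s0 : ℕ), (∀ s, s0 ≤ s → D^[N] F s ≤ -1) →
    ∃ s1, ∀ s, s1 ≤ s → F s ≤ -1 := by
  induction N with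
  | zero =>
    intro F s0 h
    exact ⟨s0, fun s hs => h s hs⟩
  | succ N ih =>
    intro F s0 h
    obtain ⟨s1, h1⟩ := ih (D F) s0 (fun s hs => by
      have := h s hs
      rwa [Function.iterate_succ_apply] at this)
    have key : ∀ k : ℕ, F (s1 + k) ≤ F s1 - k := by
      intro k
      induction k with
      | zero => simp
      | succ k ihk =>
        have h2 := h1 (s1 + k) (by omega)
        simp only [D] at h2
        rw [← add_assoc]
        push_cast
        linarith
    refine ⟨s1 + ((F s1).toNat + 1), fun s hs => ?_⟩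
    obtain ⟨k, rfl⟩ := Nat.exists_eq_add_of_le (show s1 ≤ s by omega)
    have h3 := key k
    have h4 : (F s1) ≤ (F s1).toNat := Int.self_le_toNat _
    have h5 : ((F s1).toNat : ℤ) + 1 ≤ k := by
      have : (F s1).toNat + 1 ≤ k := by omega
      exact_mod_cast this
    linarith

theorem growth_dvd {N b m : ℕ} (hb : 1 ≤ b) (H : ℕ → ℕ) (t1 T T' e : ℕ)
    (hd : ∀ t, t1 ≤ t → D^[N + 1] (fun t => (H t : ℤ)) t = 0)
    (lo : ∀ s, m * (s + N).choose N ≤ H (b * s + T))
    (hi : ∀ s, H (b * s + T') ≤ m * (s + e + N).choose N) : b ^ N ∣ m := by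
  set f : ℕ → ℤ := fun t => (H t : ℤ) with hf
  have hμ : ∀ t, t1 ≤ t → D^[N] f t = D^[N] f t1 := by
    intro t ht
    induction t, ht using Nat.le_induction with
    | base => rfl
    | succ t ht ih =>
      have h1 := hd t ht
      rw [D_iter_succ] at h1
      linarith
  set μ : ℤ := D^[N] f t1
  have hT : ∀ T s, t1 ≤ s → D^[N] (fun s => f (b * s + T)) s = b ^ N * μ := by
    intro T s hs
    refine w11_dilate b μ t1 N f hμ T s ?_
    nlinarith
  have hC : ∀ a s, D^[N] (fun s => (m : ℤ) * ((a + s).choose N : ℤ)) s = m := by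
    intro a s
    have h1 := w11_D_mul (m : ℤ) (fun s => ((a + s).choose (0 + N) : ℤ)) N s
    rw [D_iter_choose, Nat.choose_zero_right] at h1
    simpa using h1
  have hle1 : (m : ℤ) ≤ b ^ N * μ := by
    by_contra hlt
    push Not at hlt
    obtain ⟨s1, hs1⟩ := w11_ev_neg N
      (fun s => f (b * s + T) - (m : ℤ) * ((N + s).choose N : ℤ)) t1 (fun s hs => by
        rw [w11_D_sub (fun s => f (b * s + T)) (fun s => (m : ℤ) * ((N + s).choose N : ℤ)), hT T s hs,
          hC N s]
        linarith)
    have h1 := hs1 s1 le_rfl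
    have h2 := lo s1
    rw [add_comm s1 N] at h2
    have h3 : (m : ℤ) * ((N + s1).choose N : ℤ) ≤ f (b * s1 + T) := by
      simp only [hf]
      exact_mod_cast h2
    linarith
  have hle2 : (b : ℤ) ^ N * μ ≤ m := by
    by_contra hlt
    push Not at hlt
    obtain ⟨s1, hs1⟩ := w11_ev_neg N
      (fun s => (m : ℤ) * (((e + N) + s).choose N : ℤ) - f (b * s + T')) t1 (fun s hs => by
        rw [w11_D_sub (fun s => (m : ℤ) * (((e + N) + s).choose N : ℤ)) (fun s => f (b * s + T')),
          hT T' s hs, hC (e + N) s]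
        linarith)
    have h1 := hs1 s1 le_rfl
    have h2 := hi s1
    rw [show s1 + e + N = (e + N) + s1 by ring] at h2
    have h3 : f (b * s1 + T') ≤ (m : ℤ) * (((e + N) + s1).choose N : ℤ) := by
      simp only [hf]
      exact_mod_cast h2
    linarith
  have heq : ((m : ℕ) : ℤ) = ((b ^ N : ℕ) : ℤ) * μ := by
    push_cast
    exact le_antisymm hle1 hle2
  exact Int.natCast_dvd_natCast.mp ⟨μ, heq⟩

end Vale.Agent.P200.W
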