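import Vale.Agent.P200.W.Filt
import Vale.Agent.P200.W.Diff
import Vale.Agent.P200.W.Grow

/-!
**Divisibility lemma.**  Let `V` be a finite dimensional vector space over `F = K(y_0..y_(N-1))` with
`F`-linear operators `E a` such that `∑_{words of content α} E_word = ∑_k ψ_{k,α} y_k`, and such that long words
are `∑ y_k *` (combinations of shorter words).  Then `b^N` divides `dim_F V`.

Proof.  `P = K[y]`.  Let `v_1..v_m` be an `F`-basis of `V`, `M t` the `K`-span of the `E_word v_i` with
`length word ≤ t`.  `filt_strand` applies: `y_k` is a `K`-combination of words of length `b`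
(the `ψ_k` are linearly independent, because they are a regular sequence / m-primary in `N` variables; take
`d_{kα}` with `∑_α d_{kα} ψ_{l,α} = δ_{kl}`; then `y_k = ∑_α d_{kα} csum b E α`), so `y_k M t ≤ M (t+b)`; `gen` follows from
`hlong`.  `diff_eq_zero` (for `h t = H (t+1) - H t`, `H t = dim M t`) gives `D^(N+1) H = 0` eventually.
Lower bound: `M (b s)` contains the `y^γ v_i`, `|γ| ≤ s`, which are `K`-linearly independent, and there
are `m C(s+N, N)` of them.  Upper bound: by `gen`, `M (t0 + b + b s)` is contained in the `K`-span of `y^γ M (t0+b)`, `|γ| ≤ s'`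
for a suitable `s' = c (s + 1)`; careful: to get `|γ| ≤ s` use for all `t ≥ t0`:
`M (t + b) ≤ M (t + b - 1) + ∑ y_k M t`, hence by induction on `t`: `M t ≤ ∑_{|γ| ≤ s} y^γ M T'` whenever
`t ≤ T' + b s` (`T' = t0 + b`): indeed `M (t+b-1)` is in the same range and `M t` is in the range for `s - 1`.  `M T'` is finite dimensional, so it is contained
in `(1/d) ∑_i P_{≤ e} v_i` for some `0 ≠ d ∈ P` and `e`; multiplication by `d` is injective, so
`H (T' + b s) ≤ m C(s+e+N, N)`.  Conclude with `growth_dvd`.
-/

namespace Vale.Agent.P200.W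

open MvPolynomial Module
open Vale.Agent.P200.B Vale.Agent.P200.G Vale.Agent.P200.L Vale.Agent.P200.M Vale.Agent.P200.V

/-- the exponents of degree `≤ s` -/
noncomputable def w12_Gam (N s : ℕ) : Finset (Fin N →₀ ℕ) :=
  (Finset.range (s + 1)).biUnion fun k => Finset.finsuppAntidiag Finset.univ k

theorem w12_mem_Gam {N s : ℕ} {γ : Fin N →₀ ℕ} : γ ∈ w12_Gam N s ↔ γ.degree ≤ s := by
  unfold w12_Gam
  rw [Finset.mem_biUnion]
  constructor
  · rintro ⟨k, hk, h⟩
    rw [Finset.mem_finsuppAntidiag] at h
    rw [Finset.mem_range] at hk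
    have : γ.degree = k := by
      rw [Finsupp.degree_eq_sum]; exact h.1
    omega
  · intro h
    refine ⟨γ.degree, Finset.mem_range.2 (by omega), ?_⟩
    rw [Finset.mem_finsuppAntidiag]
    exact ⟨(Finsupp.degree_eq_sum γ).symm, Finset.subset_univ _⟩

theorem w12_card_Gam (N s : ℕ) : (w12_Gam N s).card = (s + N).choose N := by
  have h1 : (w12_Gam N s).card = ∑ k ∈ Finset.range (s + 1), (N + k - 1).choose k := by
    unfold w12_Gam
    rw [Finset.card_biUnion]
    · refine Finset.sum_congr rfl fun k _ => ?_
      rw [Finset.card_finsuppAntidiag_nat_eq_choose, Finset.card_univ, Fintype.card_fin]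
    · intro i _ j _ hij
      rw [Function.onFun, Finset.disjoint_left]
      intro γ h1 h2
      rw [Finset.mem_finsuppAntidiag] at h1 h2
      exact hij (h1.1.symm.trans h2.1)
  have h2 : ∀ s : ℕ, ∑ k ∈ Finset.range (s + 1), (N + k - 1).choose k = (N + s).choose s := by
    intro s
    induction s with
    | zero => simp
    | succ s ih =>
      rw [Finset.sum_range_succ, ih]
      have e1 : N + (s + 1) - 1 = N + s := by omega
      have e2 : N + (s + 1) = N + s + 1 := by omega
      rw [e1, e2, Nat.choose_succ_succ]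
  rw [h1, h2, add_comm N s]
  exact (Nat.choose_symm_add).symm ▸ rfl

theorem w12_functionals {K : Type*} [Field K] {ι σ : Type*} [Fintype ι] [DecidableEq ι]
    {ψ : ι → MvPolynomial σ K} (h : LinearIndependent K ψ) :
    ∃ (S : Finset (σ →₀ ℕ)) (d : ι → (σ →₀ ℕ) → K), ∀ k l,
      ∑ α ∈ S, d k α * coeff α (ψ l) = if k = l then 1 else 0 := by
  classical
  obtain ⟨g, hg⟩ := (Finsupp.linearCombination K ψ).exists_leftInverse_of_injective
    (LinearMap.ker_eq_bot.2 h)
  refine ⟨Finset.univ.biUnion fun l => (ψ l).support, fun k α => g (monomial α 1) k, ?_⟩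
  intro k l
  have h1 : g (ψ l) = Finsupp.single l 1 := by
    have := LinearMap.congr_fun hg (Finsupp.single l 1)
    simpa using this
  have h2 : ψ l = ∑ α ∈ Finset.univ.biUnion fun l => (ψ l).support,
      coeff α (ψ l) • monomial α (1 : K) := by
    conv_lhs => rw [(ψ l).as_sum]
    rw [← Finset.sum_subset (Finset.subset_biUnion_of_mem (fun l => (ψ l).support)
      (Finset.mem_univ l))]
    · refine Finset.sum_congr rfl fun α _ => ?_
      rw [smul_monomial, smul_eq_mul, mul_one]
    · intro α _ hα
      rw [notMem_support_iff.1 hα, zero_smul]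
  have h3 : g (ψ l) k = ∑ α ∈ Finset.univ.biUnion fun l => (ψ l).support,
      g (monomial α 1) k * coeff α (ψ l) := by
    conv_lhs => rw [h2]
    rw [map_sum, Finsupp.finsetSum_apply]
    refine Finset.sum_congr rfl fun α _ => ?_
    rw [map_smul, Finsupp.smul_apply, smul_eq_mul, mul_comm]
  rw [← h3, h1, Finsupp.single_apply]
  simp only [eq_comm]

section space

variable {K : Type*} [Field K] {N : ℕ} {V : Type*} [AddCommGroup V] [Module K V]
  [Module (MvPolynomial (Fin N) K) V]

/-- the span of `y^γ v_i`, `|γ| ≤ s` -/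
noncomputable def w12_Z {ι : Type*} (v : ι → V) (s : ℕ) : Submodule K V :=
  Submodule.span K (Set.range fun p : w12_Gam N s × ι =>
    (monomial p.1.1 (1 : K) : MvPolynomial (Fin N) K) • v p.2)

theorem w12_Z_mono {ι : Type*} (v : ι → V) {s s' : ℕ} (h : s ≤ s') :
    w12_Z (N := N) (K := K) v s ≤ w12_Z (N := N) v s' := by
  unfold w12_Z
  rw [Submodule.span_le]
  rintro _ ⟨⟨⟨γ, hγ⟩, i⟩, rfl⟩
  rw [w12_mem_Gam] at hγ
  exact Submodule.subset_span ⟨⟨⟨γ, w12_mem_Gam.2 (hγ.trans h)⟩, i⟩, rfl⟩

theorem w12_Z_finrank {ι : Type*} [Fintype ι] (v : ι → V) (s : ℕ) :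
    finrank K (w12_Z (N := N) (K := K) v s) ≤ Fintype.card ι * (s + N).choose N := by
  have h := finrank_range_le_card (R := K) (fun p : w12_Gam N s × ι =>
    (monomial p.1.1 (1 : K) : MvPolynomial (Fin N) K) • v p.2)
  rw [Fintype.card_prod, Fintype.card_coe, w12_card_Gam, mul_comm] at h
  exact h

instance w12_Z_fin {ι : Type*} [Finite ι] (v : ι → V) (s : ℕ) :
    FiniteDimensional K (w12_Z (N := N) (K := K) v s) := by
  unfold w12_Z
  exact FiniteDimensional.span_of_finite K (Set.finite_range _)

variable [IsScalarTower K (MvPolynomial (Fin N) K) V]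

theorem w12_smul_monomial {ι : Type*} (v : ι → V) (s : ℕ) (α : Fin N →₀ ℕ) (u : V)
    (hu : u ∈ w12_Z (N := N) (K := K) v s) :
    (monomial α (1 : K) : MvPolynomial (Fin N) K) • u ∈ w12_Z (N := N) (K := K) v
      (s + α.degree) := by
  refine Submodule.span_induction (p := fun u _ =>
    (monomial α (1 : K) : MvPolynomial (Fin N) K) • u ∈ w12_Z (N := N) (K := K) v
      (s + α.degree)) ?_ ?_ ?_ ?_ hu
  · rintro _ ⟨⟨⟨γ, hγ⟩, i⟩, rfl⟩
    rw [w12_mem_Gam] at hγ
    simp only
    rw [← mul_smul, monomial_mul, one_mul]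
    refine Submodule.subset_span ⟨⟨⟨α + γ, w12_mem_Gam.2 ?_⟩, i⟩, rfl⟩
    rw [map_add]
    omega
  · rw [smul_zero]
    exact Submodule.zero_mem _
  · intro x y _ _ hx hy
    rw [smul_add]
    exact Submodule.add_mem _ hx hy
  · intro c x _ hx
    rw [smul_comm]
    exact Submodule.smul_mem _ _ hx

theorem w12_smul_poly {ι : Type*} (v : ι → V) (s : ℕ) (q : MvPolynomial (Fin N) K) (u : V)
    (hu : u ∈ w12_Z (N := N) (K := K) v s) :
    q • u ∈ w12_Z (N := N) (K := K) v (s + q.totalDegree) := by
  rw [q.as_sum, Finset.sum_smul]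
  refine Submodule.sum_mem _ fun α hα => ?_
  have e : (monomial α (coeff α q) : MvPolynomial (Fin N) K) = coeff α q • monomial α 1 := by
    rw [smul_monomial, smul_eq_mul, mul_one]
  rw [e, smul_assoc]
  refine Submodule.smul_mem _ _ ?_
  rw [← q.as_sum]
  refine w12_Z_mono v ?_ (w12_smul_monomial v s α u hu)
  have := le_totalDegree hα
  rw [Finsupp.degree_eq_sum]
  rw [Finsupp.sum_fintype _ _ (fun _ => rfl)] at this
  omega

variable {F : Type*} [Field F] [Algebra (MvPolynomial (Fin N) K) F]
  [IsFractionRing (MvPolynomial (Fin N) K) F] [Module F V]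
  [IsScalarTower (MvPolynomial (Fin N) K) F V]

/-- every vector has a denominator -/
theorem w12_denom {ι : Type*} [Fintype ι] (v : Basis ι F V) (u : V) :
    ∃ d : MvPolynomial (Fin N) K, d ≠ 0 ∧ ∃ e, d • u ∈ w12_Z (N := N) (K := K) v e := by
  rw [← v.sum_repr u]
  refine Finset.sum_induction _ (fun u => ∃ d : MvPolynomial (Fin N) K, d ≠ 0 ∧
    ∃ e, d • u ∈ w12_Z (N := N) (K := K) v e) ?_ ?_ ?_
  · rintro x y ⟨d, hd, e, h⟩ ⟨d', hd', e', h'⟩
    refine ⟨d' * d, mul_ne_zero hd' hd, (e + d'.totalDegree) + (e' + d.totalDegree), ?_⟩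
    rw [smul_add]
    refine Submodule.add_mem _ ?_ ?_
    · rw [mul_smul]
      exact w12_Z_mono v (Nat.le_add_right _ _) (w12_smul_poly v e d' _ h)
    · rw [mul_comm, mul_smul]
      exact w12_Z_mono v (Nat.le_add_left _ _) (w12_smul_poly v e' d _ h')
  · exact ⟨1, one_ne_zero, 0, by rw [smul_zero]; exact Submodule.zero_mem _⟩
  · intro i _
    obtain ⟨a, d, hd, had⟩ := IsFractionRing.div_surjective (A := MvPolynomial (Fin N) K)
      (v.repr u i)
    have hd0 : d ≠ 0 := nonZeroDivisors.ne_zero hd
    have hd1 : algebraMap (MvPolynomial (Fin N) K) F d ≠ 0 := by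
      intro h
      exact hd0 ((IsFractionRing.injective (MvPolynomial (Fin N) K) F) (by rw [h, map_zero]))
    refine ⟨d, hd0, 0 + a.totalDegree, ?_⟩
    have e1 : d • (v.repr u i • v i) = a • v i := by
      rw [← had, ← algebraMap_smul F d, ← algebraMap_smul F a, smul_smul,
        mul_div_cancel₀ _ hd1]
    rw [e1]
    refine w12_smul_poly v 0 a _ ?_
    refine Submodule.subset_span ⟨⟨⟨0, w12_mem_Gam.2 (by simp)⟩, i⟩, ?_⟩
    simp only
    rw [show (monomial (0 : Fin N →₀ ℕ) (1 : K)) = 1 from rfl, one_smul]

theorem w12_denom_finite {ι : Type*} [Fintype ι] (v : Basis ι F V) {S : Set V} (hS : S.Finite) :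
    ∃ d : MvPolynomial (Fin N) K, d ≠ 0 ∧ ∃ e, ∀ u ∈ S, d • u ∈ w12_Z (N := N) (K := K) v e := by
  induction S, hS using Set.Finite.induction_on with
  | empty => exact ⟨1, one_ne_zero, 0, fun u hu => absurd hu (Set.notMem_empty u)⟩
  | @insert a S _ _ ih =>
    obtain ⟨d, hd, e, h⟩ := ih
    obtain ⟨d', hd', e', h'⟩ := w12_denom (N := N) (K := K) v a
    refine ⟨d' * d, mul_ne_zero hd' hd, (e + d'.totalDegree) + (e' + d.totalDegree), ?_⟩
    intro u hu
    rcases hu with rfl | hu
    · rw [mul_comm, mul_smul]
      exact w12_Z_mono v (Nat.le_add_left _ _) (w12_smul_poly v e' d _ h')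
    · rw [mul_smul]
      exact w12_Z_mono v (Nat.le_add_right _ _) (w12_smul_poly v e d' _ (h u hu))

end space


section words

variable {K : Type*} [Field K] {N : ℕ} {V : Type*} [AddCommGroup V] [Module K V]
  {F : Type*} [Field F] [Module F V]

/-- the span of the words of length `≤ t` applied to the `v i` -/
def w12_M (K : Type*) [Field K] [Module K V] (E : Fin N → Module.End F V) {ι : Type*} (v : ι → V)
    (t : ℕ) : Submodule K V :=
  Submodule.span K {u | ∃ l : List (Fin N), l.length ≤ t ∧ ∃ i, u = (l.map E).prod (v i)}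

theorem w12_M_gen (E : Fin N → Module.End F V) {ι : Type*} (v : ι → V) {t : ℕ}
    (l : List (Fin N)) (hl : l.length ≤ t) (i : ι) :
    (l.map E).prod (v i) ∈ w12_M K E v t :=
  Submodule.subset_span ⟨l, hl, i, rfl⟩

theorem w12_M_mono (E : Fin N → Module.End F V) {ι : Type*} (v : ι → V) :
    Monotone (w12_M K E v) := by
  intro s t hst
  unfold w12_M
  rw [Submodule.span_le]
  rintro _ ⟨l, hl, i, rfl⟩
  exact Submodule.subset_span ⟨l, hl.trans hst, i, rfl⟩

theorem w12_gens_finite (E : Fin N → Module.End F V) {ι : Type*} [Finite ι] (v : ι → V) (t : ℕ) :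
    {u | ∃ l : List (Fin N), l.length ≤ t ∧ ∃ i, u = (l.map E).prod (v i)}.Finite := by
  have h := (List.finite_length_le (Fin N) t).prod (Set.finite_univ (α := ι))
  refine (h.image fun p : List (Fin N) × ι => (p.1.map E).prod (v p.2)).subset ?_
  rintro _ ⟨l, hl, i, rfl⟩
  exact ⟨(l, i), ⟨hl, Set.mem_univ _⟩, rfl⟩

theorem w12_M_fin (E : Fin N → Module.End F V) {ι : Type*} [Finite ι] (v : ι → V) (t : ℕ) :
    FiniteDimensional K (w12_M K E v t) :=
  FiniteDimensional.span_of_finite K (w12_gens_finite E v t)

variable [Algebra K F] [IsScalarTower K F V]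

theorem w12_E_mem (E : Fin N → Module.End F V) {ι : Type*} (v : ι → V) (a : Fin N) (t : ℕ) (u : V)
    (hu : u ∈ w12_M K E v t) : E a u ∈ w12_M K E v (t + 1) := by
  refine Submodule.span_induction (p := fun u _ => E a u ∈ w12_M K E v (t + 1)) ?_ ?_ ?_ ?_ hu
  · rintro _ ⟨l, hl, i, rfl⟩
    have h := w12_M_gen (K := K) E v (t := t + 1) (a :: l) (by simpa using hl) i
    simpa using h
  · rw [map_zero]
    exact Submodule.zero_mem _
  · intro x y _ _ hx hy
    rw [map_add]
    exact Submodule.add_mem _ hx hy
  · intro c x _ hx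
    rw [← algebraMap_smul F c x, map_smul, algebraMap_smul]
    exact Submodule.smul_mem _ _ hx

theorem w12_word_mem (E : Fin N → Module.End F V) {ι : Type*} (v : ι → V) (l : List (Fin N))
    (t : ℕ) (u : V) (hu : u ∈ w12_M K E v t) :
    (l.map E).prod u ∈ w12_M K E v (t + l.length) := by
  induction l with
  | nil => simpa using hu
  | cons a l ih =>
    have h := w12_E_mem E v a _ _ ih
    simpa [add_assoc] using h

end words

section main

variable {K : Type*} [Field K] {N b : ℕ} {V : Type*} [AddCommGroup V] [Module K V]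
  [Module (MvPolynomial (Fin N) K) V] [IsScalarTower K (MvPolynomial (Fin N) K) V]
  {F : Type*} [Field F] [Algebra (MvPolynomial (Fin N) K) F]
  [IsFractionRing (MvPolynomial (Fin N) K) F] [Module F V] [Algebra K F]
  [IsScalarTower K (MvPolynomial (Fin N) K) F]
  [IsScalarTower (MvPolynomial (Fin N) K) F V] [IsScalarTower K F V]

omit [IsFractionRing (MvPolynomial (Fin N) K) F] [IsScalarTower K (MvPolynomial (Fin N) K) V]
  [IsScalarTower K (MvPolynomial (Fin N) K) F] in
/-- the variables are combinations of words of length `b` -/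
theorem w12_X_mem (ψ : Fin N → MvPolynomial (Fin N) K) (hlin : LinearIndependent K ψ)
    (E : Fin N → Module.End F V)
    (rel : ∀ α, csum b E α = algebraMap F (Module.End F V)
      (∑ k, algebraMap K F (coeff α (ψ k)) * algebraMap (MvPolynomial (Fin N) K) F (X k)))
    {ι : Type*} (v : ι → V) (k : Fin N) (t : ℕ) (u : V) (hu : u ∈ w12_M K E v t) :
    (X k : MvPolynomial (Fin N) K) • u ∈ w12_M K E v (t + b) := by
  classical
  obtain ⟨S, d, hd⟩ := w12_functionals hlin
  have h1 : (X k : MvPolynomial (Fin N) K) • u = ∑ α ∈ S, d k α • (csum b E α u) := by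
    have e1 : ∀ α, d k α • (csum b E α u) =
        (∑ l, algebraMap K F (d k α * coeff α (ψ l)) *
          algebraMap (MvPolynomial (Fin N) K) F (X l)) • u := by
      intro α
      rw [rel α, Module.algebraMap_end_apply, ← algebraMap_smul F (d k α), smul_smul,
        Finset.mul_sum]
      congr 1
      refine Finset.sum_congr rfl fun l _ => ?_
      rw [map_mul, mul_assoc]
    rw [Finset.sum_congr rfl fun α _ => e1 α, ← Finset.sum_smul, Finset.sum_comm]
    have e2 : ∀ l, ∑ α ∈ S, algebraMap K F (d k α * coeff α (ψ l)) *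
        algebraMap (MvPolynomial (Fin N) K) F (X l) =
        if k = l then algebraMap (MvPolynomial (Fin N) K) F (X l) else 0 := by
      intro l
      rw [← Finset.sum_mul, ← map_sum, hd k l]
      split_ifs
      · rw [map_one, one_mul]
      · rw [map_zero, zero_mul]
    rw [Finset.sum_congr rfl fun l _ => e2 l, Finset.sum_ite_eq, if_pos (Finset.mem_univ k),
      algebraMap_smul]
  rw [h1]
  refine Submodule.sum_mem _ fun α _ => Submodule.smul_mem _ _ ?_
  unfold csum
  rw [LinearMap.sum_apply]
  refine Submodule.sum_mem _ fun l _ => ?_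
  have h2 := w12_word_mem E v (List.ofFn l) t u hu
  rw [List.length_ofFn, List.map_ofFn] at h2
  exact h2

omit [IsFractionRing (MvPolynomial (Fin N) K) F] [Algebra K F]
  [IsScalarTower K (MvPolynomial (Fin N) K) F] [IsScalarTower K F V]
  [IsScalarTower K (MvPolynomial (Fin N) K) V] [Module K V] in
theorem w12_words (E : Fin N → Module.End F V) (l : List (Fin N)) (u : V) :
    ((l.map fun a => (E a).restrictScalars (MvPolynomial (Fin N) K)).prod :
      Module.End (MvPolynomial (Fin N) K) V) u = (l.map E).prod u := by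
  induction l with
  | nil => simp
  | cons a l ih =>
    rw [List.map_cons, List.prod_cons, List.map_cons, List.prod_cons, Module.End.mul_apply,
      Module.End.mul_apply, ih]
    rfl

theorem w12_aux (hb : 2 ≤ b) (ψ : Fin N → MvPolynomial (Fin N) K)
    (hψ : ∀ k, (ψ k).IsHomogeneous b) (hm : IsMPrimary (Ideal.span (Set.range ψ)))
    (hlin : LinearIndependent K ψ) [FiniteDimensional F V]
    (E : Fin N → Module.End F V)
    (rel : ∀ α, csum b E α = algebraMap F (Module.End F V)
      (∑ k, algebraMap K F (coeff α (ψ k)) * algebraMap (MvPolynomial (Fin N) K) F (X k)))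
    (t0 : ℕ) (hlong : ∀ t, t0 ≤ t → ∀ l : List (Fin N), l.length = t + b → ∀ v : V,
      ∃ w : Fin N → List (Fin N) →₀ K, (∀ k, ∀ l' ∈ (w k).support, l'.length = t) ∧
        (l.map E).prod v = ∑ k, algebraMap (MvPolynomial (Fin N) K) F (X k) •
          (w k).sum fun l' c => algebraMap K F c • (l'.map E).prod v) :
    b ^ N ∣ finrank F V := by
  classical
  let v := Module.finBasis F V
  let M : ℕ → Submodule K V := w12_M K E v
  have hmono : Monotone M := w12_M_mono E v
  have hfin : ∀ t, FiniteDimensional K (M t) := fun t => w12_M_fin E v t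
  have hy : ∀ k t u, u ∈ M t → (X k : MvPolynomial (Fin N) K) • u ∈ M (t + b) :=
    fun k t u hu => w12_X_mem ψ hlin E rel v k t u hu
  have gen : ∀ t, t0 ≤ t → ∀ u ∈ M (t + b), ∃ v ∈ M (t + b - 1), ∃ w : Fin N → V,
      (∀ k, w k ∈ M t) ∧ u = v + ∑ k, (X k : MvPolynomial (Fin N) K) • w k := by
    intro t ht u hu
    refine Submodule.span_induction (p := fun u _ => ∃ v ∈ M (t + b - 1), ∃ w : Fin N → V,
      (∀ k, w k ∈ M t) ∧ u = v + ∑ k, (X k : MvPolynomial (Fin N) K) • w k) ?_ ?_ ?_ ?_ hu
    · rintro _ ⟨l, hl, i, rfl⟩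
      rcases Nat.lt_or_ge l.length (t + b) with h | h
      · exact ⟨_, w12_M_gen E v l (by omega) i, 0, fun k => Submodule.zero_mem _, by simp⟩
      · obtain ⟨w, hw1, hw2⟩ := hlong t ht l (by omega) (v i)
        refine ⟨0, Submodule.zero_mem _, fun k => (w k).sum fun l' c =>
          algebraMap K F c • (l'.map E).prod (v i), ?_, ?_⟩
        · intro k
          refine Submodule.sum_mem _ fun l' hl' => ?_
          simp only
          rw [algebraMap_smul]
          exact Submodule.smul_mem _ _ (w12_M_gen E v l' (hw1 k l' hl').le i)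
        · rw [zero_add, hw2]
          refine Finset.sum_congr rfl fun k _ => ?_
          rw [algebraMap_smul]
    · exact ⟨0, Submodule.zero_mem _, 0, fun k => Submodule.zero_mem _, by simp⟩
    · rintro x y _ _ ⟨v1, hv1, w1, hw1, rfl⟩ ⟨v2, hv2, w2, hw2, rfl⟩
      refine ⟨v1 + v2, Submodule.add_mem _ hv1 hv2, w1 + w2,
        fun k => Submodule.add_mem _ (hw1 k) (hw2 k), ?_⟩
      simp only [Pi.add_apply, smul_add, Finset.sum_add_distrib]
      abel
    · rintro c x _ ⟨v1, hv1, w1, hw1, rfl⟩
      refine ⟨c • v1, Submodule.smul_mem _ _ hv1, c • w1, fun k => Submodule.smul_mem _ _ (hw1 k), ?_⟩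
      rw [smul_add, Finset.smul_sum]
      congr 1
      refine Finset.sum_congr rfl fun k _ => ?_
      rw [Pi.smul_apply, smul_comm]
  obtain ⟨t1, ht1⟩ := filt_strand hb ψ hψ hm
    (fun a => (E a).restrictScalars (MvPolynomial (Fin N) K)) (by
      intro α
      ext u
      have h1 : csum b (fun a => (E a).restrictScalars (MvPolynomial (Fin N) K)) α u =
          csum b E α u := by
        unfold csum
        rw [LinearMap.sum_apply, LinearMap.sum_apply]
        refine Finset.sum_congr rfl fun l _ => ?_
        have h2 := w12_words (K := K) E (List.ofFn l) u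
        rw [List.map_ofFn, List.map_ofFn] at h2
        exact h2
      rw [h1, rel α, Module.algebraMap_end_apply, Module.algebraMap_end_apply,
        ← algebraMap_smul F (∑ k, C (coeff α (ψ k)) * X k : MvPolynomial (Fin N) K)]
      congr 1
      rw [map_sum]
      refine Finset.sum_congr rfl fun k _ => ?_
      rw [map_mul]
      congr 1
      exact IsScalarTower.algebraMap_apply K (MvPolynomial (Fin N) K) F _)
    M hmono hfin (fun a t u hu => w12_E_mem E v a t u hu) hy t0 gen
  obtain ⟨t2, ht2⟩ := diff_eq_zero hb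
    (fun t => ((finrank K (M (t + 1)) : ℤ) - finrank K (M t))) t1 ht1
  -- lower bound
  have lo : ∀ s, finrank F V * (s + N).choose N ≤ finrank K (M (b * s + 0)) := by
    intro s
    have hpow : ∀ (γ : Fin N →₀ ℕ) (t : ℕ) (u : V), u ∈ M t →
        (monomial γ (1 : K) : MvPolynomial (Fin N) K) • u ∈ M (t + b * γ.degree) := by
      intro γ
      induction γ using Finsupp.induction_linear with
      | zero =>
        intro t u hu
        rw [show (monomial (0 : Fin N →₀ ℕ) (1 : K)) = 1 from rfl, one_smul]
        simpa using hu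
      | add f g hf hg =>
        intro t u hu
        have e : (monomial (f + g) (1 : K) : MvPolynomial (Fin N) K) =
            monomial f 1 * monomial g 1 := by
          rw [monomial_mul, one_mul]
        rw [e, mul_smul, map_add]
        have h := hf _ _ (hg _ _ hu)
        rwa [show t + b * g.degree + b * f.degree = t + b * (f.degree + g.degree) by ring] at h
      | single k n =>
        induction n with
        | zero =>
          intro t u hu
          rw [Finsupp.single_zero, show (monomial (0 : Fin N →₀ ℕ) (1 : K)) = 1 from rfl, one_smul]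
          simpa using hu
        | succ n ih =>
          intro t u hu
          have e : (monomial (Finsupp.single k (n + 1)) (1 : K) : MvPolynomial (Fin N) K) =
              X k * monomial (Finsupp.single k n) 1 := by
            rw [X, monomial_mul, one_mul, ← Finsupp.single_add, add_comm]
          rw [e, mul_smul]
          have h := hy k _ _ (ih _ _ hu)
          rw [Finsupp.degree_single] at h ⊢
          rwa [show t + b * n + b = t + b * (n + 1) by ring] at h
    have hli : LinearIndependent K (fun p : w12_Gam N s × Fin (finrank F V) =>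
        (monomial p.1.1 (1 : K) : MvPolynomial (Fin N) K) • v p.2) := by
      have h1 : LinearIndependent K (fun γ : w12_Gam N s =>
          algebraMap (MvPolynomial (Fin N) K) F (monomial γ.1 1)) := by
        have h2 : LinearIndependent K (fun γ : w12_Gam N s =>
            (monomial γ.1 (1 : K) : MvPolynomial (Fin N) K)) := by
          have h3 := (basisMonomials (Fin N) K).linearIndependent.comp
            (fun γ : w12_Gam N s => γ.1) Subtype.val_injective
          rw [coe_basisMonomials] at h3
          exact h3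
        exact h2.map' (IsScalarTower.toAlgHom K (MvPolynomial (Fin N) K) F).toLinearMap
          (LinearMap.ker_eq_bot.2 (IsFractionRing.injective (MvPolynomial (Fin N) K) F))
      have h4 := linearIndependent_smul h1 v.linearIndependent
      have e : (fun p : w12_Gam N s × Fin (finrank F V) =>
          algebraMap (MvPolynomial (Fin N) K) F (monomial p.1.1 1) • v p.2) =
          fun p => (monomial p.1.1 (1 : K) : MvPolynomial (Fin N) K) • v p.2 := by
        funext p
        rw [algebraMap_smul]
      rwa [e] at h4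
    have h5 := finrank_span_eq_card hli
    rw [Fintype.card_prod, Fintype.card_coe, w12_card_Gam, Fintype.card_fin] at h5
    rw [mul_comm, ← h5]
    refine Submodule.finrank_mono ?_
    rw [Submodule.span_le]
    rintro _ ⟨⟨⟨γ, hγ⟩, i⟩, rfl⟩
    rw [w12_mem_Gam] at hγ
    refine hmono ?_ (hpow γ 0 (v i) ?_)
    · rw [zero_add, add_zero]
      exact Nat.mul_le_mul_left b hγ
    · exact w12_M_gen E v [] le_rfl i
  -- upper bound
  obtain ⟨d, hd, e, he⟩ := w12_denom_finite (N := N) (K := K) v (w12_gens_finite E v (t0 + b))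
  have hbase : ∀ u ∈ M (t0 + b), d • u ∈ w12_Z (N := N) (K := K) v e := by
    intro u hu
    refine Submodule.span_induction (p := fun u _ => d • u ∈ w12_Z (N := N) (K := K) v e)
      he ?_ ?_ ?_ hu
    · rw [smul_zero]
      exact Submodule.zero_mem _
    · intro x y _ _ hx hy
      rw [smul_add]
      exact Submodule.add_mem _ hx hy
    · intro c x _ hx
      rw [smul_comm]
      exact Submodule.smul_mem _ _ hx
  have hup : ∀ t s, t ≤ t0 + b + b * s → ∀ u ∈ M t,
      d • u ∈ w12_Z (N := N) (K := K) v (s + e) := by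
    intro t
    induction t using Nat.strong_induction_on with
    | _ t ih =>
      intro s hs u hu
      rcases Nat.lt_or_ge (t0 + b) t with h | h
      · obtain ⟨t', rfl⟩ : ∃ t', t = t' + b := ⟨t - b, by omega⟩
        have hs0 : s ≠ 0 := by
          rintro rfl
          omega
        obtain ⟨s', rfl⟩ := Nat.exists_eq_succ_of_ne_zero hs0
        obtain ⟨x, hx, w, hw, rfl⟩ := gen t' (by omega) u hu
        rw [smul_add, Finset.smul_sum]
        refine Submodule.add_mem _ (ih _ (by omega) _ (by omega) x hx) ?_
        refine Submodule.sum_mem _ fun k _ => ?_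
        have h1 := ih t' (by omega) s' (by rw [Nat.succ_eq_add_one, mul_add] at hs; omega)
          (w k) (hw k)
        rw [smul_comm]
        have h2 := w12_smul_poly v (s' + e) (X k) _ h1
        rw [totalDegree_X] at h2
        rwa [show s' + e + 1 = s'.succ + e by omega] at h2
      · exact w12_Z_mono v (Nat.le_add_left _ _) (hbase u (hmono h hu))
  have hi : ∀ s, finrank K (M (b * s + (t0 + b))) ≤ finrank F V * (s + e + N).choose N := by
    intro s
    let f : V →ₗ[K] V := (LinearMap.lsmul (MvPolynomial (Fin N) K) V d).restrictScalars K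
    have hf : Function.Injective f := by
      rw [← LinearMap.ker_eq_bot, LinearMap.ker_eq_bot']
      intro u hu
      have h1 : d • u = 0 := hu
      rw [← algebraMap_smul F d u, smul_eq_zero] at h1
      rcases h1 with h1 | h1
      · exact absurd ((IsFractionRing.injective (MvPolynomial (Fin N) K) F)
          (by rw [h1, map_zero])) hd
      · exact h1
    have h2 : (M (b * s + (t0 + b))).map f ≤ w12_Z (N := N) (K := K) v (s + e) := by
      rintro _ ⟨u, hu, rfl⟩
      exact hup _ s (by omega) u hu
    have h3 := LinearEquiv.finrank_eq (Submodule.equivMapOfInjective f hf (M (b * s + (t0 + b))))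
    rw [h3]
    refine (Submodule.finrank_mono h2).trans ?_
    have h4 := w12_Z_finrank (N := N) (K := K) v (s + e)
    rwa [Fintype.card_fin] at h4
  exact growth_dvd (by omega) (fun t => finrank K (M t)) t2 0 (t0 + b) e
    (fun t ht => by
      rw [Function.iterate_succ_apply]
      exact ht2 t ht) lo hi

end main

theorem w12_linInd {K : Type*} [Field K] {N b : ℕ} (hb : 2 ≤ b)
    (ψ : Fin N → MvPolynomial (Fin N) K)
    (hψ : ∀ k, (ψ k).IsHomogeneous b) (hm : IsMPrimary (Ideal.span (Set.range ψ))) :
    LinearIndependent K ψ := by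
  classical
  rw [linearIndependent_iff_notMem_span]
  intro k hk
  have h1 : ψ k ∈ Ideal.span (Set.range (Function.update ψ k 0)) := by
    have h2 : Submodule.span K (ψ '' (Set.univ \ {k})) ≤
        (Ideal.span (Set.range (Function.update ψ k 0))).restrictScalars K := by
      rw [Submodule.span_le]
      rintro _ ⟨j, hj, rfl⟩
      have hjk : j ≠ k := fun h => hj.2 h
      exact Ideal.subset_span ⟨j, Function.update_of_ne hjk _ _⟩
    exact h2 hk
  have h3 : Ideal.span (Set.range ψ) ≤ Ideal.span (Set.range (Function.update ψ k 0)) := by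
    rw [Ideal.span_le]
    rintro _ ⟨j, rfl⟩
    by_cases hj : j = k
    · subst hj
      exact h1
    · exact Ideal.subset_span ⟨j, Function.update_of_ne hj _ _⟩
  refine ne_zero_of_isMPrimary (fun _ => b) (fun _ => by omega) (Function.update ψ k 0) ?_
    (IsMPrimary.mono hm h3) k (Function.update_self _ _ _)
  intro i
  by_cases hi : i = k
  · subst hi
    rw [Function.update_self]
    exact isHomogeneous_zero _ _ _
  · rw [Function.update_of_ne hi]
    exact hψ i

theorem div_lemma {K : Type*} [Field K] {N b : ℕ} (hb : 2 ≤ b)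
    (ψ : Fin N → MvPolynomial (Fin N) K)
    (hψ : ∀ k, (ψ k).IsHomogeneous b) (hm : IsMPrimary (Ideal.span (Set.range ψ)))
    {V : Type*} [AddCommGroup V] [Module (FF K N) V] [FiniteDimensional (FF K N) V]
    (E : Fin N → Module.End (FF K N) V)
    (rel : ∀ α, csum b E α = algebraMap (FF K N) (Module.End (FF K N) V)
      (∑ k, algebraMap K (FF K N) (coeff α (ψ k)) * yv K k))
    (t0 : ℕ) (hlong : ∀ t, t0 ≤ t → ∀ l : List (Fin N), l.length = t + b → ∀ v : V,
      ∃ w : Fin N → List (Fin N) →₀ K, (∀ k, ∀ l' ∈ (w k).support, l'.length = t) ∧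
        (l.map E).prod v = ∑ k, yv K k • (w k).sum fun l' c =>
          algebraMap K (FF K N) c • (l'.map E).prod v) :
    b ^ N ∣ finrank (FF K N) V := by
  let _ : Module (MvPolynomial (Fin N) K) V :=
    Module.compHom V (algebraMap (MvPolynomial (Fin N) K) (FF K N))
  let _ : Module K V := Module.compHom V (algebraMap K (FF K N))
  have _ : IsScalarTower (MvPolynomial (Fin N) K) (FF K N) V := ⟨fun p f v => by
    rw [Algebra.smul_def, mul_smul]
    rfl⟩
  have _ : IsScalarTower K (FF K N) V := ⟨fun c f v => by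
    rw [Algebra.smul_def, mul_smul]
    rfl⟩
  have _ : IsScalarTower K (MvPolynomial (Fin N) K) V := ⟨fun c p v => by
    change algebraMap (MvPolynomial (Fin N) K) (FF K N) (c • p) • v =
      algebraMap K (FF K N) c • (algebraMap (MvPolynomial (Fin N) K) (FF K N) p • v)
    rw [smul_smul, Algebra.smul_def, map_mul,
      ← IsScalarTower.algebraMap_apply K (MvPolynomial (Fin N) K) (FF K N)]⟩
  exact w12_aux hb ψ hψ hm (w12_linInd hb ψ hψ hm) E rel t0 hlong

end Vale.Agent.P200.W
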