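import Vale.Agent.P200.W.Defs

/-!
Cyclic orderings of the roots over an extension of degree prime to `b`.

Proof.  `M` = splitting field of `∏ p_j` inside the algebraic closure `Ω`; it is Galois over `L`.
Let `S` be a Sylow `b`-subgroup of `Gal(M/L)` and `L1` its fixed field (as an intermediate field of
`Ω/L`); `[L1 : L]` is the index of `S`, prime to `b`.  `S` acts on the set `X_j` of the `b` roots of
`p_j` and its image in `Perm X_j` is a `b`-group whose order divides `b!`, hence has order `1` or `b`.
If it is trivial, take any bijection `θ_j : ZMod b ≃ X_j`.  If it has order `b` it is generated by a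
permutation `s` of prime order `b` of a set with `b` elements, i.e. a `b`-cycle
(`Equiv.Perm.isCycle_of_prime_order''` or an orbit argument); put `θ_j i = s^i x_0`.  In both cases
every element of `S` acts on `X_j` as a translation `θ_j i ↦ θ_j (i + r)`.  The interpolation polynomial
`g_j = ∑_i θ_j (i+1) ∏_{k ≠ i} (T - θ_j k)/(θ_j i - θ_j k)` (`Lagrange.interpolate`) is fixed by `S`, so its
coefficients lie in `L1`.
-/

namespace Vale.Agent.P200.W

open Module
open Function (minimalPeriod IsPeriodicPt IsFixedPt minimalPeriod_eq_one_iff_isFixedPt iterate_injOn_Iio_minimalPeriod iterate_mod_minimalPeriod_eq Injective)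

theorem w3_period {P Y : Type*} [Group P] [MulAction P Y] {b : ℕ} [hb : Fact b.Prime]
    (hP : IsPGroup b P) (X : Finset Y) (hX : X.card = b) (hinv : ∀ σ : P, ∀ x ∈ X, σ • x ∈ X)
    (σ : P) (x : Y) (hx : x ∈ X) (h : σ • x ≠ x) :
    minimalPeriod (fun y => σ • y) x = b := by
  classical
  obtain ⟨n, hn⟩ := hP σ
  have hper : IsPeriodicPt (fun y => σ • y) (b ^ n) x := by
    unfold IsPeriodicPt IsFixedPt
    rw [smul_iterate]
    simp [hn]
  obtain ⟨k, -, hk⟩ := (Nat.dvd_prime_pow hb.out).1 hper.minimalPeriod_dvd
  have hpos : 0 < minimalPeriod (fun y => σ • y) x := hper.minimalPeriod_pos (pow_pos hb.out.pos n)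
  have hle : minimalPeriod (fun y => σ • y) x ≤ b := by
    have h1 : (Finset.range (minimalPeriod (fun y => σ • y) x)).card ≤ X.card := by
      apply Finset.card_le_card_of_injOn (fun i => (fun y => σ • y)^[i] x)
      · intro i _
        simp only [smul_iterate]
        exact hinv _ _ hx
      · intro i hi j hj hij
        exact iterate_injOn_Iio_minimalPeriod (by simpa using hi) (by simpa using hj) hij
    simpa [hX] using h1
  rw [hk] at hle ⊢
  have hk1 : k ≤ 1 := by
    by_contra hc
    push Not at hc
    have : b ^ 1 < b ^ k := Nat.pow_lt_pow_right hb.out.one_lt hc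
    rw [pow_one] at this
    omega
  interval_cases k
  · exfalso
    apply h
    have : minimalPeriod (fun y => σ • y) x = 1 := by simpa using hk
    exact minimalPeriod_eq_one_iff_isFixedPt.1 this
  · simp

theorem w3_fix {P Y : Type*} [Group P] [MulAction P Y] {b : ℕ} [hb : Fact b.Prime]
    (hP : IsPGroup b P) (X : Finset Y) (hX : X.card = b) (hinv : ∀ σ : P, ∀ x ∈ X, σ • x ∈ X)
    (σ : P) (x : Y) (hx : x ∈ X) (h : σ • x = x) (y : Y) (hy : y ∈ X) : σ • y = y := by
  classical
  by_contra hne
  have hm := w3_period hP X hX hinv σ y hy hne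
  have himg : (Finset.range b).image (fun i => σ ^ i • y) = X := by
    apply Finset.eq_of_subset_of_card_le
    · intro z hz
      simp only [Finset.mem_image, Finset.mem_range] at hz
      obtain ⟨i, _, rfl⟩ := hz
      exact hinv _ _ hy
    · rw [Finset.card_image_of_injOn, Finset.card_range, hX]
      intro i hi j hj hij
      have := iterate_injOn_Iio_minimalPeriod (f := fun y => σ • y) (x := y)
      exact this (by simpa [hm] using hi) (by simpa [hm] using hj)
        (by simpa [smul_iterate] using hij)
  rw [← himg] at hx
  simp only [Finset.mem_image, Finset.mem_range] at hx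
  obtain ⟨i, _, rfl⟩ := hx
  rw [smul_smul, ← pow_succ', pow_succ, mul_smul] at h
  exact hne (smul_left_cancel _ h)

theorem w3_cyc {P Y : Type*} [Group P] [MulAction P Y] {b : ℕ} [hb : Fact b.Prime]
    (hP : IsPGroup b P) (X : Finset Y) (hX : X.card = b) (hinv : ∀ σ : P, ∀ x ∈ X, σ • x ∈ X) :
    ∃ θ : ZMod b → Y, Injective θ ∧ (∀ i, θ i ∈ X) ∧
      ∀ σ : P, ∃ r : ZMod b, ∀ i, σ • θ i = θ (i + r) := by
  classical
  have : NeZero b := ⟨hb.out.ne_zero⟩
  by_cases htriv : ∀ σ : P, ∀ x ∈ X, σ • x = x
  · have e : ZMod b ≃ X := Fintype.equivOfCardEq (by simp [hX, ZMod.card])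
    refine ⟨fun i => (e i : Y), ?_, fun i => (e i).2, fun σ => ⟨0, fun i => ?_⟩⟩
    · intro i j hij
      exact e.injective (Subtype.ext hij)
    · simp [htriv σ (e i) (e i).2]
  · push Not at htriv
    obtain ⟨s, x, hx, hsx⟩ := htriv
    have hm := w3_period hP X hX hinv s x hx hsx
    have hmod : ∀ n : ℕ, s ^ n • x = s ^ (n % b) • x := by
      intro n
      have := iterate_mod_minimalPeriod_eq (f := fun y => s • y) (x := x) (n := n)
      rw [hm] at this
      simpa [smul_iterate] using this.symm
    set θ : ZMod b → Y := fun i => s ^ i.val • x with hθ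
    have hmem : ∀ i, θ i ∈ X := fun i => hinv _ _ hx
    have hinj : Injective θ := by
      intro i j hij
      have h0 := iterate_injOn_Iio_minimalPeriod (f := fun y => s • y) (x := x)
      have h1 : i.val ∈ Set.Iio (minimalPeriod (fun y => s • y) x) := by
        simpa [hm] using i.val_lt
      have h2 : j.val ∈ Set.Iio (minimalPeriod (fun y => s • y) x) := by
        simpa [hm] using j.val_lt
      exact ZMod.val_injective b (h0 h1 h2 (by simpa [smul_iterate, hθ] using hij))
    have hadd : ∀ i r : ZMod b, s ^ r.val • θ i = θ (i + r) := by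
      intro i r
      simp only [hθ]
      rw [smul_smul, ← pow_add, hmod, ZMod.val_add, add_comm]
    have himg : Finset.univ.image θ = X := by
      apply Finset.eq_of_subset_of_card_le
      · intro z hz
        simp only [Finset.mem_image, Finset.mem_univ, true_and] at hz
        obtain ⟨i, rfl⟩ := hz
        exact hmem i
      · rw [Finset.card_image_of_injective _ hinj, Finset.card_univ, ZMod.card, hX]
    refine ⟨θ, hinj, hmem, fun σ => ?_⟩
    have h1 : σ • x ∈ Finset.univ.image θ := by rw [himg]; exact hinv _ _ hx
    simp only [Finset.mem_image, Finset.mem_univ, true_and] at h1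
    obtain ⟨r, hr⟩ := h1
    refine ⟨r, fun i => ?_⟩
    have h2 : ((s ^ r.val)⁻¹ * σ) • x = x := by
      rw [mul_smul, ← hr]
      simp [hθ]
    have h3 := w3_fix hP X hX hinv _ x hx h2 (θ i) (hmem i)
    rw [← hadd, ← inv_smul_eq_iff, ← mul_smul]
    exact h3


open Polynomial in
theorem exists_cyclic_roots {L : Type*} [Field L] {b : ℕ} [hb : Fact b.Prime] {R : ℕ}
    (p : Fin R → Polynomial L) (hdeg : ∀ j, (p j).natDegree = b) (hsep : ∀ j, (p j).Separable) :
    ∃ (L1 : IntermediateField L (AlgebraicClosure L)), FiniteDimensional L L1 ∧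
      b.Coprime (finrank L L1) ∧
      ∃ (θ : Fin R → ZMod b → AlgebraicClosure L) (g : Fin R → Polynomial L1),
        (∀ j, (p j).map (algebraMap L (AlgebraicClosure L)) =
          Polynomial.C (algebraMap L (AlgebraicClosure L) (p j).leadingCoeff) *
            ∏ i, (Polynomial.X - Polynomial.C (θ j i))) ∧
        ∀ j i, Polynomial.aeval (θ j i) (g j) = θ j (i + 1) := by
  classical
  have : NeZero b := ⟨hb.out.ne_zero⟩
  set Ω := AlgebraicClosure L
  let t : Fin R → IntermediateField L Ω := fun j => IntermediateField.adjoin L ((p j).rootSet Ω)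
  have hsplΩ : ∀ j, ((p j).map (algebraMap L Ω)).Splits := fun j => IsAlgClosed.splits _
  have hsf : ∀ j, (p j).IsSplittingField L (t j) := fun j =>
    IntermediateField.adjoin_rootSet_isSplittingField (hsplΩ j)
  have hgal : ∀ j, IsGalois L (t j) := fun j => by
    have := hsf j
    exact IsGalois.of_separable_splitting_field (hsep j)
  have hfd : ∀ j, FiniteDimensional L (t j) := fun j => by
    have := hsf j
    exact Polynomial.IsSplittingField.finiteDimensional _ (p j)
  let M : IntermediateField L Ω := ⨆ j, t j
  have hN : Normal L M := IntermediateField.normal_iSup _ _ t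
  have hS : Algebra.IsSeparable L M := IntermediateField.isSeparable_iSup _ _
  have hfM : FiniteDimensional L M := IntermediateField.finiteDimensional_iSup_of_finite
  have hG : IsGalois L M := ⟨⟩
  have hsplM : ∀ j, ((p j).map (algebraMap L M)).Splits := fun j => by
    refine IntermediateField.splits_of_splits (hsplΩ j) fun x hx => ?_
    exact (le_iSup t j) (IntermediateField.subset_adjoin L _ hx)
  have hp0 : ∀ j, p j ≠ 0 := fun j => (hsep j).ne_zero
  have hfin : Finite Gal(M/L) := inferInstance
  obtain ⟨S⟩ : Nonempty (Sylow b Gal(M/L)) := inferInstance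
  let F : IntermediateField L M := IntermediateField.fixedField (S : Subgroup Gal(M/L))
  -- the roots
  let X : Fin R → Finset M := fun j => ((p j).rootSet M).toFinset
  have hXmem : ∀ j x, x ∈ X j ↔ aeval x (p j) = 0 := by
    intro j x
    simp only [X, Set.mem_toFinset]
    rw [Polynomial.mem_rootSet]
    exact and_iff_right (hp0 j)
  have hXcard : ∀ j, (X j).card = b := by
    intro j
    rw [Set.toFinset_card, card_rootSet_eq_natDegree (hsep j) (hsplM j), hdeg]
  have hXinv : ∀ j, ∀ σ : (S : Subgroup Gal(M/L)), ∀ x ∈ X j, σ • x ∈ X j := by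
    intro j σ x hx
    rw [hXmem] at hx ⊢
    have : aeval (σ.1 x) (p j) = σ.1 (aeval x (p j)) := (Polynomial.aeval_algHom_apply σ.1.toAlgHom x (p j))
    change aeval (σ.1 x) (p j) = 0
    rw [this, hx, map_zero]
  have hcyc := fun j => w3_cyc S.isPGroup' (X j) (hXcard j) (hXinv j)
  choose θ hθinj hθmem hθ using hcyc
  -- interpolation
  let h : Fin R → Polynomial M := fun j =>
    Lagrange.interpolate Finset.univ (θ j) (fun i => θ j (i + 1))
  have heval : ∀ j i, (h j).eval (θ j i) = θ j (i + 1) := fun j i =>
    Lagrange.eval_interpolate_at_node _ ((hθinj j).injOn) (Finset.mem_univ i)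
  have hdegh : ∀ j, (h j).degree < (Finset.univ : Finset (ZMod b)).card := fun j =>
    Lagrange.degree_interpolate_lt _ ((hθinj j).injOn)
  have hfix : ∀ j, ∀ σ ∈ (S : Subgroup Gal(M/L)), (h j).map (σ : M →+* M) = h j := by
    intro j σ hσ
    obtain ⟨r, hr⟩ := hθ j ⟨σ, hσ⟩
    have hr' : ∀ i, σ (θ j i) = θ j (i + r) := hr
    refine Polynomial.eq_of_degrees_lt_of_eval_index_eq Finset.univ ((hθinj j).injOn) ?_
      (hdegh j) ?_
    · exact (Polynomial.degree_map_le).trans_lt (hdegh j)
    · intro i _
      have h1 : θ j i = σ (θ j (i - r)) := by rw [hr', sub_add_cancel]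
      have h2 : ((h j).map (σ : M →+* M)).eval (σ (θ j (i - r))) = σ ((h j).eval (θ j (i - r))) := by
        have := Polynomial.eval₂_hom (p := h j) (σ : M →+* M) (θ j (i - r))
        rw [Polynomial.eval_map]
        exact this
      rw [heval, h1, h2, heval, hr']
      congr 1
      ring
  have hcoef : ∀ j n, (h j).coeff n ∈ F := by
    intro j n
    rw [IntermediateField.mem_fixedField_iff]
    intro σ hσ
    have := congrArg (fun q => q.coeff n) (hfix j σ hσ)
    simpa [Polynomial.coeff_map] using this
  refine ⟨IntermediateField.lift F, ?_, ?_, ?_⟩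
  · exact Module.Finite.equiv (IntermediateField.liftAlgEquiv F).toLinearEquiv
  · have e1 : finrank L (IntermediateField.lift F) = finrank L F :=
      ((IntermediateField.liftAlgEquiv F).toLinearEquiv.finrank_eq).symm
    rw [e1]
    have e2 : finrank L F * finrank F M = finrank L M := Module.finrank_mul_finrank L F M
    have e3 : finrank F M = Nat.card (S : Subgroup Gal(M/L)) :=
      IntermediateField.finrank_fixedField_eq_card _
    have e4 : Nat.card Gal(M/L) = finrank L M := IsGalois.card_aut_eq_finrank L M
    have e5 : (S : Subgroup Gal(M/L)).index = finrank L F := by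
      have := (S : Subgroup Gal(M/L)).card_mul_index
      have hpos : 0 < Nat.card (S : Subgroup Gal(M/L)) := Nat.card_pos
      rw [e4, ← e2, e3, mul_comm (finrank L F)] at this
      exact Nat.eq_of_mul_eq_mul_left hpos this
    rw [← e5]
    exact (Nat.Prime.coprime_iff_not_dvd hb.out).2 S.not_dvd_index
  · have hlift : ∀ j, ∃ g : Polynomial (IntermediateField.lift F),
        g.map (algebraMap (IntermediateField.lift F) Ω) = (h j).map (algebraMap M Ω) := by
      intro j
      rw [← Polynomial.mem_lifts, Polynomial.lifts_iff_coeff_lifts]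
      intro n
      rw [Polynomial.coeff_map]
      exact ⟨⟨_, (IntermediateField.mem_lift ((h j).coeff n)).2 (hcoef j n)⟩, rfl⟩
    choose g hg using hlift
    refine ⟨fun j i => (θ j i : Ω), g, ?_, ?_⟩
    · intro j
      have hroots : ((p j).map (algebraMap L Ω)).roots =
          (Finset.univ : Finset (ZMod b)).val.map (fun i => (θ j i : Ω)) := by
        symm
        have hnd : ((Finset.univ : Finset (ZMod b)).val.map (fun i => (θ j i : Ω))).Nodup :=
          Multiset.Nodup.map (fun a c hac => hθinj j (Subtype.ext hac)) Finset.univ.nodup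
        apply Multiset.eq_of_le_of_card_le
        · rw [Multiset.le_iff_subset hnd]
          intro z hz
          rw [Multiset.mem_map] at hz
          obtain ⟨i, _, rfl⟩ := hz
          rw [Polynomial.mem_roots (Polynomial.map_ne_zero (hp0 j)), Polynomial.IsRoot,
            Polynomial.eval_map, ← Polynomial.aeval_def]
          have h1 := (hXmem j _).1 (hθmem j i)
          have h2 : aeval ((θ j i : M) : Ω) (p j) = ((aeval (θ j i) (p j) : M) : Ω) :=
            (Polynomial.aeval_algHom_apply M.val (θ j i) (p j))
          rw [h2, h1]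
          rfl
        · rw [Multiset.card_map]
          refine (Polynomial.card_roots' _).trans ?_
          rw [Polynomial.natDegree_map, hdeg]
          simp [ZMod.card]
      have := (hsplΩ j).eq_prod_roots
      rw [hroots, Multiset.map_map, Polynomial.leadingCoeff_map] at this
      exact this
    · intro j i
      rw [Polynomial.aeval_def, ← Polynomial.eval_map, hg, Polynomial.eval_map]
      have := Polynomial.eval₂_hom (p := h j) (algebraMap M Ω) (θ j i)
      rw [heval] at this
      exact this


end Vale.Agent.P200.W
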