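import Vale.Agent.P200.W.Defs

/-!
The generic binary forms `F_j = ∑_m cc w j m X^(b-m) Y^m` are separable of degree `b`.

Proof.  Fix `j` and write `φ_k = ∑_m w k j m T^(b-m)`, `F = ∑_k y_k φ_k`.
`w2_no_base_point`: for every `(s, t) ≠ (0, 0)` in `K^2` some `∑_m w k j m s^(b-m) t^m ≠ 0`; so the
`φ_k` generate the unit ideal of `K[T]` and some `w k j 0 ≠ 0`.
If `G * G ∣ F` for an irreducible `G` over `FF K (R * 2)`, then `G` divides the derivative of `F`
with respect to every `y_k` (a derivation of the rational function field, `w2_exists_der`, applied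
to the coefficients, `w2_exists_derT`), that is every `φ_k`, hence `G ∣ 1`.  A polynomial of degree
`≤ b` with `b! ≠ 0` and no square factor is separable (`w2_separable`).
-/

namespace Vale.Agent.P200.W

open MvPolynomial Module
open Vale.Agent.P200.B Vale.Agent.P200.G Vale.Agent.P200.L Vale.Agent.P200.M Vale.Agent.P200.V

section deriv
variable {K : Type*} [Field K] {N : ℕ}

open KaehlerDifferential in
/-- a partial derivative on the field of rational functions -/
theorem w2_exists_der (k : Fin N) : ∃ D : Derivation K (FF K N) (FF K N),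
    ∀ f : MvPolynomial (Fin N) K, D (algebraMap _ _ f) = algebraMap _ _ (pderiv k f) := by
  have : Algebra.FormallyEtale (MvPolynomial (Fin N) K) (FF K N) :=
    Algebra.FormallyEtale.of_isLocalization (nonZeroDivisors _)
  let D0 : Derivation K (MvPolynomial (Fin N) K) (FF K N) :=
    (Algebra.linearMap (MvPolynomial (Fin N) K) (FF K N)).compDer (pderiv k)
  let l := D0.liftKaehlerDifferential
  let lT : TensorProduct (MvPolynomial (Fin N) K) (FF K N) (Ω[MvPolynomial (Fin N) K⁄K])
      →ₗ[FF K N] FF K N :=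
    l.liftBaseChange (FF K N)
  refine ⟨(lT ∘ₗ (tensorKaehlerEquivOfFormallyEtale K (MvPolynomial (Fin N) K)
    (FF K N)).symm.toLinearMap).compDer (KaehlerDifferential.D K (FF K N)), fun f => ?_⟩
  change lT ((tensorKaehlerEquivOfFormallyEtale K (MvPolynomial (Fin N) K)
    (FF K N)).symm (KaehlerDifferential.D K (FF K N) (algebraMap _ _ f))) = _
  rw [tensorKaehlerEquivOfFormallyEtale_symm_D_algebraMap]
  simp [lT, l, D0]

/-- coefficientwise derivation -/
theorem w2_exists_derT (k : Fin N) :
    ∃ D : Derivation K (Polynomial (FF K N)) (Polynomial (FF K N)),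
      (∀ f : MvPolynomial (Fin N) K, D (Polynomial.C (algebraMap _ _ f)) =
        Polynomial.C (algebraMap _ _ (pderiv k f))) ∧ D Polynomial.X = 0 := by
  obtain ⟨D, hD⟩ := w2_exists_der (K := K) k
  refine ⟨((PolynomialModule.equivPolynomialSelf (R := FF K N)).toLinearMap).compDer
    D.mapCoeffs, fun f => ?_, ?_⟩
  · change PolynomialModule.equivPolynomialSelf (D.mapCoeffs _) = _
    rw [Derivation.mapCoeffs_C, hD]
    simp
  · change PolynomialModule.equivPolynomialSelf (D.mapCoeffs _) = _
    rw [Derivation.mapCoeffs_X]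
    simp

end deriv

/-- a polynomial of small degree without square factors is separable -/
theorem w2_separable {L : Type*} [Field L] {b : ℕ} (hb : (b.factorial : L) ≠ 0)
    (F : Polynomial L) (hF : F ≠ 0) (hd : F.natDegree ≤ b)
    (hsq : ∀ G : Polynomial L, Irreducible G → ¬ G * G ∣ F) : F.Separable := by
  refine isCoprime_of_irreducible_dvd (fun h => hF h.1) fun G hG h1 h2 => ?_
  obtain ⟨H, rfl⟩ := h1
  rw [Polynomial.derivative_mul] at h2
  have h3 : G ∣ Polynomial.derivative G * H :=
    (dvd_add_left (Dvd.intro _ rfl)).1 h2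
  rcases hG.prime.dvd_or_dvd h3 with h4 | h4
  · have hdG : 0 < G.natDegree := hG.natDegree_pos
    have hH : H ≠ 0 := right_ne_zero_of_mul hF
    have hdGb : G.natDegree ≤ b := by
      rw [Polynomial.natDegree_mul hG.ne_zero hH] at hd
      omega
    have hc : ((G.natDegree : ℕ) : L) ≠ 0 := by
      intro h
      apply hb
      obtain ⟨c, hc⟩ := Nat.dvd_factorial hdG hdGb
      rw [hc, Nat.cast_mul, h, zero_mul]
    have hne : Polynomial.derivative G ≠ 0 := by
      intro h
      have h5 := congrArg (fun p => Polynomial.coeff p (G.natDegree - 1)) h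
      simp only [Polynomial.coeff_derivative, Polynomial.coeff_zero] at h5
      rw [Nat.sub_add_cancel hdG, ← Nat.cast_one (R := L), ← Nat.cast_add,
        Nat.sub_add_cancel hdG] at h5
      rcases mul_eq_zero.1 h5 with h6 | h6
      · exact (Polynomial.leadingCoeff_ne_zero.2 hG.ne_zero) h6
      · exact hc h6
    have h5 := Polynomial.natDegree_le_of_dvd h4 hne
    have h6 := Polynomial.natDegree_derivative_lt (p := G) hdG.ne'
    omega
  · exact hsq G hG (mul_dvd_mul_left G h4)

variable {K : Type*} [Field K] [IsAlgClosed K] {b R : ℕ}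

omit [IsAlgClosed K] in
/-- no common zero of the binary forms -/
theorem w2_no_base_point (hb : 2 ≤ b)
    (w : Fin (R * 2) → Fin R → ℕ → K) (hm : IsMPrimary (Ideal.span (Set.range (psi b R w))))
    (j : Fin R) (s t : K) (hst : s ≠ 0 ∨ t ≠ 0) :
    ∃ k, ∑ m ∈ Finset.range (b + 1), w k j m * (s ^ (b - m) * t ^ m) ≠ 0 := by
  by_contra hcon
  push Not at hcon
  obtain ⟨M, hM⟩ := hm
  -- evaluation at the point
  let pt : Fin (R * 2) → K := fun q =>
    if (Q.bl.symm q).1 = j then (if (Q.bl.symm q).2 = 0 then s else t) else 0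
  have hpt0 : ∀ i : Fin R, pt (Q.bl (i, (0 : Fin 2))) = if i = j then s else 0 := by
    intro i
    simp only [pt, Equiv.symm_apply_apply]
    simp
  have hpt1 : ∀ i : Fin R, pt (Q.bl (i, (1 : Fin 2))) = if i = j then t else 0 := by
    intro i
    simp only [pt, Equiv.symm_apply_apply]
    simp
  have hz : ∀ k, MvPolynomial.eval pt (psi b R w k) = 0 := by
    intro k
    simp only [psi, map_sum, map_mul, eval_C, map_pow, eval_X]
    rw [Finset.sum_eq_single j]
    · rw [← hcon k]
      refine Finset.sum_congr rfl fun m _ => ?_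
      rw [hpt0, hpt1]; simp
    · intro i _ hi
      refine Finset.sum_eq_zero fun m _ => ?_
      rw [hpt0, hpt1, if_neg hi, if_neg hi]
      rcases Nat.eq_zero_or_pos m with h | h
      · subst h
        rw [Nat.sub_zero, zero_pow (by omega : b ≠ 0)]; simp
      · rw [zero_pow (by omega : m ≠ 0)]; simp
    · intro h; exact absurd (Finset.mem_univ j) h
  have hid : ∀ g ∈ Ideal.span (Set.range (psi b R w)), MvPolynomial.eval pt g = 0 := by
    intro g hg
    have hle : Ideal.span (Set.range (psi b R w)) ≤ RingHom.ker (MvPolynomial.eval pt) := by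
      rw [Ideal.span_le]
      rintro _ ⟨k, rfl⟩
      exact hz k
    exact hle hg
  rcases hst with h | h
  · have h1 := hid _ (hM M le_rfl ((X (Q.bl (j, (0 : Fin 2)))) ^ M) (by
      simpa using (isHomogeneous_X K (Q.bl (j, (0 : Fin 2)))).pow M))
    rw [map_pow, eval_X, hpt0, if_pos rfl] at h1
    rcases Nat.eq_zero_or_pos M with h0 | h0
    · subst h0; simp at h1
    · exact h ((pow_eq_zero_iff h0.ne').1 h1)
  · have h1 := hid _ (hM M le_rfl ((X (Q.bl (j, (1 : Fin 2)))) ^ M) (by
      simpa using (isHomogeneous_X K (Q.bl (j, (1 : Fin 2)))).pow M))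
    rw [map_pow, eval_X, hpt1, if_pos rfl] at h1
    rcases Nat.eq_zero_or_pos M with h0 | h0
    · subst h0; simp at h1
    · exact h ((pow_eq_zero_iff h0.ne').1 h1)

omit [IsAlgClosed K] in
theorem w2_cc_eq (w : Fin (R * 2) → Fin R → ℕ → K) (j : Fin R) (m : ℕ) :
    cc w j m = algebraMap (MvPolynomial (Fin (R * 2)) K) (FF K (R * 2))
      (∑ k, C (w k j m) * X k) := by
  rw [map_sum]
  refine Finset.sum_congr rfl fun k _ => ?_
  rw [map_mul, yv]
  congr 1

theorem block_separable (hb : 2 ≤ b) (hbK : (b.factorial : K) ≠ 0)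
    (w : Fin (R * 2) → Fin R → ℕ → K) (hm : IsMPrimary (Ideal.span (Set.range (psi b R w))))
    (j : Fin R) : cc w j 0 ≠ 0 ∧
      (∑ m ∈ Finset.range (b + 1), Polynomial.C (cc w j m) * Polynomial.X ^ (b - m)).Separable := by
  have hcc0 : cc w j 0 ≠ 0 := by
    obtain ⟨k, hk⟩ := w2_no_base_point hb w hm j 1 0 (Or.inl one_ne_zero)
    have hk0 : w k j 0 ≠ 0 := by
      intro h0
      apply hk
      refine Finset.sum_eq_zero fun m _ => ?_
      rcases Nat.eq_zero_or_pos m with h | h
      · subst h; rw [h0]; simp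
      · rw [zero_pow (by omega : m ≠ 0)]; simp
    rw [w2_cc_eq]
    intro h
    have h1 : (∑ k, C (w k j 0) * X k : MvPolynomial (Fin (R * 2)) K) = 0 :=
      (map_eq_zero_iff _ (IsFractionRing.injective (MvPolynomial (Fin (R * 2)) K)
        (FF K (R * 2)))).1 h
    have h2 := congrArg (pderiv k) h1
    rw [map_sum, map_zero] at h2
    rw [Finset.sum_eq_single k] at h2
    · simp at h2
      exact hk0 h2
    · intro i _ hi
      simp [pderiv_X_of_ne hi]
    · simp
  refine ⟨hcc0, ?_⟩
  set F : Polynomial (FF K (R * 2)) :=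
    ∑ m ∈ Finset.range (b + 1), Polynomial.C (cc w j m) * Polynomial.X ^ (b - m) with hFdef
  have hcoeff : F.coeff b = cc w j 0 := by
    rw [hFdef, Polynomial.finsetSum_coeff, Finset.sum_eq_single 0]
    · simp
    · intro m hm hm0
      rw [Polynomial.coeff_C_mul_X_pow, if_neg]
      have := Finset.mem_range.1 hm
      omega
    · simp
  have hF0 : F ≠ 0 := by
    intro h
    rw [h, Polynomial.coeff_zero] at hcoeff
    exact hcc0 hcoeff.symm
  have hdeg : F.natDegree ≤ b := by
    rw [hFdef]
    refine Polynomial.natDegree_sum_le_of_forall_le _ _ fun m _ => ?_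
    exact (Polynomial.natDegree_C_mul_X_pow_le _ _).trans (Nat.sub_le _ _)
  have hbL : (b.factorial : FF K (R * 2)) ≠ 0 := by
    intro h
    apply hbK
    apply (algebraMap K (FF K (R * 2))).injective
    rw [map_natCast, h, map_zero]
  refine w2_separable hbL F hF0 hdeg fun G hG hGF => ?_
  -- the members
  let φ : Fin (R * 2) → Polynomial K := fun k =>
    ∑ m ∈ Finset.range (b + 1), Polynomial.C (w k j m) * Polynomial.X ^ (b - m)
  have hφ : ∀ k, G ∣ (φ k).map (algebraMap K (FF K (R * 2))) := by
    intro k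
    obtain ⟨D, hD, hDX⟩ := w2_exists_derT (K := K) k
    have hDXn : ∀ n : ℕ, D (Polynomial.X ^ n) = 0 := by
      intro n
      induction n with
      | zero => rw [pow_zero, Derivation.map_one_eq_zero]
      | succ n ih =>
        rw [pow_succ, Derivation.leibniz, hDX, ih, smul_eq_mul, smul_eq_mul, mul_zero, mul_zero,
          add_zero]
    have h1 : D F = (φ k).map (algebraMap K (FF K (R * 2))) := by
      rw [hFdef, map_sum, Polynomial.map_sum]
      refine Finset.sum_congr rfl fun m _ => ?_
      rw [Derivation.leibniz, hDXn, smul_eq_mul, smul_eq_mul, mul_zero,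
        zero_add, w2_cc_eq, hD, Polynomial.map_mul, Polynomial.map_C, Polynomial.map_pow,
        Polynomial.map_X, mul_comm (Polynomial.X ^ (b - m))]
      congr 2
      rw [map_sum, Finset.sum_eq_single k]
      · simp
        rfl
      · intro i _ hi
        simp [pderiv_X_of_ne hi]
      · simp
    obtain ⟨H, hH⟩ := hGF
    rw [← h1, hH, Derivation.leibniz, Derivation.leibniz, smul_eq_mul, smul_eq_mul, smul_eq_mul]
    exact dvd_add (Dvd.dvd.mul_right (Dvd.intro _ rfl) _)
      (Dvd.dvd.mul_left (dvd_add (Dvd.intro _ rfl) (Dvd.intro _ rfl)) _)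
  have htop : Ideal.span (Set.range φ) = ⊤ := by
    by_contra hne
    obtain ⟨g, hg⟩ := (IsPrincipalIdealRing.principal (Ideal.span (Set.range φ))).principal
    rw [Ideal.submodule_span_eq] at hg
    have hgu : ¬ IsUnit g := by
      intro hu
      apply hne
      rw [hg, Ideal.span_singleton_eq_top]
      exact hu
    obtain ⟨θ, hθ⟩ : ∃ θ : K, g.eval θ = 0 := by
      by_cases hg0 : g = 0
      · exact ⟨0, by simp [hg0]⟩
      · have : g.degree ≠ 0 := by
          intro h
          exact hgu (Polynomial.isUnit_iff_degree_eq_zero.2 h)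
        exact IsAlgClosed.exists_root g this
    obtain ⟨k, hk⟩ := w2_no_base_point hb w hm j θ 1 (Or.inr one_ne_zero)
    apply hk
    have h1 : φ k ∈ Ideal.span (Set.range φ) := Ideal.subset_span ⟨k, rfl⟩
    rw [hg, Ideal.mem_span_singleton] at h1
    obtain ⟨c, hc⟩ := h1
    have h2 : (φ k).eval θ = 0 := by rw [hc, Polynomial.eval_mul, hθ, zero_mul]
    rw [← h2]
    simp [φ, Polynomial.eval_finsetSum]
  have hone : (1 : Polynomial K) ∈ Ideal.span (Set.range φ) := by rw [htop]; trivial
  obtain ⟨c, hc⟩ := (Ideal.mem_span_range_iff_exists_fun).1 hone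
  have h1 : (1 : Polynomial (FF K (R * 2))) =
      ∑ i, (c i).map (algebraMap K (FF K (R * 2))) * (φ i).map (algebraMap K (FF K (R * 2))) := by
    have := congrArg (Polynomial.map (algebraMap K (FF K (R * 2)))) hc
    rw [Polynomial.map_one, Polynomial.map_sum] at this
    rw [← this]
    exact Finset.sum_congr rfl fun i _ => Polynomial.map_mul _
  apply hG.not_isUnit
  apply isUnit_of_dvd_one
  rw [h1]
  exact Finset.dvd_sum fun i _ => Dvd.dvd.mul_left (hφ i) _

end Vale.Agent.P200.W
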