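import Vale.Agent.P200.W.Oper

/-!
Long words are combinations of shorter words with coefficients `c j m` (`finiteness` of the block
algebra).

`dm_core` (a Dedekind-Mertens type lemma, in a commutative ring): let `C_m` be the coefficients of
`∏_{i<b} (u_i + v_i T)`.  For `k ≥ b` and `e_i ≤ k` the product `∏ u_i^(k-e_i) v_i^(e_i)` is a
`ℤ`-combination of the elements `C_m ∏ u_i^(k-1-e'_i) v_i^(e'_i)` with `m ≤ b`, `e'_i ≤ k-1`.
Proof by induction on the number of factors `r` (statement for `k ≥ r`).  One linear factor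
`u + v T` and `G = ∑_{m ≤ r} g_m T^m`, `p_m = u g_m + v g_(m-1)` the coefficients of the product:
`u^(m+1) g_m = ∑_{i ≤ m} (± u^i v^(m-i)) p_i` and `v^(r-m+1) g_m = ∑ (± u^. v^.) p_i` (from
`u g_m = p_m - v g_(m-1)` and `v g_m = p_(m+1) - u g_(m+1)`), so for `α + β = r + 1` (one of `α ≥ m+1`,
`β ≥ r-m+1` holds) `u^α v^β g_m` is a combination of `p_i u^α' v^β'` with `α' + β' = r`.  For `r + 1`
factors: apply the induction hypothesis to the last `r` factors (`k ≥ r + 1 ≥ r`):
`∏_{i ≥ 1} u_i^(k-e_i) v_i^(e_i) = ∑ g_m * (shorter)`, multiply by `u_0^(k-e_0) v_0^(e_0)` (degree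
`k ≥ r + 1` in `u_0, v_0`) and use the formula for `u_0^α v_0^β g_m`.

`words_EE`: a word of length `≥ R b^2` (here `t + b` with `t` large) has at least `b^2` letters in some
block `j` (pigeonhole); move all the letters of block `j` to the front (`EE_comm`, powers of `ζ`), the
first `b^2` of them have the product `∏_{i<b} u_i^(b-e_i) v_i^(e_i)` where `u_i = ρ_j` (constant) and
`v_i = - ρ_j θ_j(κ_j + i)` (diagonal operators; note that a block word `E_{ε_0} ... E_{ε_(s-1)}` is
the diagonal operator `∏_i (-θ_j(κ_j+i))^{ε_i}` times `sg^s`, and `sg^b = ρ_j^b`), by `dm_core` with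
`k = b` it is a combination of `c j m` times block words of length `b^2 - b`.
-/

namespace Vale.Agent.P200.W

open MvPolynomial Module
open Vale.Agent.P200.B Vale.Agent.P200.G Vale.Agent.P200.L Vale.Agent.P200.M Vale.Agent.P200.V

section DM

variable {A : Type*} [CommRing A]

/-- the coefficients of a product, times a monomial of degree `n - 1` -/
def w5_S (u v : A) (G : Polynomial A) (r n : ℕ) : Set A :=
  {x | ∃ i ≤ r + 1, ∃ a ≤ n - 1, x =
    ((Polynomial.C u + Polynomial.C v * Polynomial.X) * G).coeff i * (u ^ (n - 1 - a) * v ^ a)}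

theorem w5_coeff_zero (u v : A) (G : Polynomial A) :
    ((Polynomial.C u + Polynomial.C v * Polynomial.X) * G).coeff 0 = u * G.coeff 0 := by
  rw [add_mul, Polynomial.coeff_add, Polynomial.coeff_C_mul, mul_assoc, Polynomial.coeff_C_mul,
    Polynomial.coeff_X_mul_zero, mul_zero, add_zero]

theorem w5_coeff_succ (u v : A) (G : Polynomial A) (m : ℕ) :
    ((Polynomial.C u + Polynomial.C v * Polynomial.X) * G).coeff (m + 1) =
      u * G.coeff (m + 1) + v * G.coeff m := by
  rw [add_mul, Polynomial.coeff_add, Polynomial.coeff_C_mul, mul_assoc, Polynomial.coeff_C_mul,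
    Polynomial.coeff_X_mul]

theorem w5_mem (u v : A) (G : Polynomial A) {r n i a b : ℕ} (hi : i ≤ r + 1)
    (hab : a + b + 1 = n) :
    ((Polynomial.C u + Polynomial.C v * Polynomial.X) * G).coeff i * (u ^ a * v ^ b) ∈
      Submodule.span ℤ (w5_S u v G r n) := by
  refine Submodule.subset_span ⟨i, hi, b, by omega, ?_⟩
  have h : n - 1 - b = a := by omega
  rw [h]

theorem w5_low (u v : A) (G : Polynomial A) {r n : ℕ} (m : ℕ) (hm : m ≤ r) :
    ∀ a b, m + 1 ≤ a → a + b = n → u ^ a * v ^ b * G.coeff m ∈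
      Submodule.span ℤ (w5_S u v G r n) := by
  induction m with
  | zero =>
    intro a b ha hab
    obtain ⟨a, rfl⟩ := Nat.exists_eq_add_of_le' ha
    have h := w5_mem u v G (r := r) (n := n) (i := 0) (a := a) (b := b) (Nat.zero_le _) (by omega)
    rw [w5_coeff_zero] at h
    have e : u ^ (a + (0 + 1)) * v ^ b * G.coeff 0 = u * G.coeff 0 * (u ^ a * v ^ b) := by
      rw [zero_add, pow_succ]; ring
    rw [e]
    exact h
  | succ m ih =>
    intro a b ha hab
    obtain ⟨a, rfl⟩ : ∃ a', a = a' + 1 := ⟨a - 1, by omega⟩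
    have h := w5_mem u v G (r := r) (n := n) (i := m + 1) (a := a) (b := b) (by omega) (by omega)
    have h2 := ih (by omega) a (b + 1) (by omega) (by omega)
    rw [w5_coeff_succ] at h
    have e : u ^ (a + 1) * v ^ b * G.coeff (m + 1) =
        (u * G.coeff (m + 1) + v * G.coeff m) * (u ^ a * v ^ b) -
          u ^ a * v ^ (b + 1) * G.coeff m := by
      ring
    rw [e]
    exact Submodule.sub_mem _ h h2

theorem w5_high (u v : A) (G : Polynomial A) {r n : ℕ} (hG : G.coeff (r + 1) = 0) (d : ℕ) :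
    ∀ m a b, m + d = r → d + 1 ≤ b → a + b = n → u ^ a * v ^ b * G.coeff m ∈
      Submodule.span ℤ (w5_S u v G r n) := by
  induction d with
  | zero =>
    intro m a b hm hb hab
    obtain ⟨b, rfl⟩ : ∃ b', b = b' + 1 := ⟨b - 1, by omega⟩
    have hmr : m = r := by omega
    subst hmr
    have h := w5_mem u v G (r := m) (n := n) (i := m + 1) (a := a) (b := b) le_rfl (by omega)
    rw [w5_coeff_succ, hG, mul_zero, zero_add] at h
    have e : u ^ a * v ^ (b + 1) * G.coeff m = v * G.coeff m * (u ^ a * v ^ b) := by ring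
    rw [e]
    exact h
  | succ d ih =>
    intro m a b hm hb hab
    obtain ⟨b, rfl⟩ : ∃ b', b = b' + 1 := ⟨b - 1, by omega⟩
    have h := w5_mem u v G (r := r) (n := n) (i := m + 1) (a := a) (b := b) (by omega) (by omega)
    have h2 := ih (m + 1) (a + 1) b (by omega) (by omega) (by omega)
    rw [w5_coeff_succ] at h
    have e : u ^ a * v ^ (b + 1) * G.coeff m =
        (u * G.coeff (m + 1) + v * G.coeff m) * (u ^ a * v ^ b) -
          u ^ (a + 1) * v ^ b * G.coeff (m + 1) := by
      ring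
    rw [e]
    exact Submodule.sub_mem _ h h2

theorem w5_lin (u v : A) (G : Polynomial A) {r n : ℕ} (hG : G.coeff (r + 1) = 0)
    (hn : r + 1 ≤ n) {m : ℕ} (hm : m ≤ r) (a b : ℕ) (hab : a + b = n) :
    u ^ a * v ^ b * G.coeff m ∈ Submodule.span ℤ (w5_S u v G r n) := by
  by_cases h : m + 1 ≤ a
  · exact w5_low u v G m hm a b h hab
  · exact w5_high u v G hG (r - m) m a b (by omega) (by omega) hab

theorem w5_deg {r : ℕ} (u v : Fin r → A) : (∏ i, (Polynomial.C (u i) + Polynomial.C (v i) *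
    Polynomial.X)).natDegree ≤ r := by
  refine (Polynomial.natDegree_prod_le _ _).trans ?_
  have h : ∀ i ∈ (Finset.univ : Finset (Fin r)),
      (Polynomial.C (u i) + Polynomial.C (v i) * Polynomial.X).natDegree ≤ 1 := by
    intro i _
    refine (Polynomial.natDegree_add_le _ _).trans ?_
    rw [Polynomial.natDegree_C]
    exact max_le (Nat.zero_le _) ((Polynomial.natDegree_C_mul_le _ _).trans
      Polynomial.natDegree_X_le)
  refine (Finset.sum_le_card_nsmul _ _ _ h).trans ?_
  simp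

theorem w5_mul_mem {S T : Set A} {c : A} (h : ∀ x ∈ S, c * x ∈ Submodule.span ℤ T) {x : A}
    (hx : x ∈ Submodule.span ℤ S) : c * x ∈ Submodule.span ℤ T := by
  induction hx using Submodule.span_induction with
  | mem x hx => exact h x hx
  | zero => rw [mul_zero]; exact zero_mem _
  | add x y _ _ hx hy => rw [mul_add]; exact add_mem hx hy
  | smul a x _ hx => rw [mul_smul_comm]; exact Submodule.smul_mem _ _ hx

/-- the generators in `dm_core` -/
def w5_T {r : ℕ} (u v : Fin r → A) (k : ℕ) : Set A :=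
  {x : A | ∃ m ≤ r, ∃ e' : Fin r → ℕ,
      (∀ i, e' i ≤ k - 1) ∧ x = (∏ i, (Polynomial.C (u i) + Polynomial.C (v i) *
        Polynomial.X)).coeff m * ∏ i, u i ^ (k - 1 - e' i) * v i ^ e' i}

theorem w5_step {r : ℕ} (u v : Fin (r + 1) → A) (k : ℕ) (hk : r + 1 ≤ k) (a b : ℕ)
    (hab : a + b = k) {x : A} (hx : x ∈ w5_T (fun i => u i.succ) (fun i => v i.succ) k) :
    u 0 ^ a * v 0 ^ b * x ∈ Submodule.span ℤ (w5_T u v k) := by
  obtain ⟨m, hm, e', he', rfl⟩ := hx
  have hGc : (∏ i : Fin r, (Polynomial.C (u i.succ) + Polynomial.C (v i.succ) *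
      Polynomial.X)).coeff (r + 1) = 0 := Polynomial.coeff_eq_zero_of_natDegree_lt
    (lt_of_le_of_lt (w5_deg _ _) (Nat.lt_succ_self r))
  have h2 := w5_lin (u 0) (v 0) _ hGc hk hm a b hab
  rw [← mul_assoc, mul_comm]
  refine w5_mul_mem ?_ h2
  rintro y ⟨i, hi, c, hc, rfl⟩
  refine Submodule.subset_span ⟨i, hi, Fin.cons c e', fun i => ?_, ?_⟩
  · refine Fin.cases ?_ (fun i => ?_) i
    · rw [Fin.cons_zero]; exact hc
    · rw [Fin.cons_succ]; exact he' i
  · rw [Fin.prod_univ_succ, Fin.prod_univ_succ]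
    simp only [Fin.cons_zero, Fin.cons_succ]
    ring

theorem w5_dm {r : ℕ} (k : ℕ) : ∀ (u v : Fin r → A), r ≤ k →
    ∀ e : Fin r → ℕ, (∀ i, e i ≤ k) →
    ∏ i, u i ^ (k - e i) * v i ^ e i ∈ Submodule.span ℤ (w5_T u v k) := by
  induction r with
  | zero =>
    intro u v _ e _
    refine Submodule.subset_span ⟨0, le_rfl, fun i => 0, fun i => i.elim0, ?_⟩
    simp
  | succ r ih =>
    intro u v hk e he
    rw [Fin.prod_univ_succ]
    exact w5_mul_mem (fun x hx => w5_step u v k hk _ _ (Nat.sub_add_cancel (he 0)) hx)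
      (ih (fun i => u i.succ) (fun i => v i.succ) (by omega) (fun i => e i.succ) fun i => he _)

end DM

theorem dm_core {A : Type*} [CommRing A] {r : ℕ} (u v : Fin r → A) (k : ℕ) (hk : r ≤ k)
    (hk1 : 1 ≤ k) (e : Fin r → ℕ) (he : ∀ i, e i ≤ k) :
    ∏ i, u i ^ (k - e i) * v i ^ e i ∈ Submodule.span ℤ {x : A | ∃ m ≤ r, ∃ e' : Fin r → ℕ,
      (∀ i, e' i ≤ k - 1) ∧ x = (∏ i, (Polynomial.C (u i) + Polynomial.C (v i) *
        Polynomial.X)).coeff m * ∏ i, u i ^ (k - 1 - e' i) * v i ^ e' i} :=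
  have _ := hk1
  w5_dm k u v hk e he

section Words

variable {K Ω : Type*} [Field K] [Field Ω] [Algebra K Ω] {b R : ℕ}

/-- words in the generators -/
noncomputable def wordE (ζ : Ω) (ρ : Fin R → Ω) (θ : Fin R → ZMod b → Ω)
    (l : List (Fin (R * 2))) : Module.End Ω ((Fin R → ZMod b) → Ω) :=
  (l.map fun p => EE ζ ρ θ (Q.bl.symm p).1 (Q.bl.symm p).2).prod

section Comm

variable [NeZero b] {z : Ω} (hz : z ^ b = 1) (ρ : Fin R → Ω) (θ : Fin R → ZMod b → Ω)

omit [NeZero b] in
theorem w5_wordE_cons (z : Ω) (ρ : Fin R → Ω) (θ : Fin R → ZMod b → Ω) (p : Fin (R * 2))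
    (l : List (Fin (R * 2))) : wordE z ρ θ (p :: l) =
      EE z ρ θ (Q.bl.symm p).1 (Q.bl.symm p).2 * wordE z ρ θ l := by
  unfold wordE
  rw [List.map_cons, List.prod_cons]

omit [NeZero b] in
theorem w5_wordE_append (z : Ω) (ρ : Fin R → Ω) (θ : Fin R → ZMod b → Ω)
    (l l' : List (Fin (R * 2))) : wordE z ρ θ (l ++ l') = wordE z ρ θ l * wordE z ρ θ l' := by
  unfold wordE
  rw [List.map_append, List.prod_append]

include hz in
theorem w5_comm {j j' : Fin R} (hj : j ≠ j') (ε δ : Fin 2) : ∃ n : ℕ,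
    EE z ρ θ j ε * EE z ρ θ j' δ = z ^ n • (EE z ρ θ j' δ * EE z ρ θ j ε) := by
  rcases lt_or_gt_of_ne hj with h | h
  · exact ⟨1, by rw [pow_one]; exact EE_comm hz ρ θ h ε δ⟩
  · refine ⟨b - 1, ?_⟩
    rw [EE_comm hz ρ θ h δ ε, smul_smul, ← pow_succ,
      Nat.sub_add_cancel (Nat.one_le_iff_ne_zero.2 (NeZero.ne b)), hz, one_smul]

include hz in
theorem w5_move {j : Fin R} {p : Fin (R * 2)} (hp : (Q.bl.symm p).1 ≠ j)
    (F : List (Fin (R * 2))) (hF : ∀ q ∈ F, (Q.bl.symm q).1 = j) : ∃ n : ℕ,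
    EE z ρ θ (Q.bl.symm p).1 (Q.bl.symm p).2 * wordE z ρ θ F =
      z ^ n • (wordE z ρ θ F * EE z ρ θ (Q.bl.symm p).1 (Q.bl.symm p).2) := by
  induction F with
  | nil =>
    refine ⟨0, ?_⟩
    unfold wordE
    rw [List.map_nil, List.prod_nil, mul_one, one_mul, pow_zero, one_smul]
  | cons q F ih =>
    obtain ⟨n, hn⟩ := ih fun q' hq' => hF q' (List.mem_cons_of_mem _ hq')
    obtain ⟨m, hm⟩ := w5_comm hz ρ θ (j := (Q.bl.symm p).1) (j' := (Q.bl.symm q).1)
      (by rw [hF q List.mem_cons_self]; exact hp) (Q.bl.symm p).2 (Q.bl.symm q).2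
    refine ⟨m + n, ?_⟩
    rw [w5_wordE_cons, ← mul_assoc, hm, smul_mul_assoc, mul_assoc, hn, mul_smul_comm, smul_smul,
      ← pow_add, mul_assoc]

include hz in
theorem w5_split (j : Fin R) (l : List (Fin (R * 2))) : ∃ n : ℕ, wordE z ρ θ l =
    z ^ n • (wordE z ρ θ (l.filter fun p => (Q.bl.symm p).1 = j) *
      wordE z ρ θ (l.filter fun p => ¬ (Q.bl.symm p).1 = j)) := by
  induction l with
  | nil =>
    refine ⟨0, ?_⟩
    simp [wordE]
  | cons p l ih =>
    obtain ⟨n, hn⟩ := ih
    by_cases hp : (Q.bl.symm p).1 = j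
    · refine ⟨n, ?_⟩
      rw [List.filter_cons_of_pos (by simpa using hp), List.filter_cons_of_neg (by simpa using hp),
        w5_wordE_cons, w5_wordE_cons, hn, mul_smul_comm, mul_assoc]
    · obtain ⟨m, hm⟩ := w5_move hz ρ θ hp (l.filter fun p => (Q.bl.symm p).1 = j) (by
        intro q hq
        simpa using (List.mem_filter.1 hq).2)
      refine ⟨n + m, ?_⟩
      rw [List.filter_cons_of_neg (by simpa using hp), List.filter_cons_of_pos (by simpa using hp),
        w5_wordE_cons, w5_wordE_cons, hn, mul_smul_comm, ← mul_assoc, hm, smul_mul_assoc,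
        smul_smul, ← pow_add, mul_assoc]

end Comm

theorem w5_count (l : List (Fin (R * 2))) :
    ∑ j : Fin R, (l.filter fun p => (Q.bl.symm p).1 = j).length = l.length := by
  induction l with
  | nil => simp
  | cons p l ih =>
    have h : ∀ j : Fin R, ((p :: l).filter fun p => (Q.bl.symm p).1 = j).length =
        (l.filter fun p => (Q.bl.symm p).1 = j).length +
          if (Q.bl.symm p).1 = j then 1 else 0 := by
      intro j
      by_cases hp : (Q.bl.symm p).1 = j
      · rw [List.filter_cons_of_pos (by simpa using hp), List.length_cons, if_pos hp]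
      · rw [List.filter_cons_of_neg (by simpa using hp), if_neg hp, add_zero]
    rw [Finset.sum_congr rfl fun j _ => h j, Finset.sum_add_distrib, ih,
      Finset.sum_ite_eq, if_pos (Finset.mem_univ _), List.length_cons]

theorem w5_pigeon (l : List (Fin (R * 2))) (s : ℕ) (hl : R * s < l.length) :
    ∃ j, s ≤ (l.filter fun p => (Q.bl.symm p).1 = j).length := by
  by_contra h
  push Not at h
  have h1 : ∑ j : Fin R, (l.filter fun p => (Q.bl.symm p).1 = j).length ≤ ∑ _j : Fin R, s :=
    Finset.sum_le_sum fun j _ => (h j).le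
  rw [w5_count, Finset.sum_const, Finset.card_univ, Fintype.card_fin, smul_eq_mul] at h1
  omega

/-- the diagonal part of a block word -/
def w5_bw (f : ZMod b → Ω) : List (Fin 2) → ZMod b → Ω
  | [], _ => 1
  | ε :: l, x => (if ε = 1 then -f x else 1) * w5_bw f l (x + 1)

theorem w5_word [NeZero b] (z : Ω) (ρ : Fin R → Ω) (θ : Fin R → ZMod b → Ω) (j : Fin R)
    (l : List (Fin 2)) : ∀ (φ : (Fin R → ZMod b) → Ω) (κ : Fin R → ZMod b),
    wordE z ρ θ (l.map fun ε => Q.bl (j, ε)) φ κ =
      ρ j ^ l.length * (z ^ (∑ i ∈ Finset.Iio j, (κ i).val)) ^ l.length * w5_bw (θ j) l (κ j) *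
        φ (κ + Pi.single j (l.length : ZMod b)) := by
  induction l with
  | nil =>
    intro φ κ
    simp [wordE, w5_bw]
  | cons ε l ih =>
    intro φ κ
    rw [List.map_cons, w5_wordE_cons, Module.End.mul_apply, Equiv.symm_apply_apply]
    have hs : ∀ ψ : (Fin R → ZMod b) → Ω, EE z ρ θ j ε ψ κ =
        (if ε = 1 then -θ j (κ j) else 1) *
          (ρ j * z ^ (∑ i ∈ Finset.Iio j, (κ i).val) * ψ (κ + Pi.single j 1)) := by
      intro ψ
      fin_cases ε
      · simp [EE, sg]
      · simp [EE, sg, th]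
    rw [hs, ih]
    have h1 : ∑ i ∈ Finset.Iio j, ((κ + Pi.single j 1 : Fin R → ZMod b) i).val =
        ∑ i ∈ Finset.Iio j, (κ i).val := by
      refine Finset.sum_congr rfl fun i hi => ?_
      rw [Pi.add_apply, Pi.single_eq_of_ne (Finset.mem_Iio.1 hi).ne, add_zero]
    have h2 : (κ + Pi.single j 1 : Fin R → ZMod b) j = κ j + 1 := by
      rw [Pi.add_apply, Pi.single_eq_same]
    have h3 : κ + Pi.single j 1 + Pi.single j (l.length : ZMod b) =
        κ + Pi.single j (((ε :: l).length : ℕ) : ZMod b) := by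
      rw [add_assoc, ← Pi.single_add, List.length_cons, Nat.cast_add, Nat.cast_one, add_comm 1]
    rw [h1, h2, h3, w5_bw, List.length_cons, pow_succ, pow_succ]
    ring

theorem w5_bw_append (f : ZMod b → Ω) (l l' : List (Fin 2)) : ∀ x : ZMod b,
    w5_bw f (l ++ l') x = w5_bw f l x * w5_bw f l' (x + (l.length : ZMod b)) := by
  induction l with
  | nil => intro x; simp [w5_bw]
  | cons ε l ih =>
    intro x
    rw [List.cons_append, w5_bw, w5_bw, ih, List.length_cons, Nat.cast_add, Nat.cast_one,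
      mul_assoc]
    congr 3
    ring

theorem w5_bw_ofFn (f : ZMod b → Ω) {n : ℕ} (δ : Fin n → Fin 2) : ∀ x : ZMod b,
    w5_bw f (List.ofFn δ) x = ∏ i : Fin n, (if δ i = 1 then -f (x + ((i : ℕ) : ZMod b)) else 1) := by
  induction n with
  | zero => intro x; simp [w5_bw]
  | succ n ih =>
    intro x
    rw [List.ofFn_succ, w5_bw, ih, Fin.prod_univ_succ]
    congr 1
    · simp
    · refine Finset.prod_congr rfl fun i _ => ?_
      rw [Fin.val_succ, Nat.cast_add, Nat.cast_one]
      have e : x + 1 + ((i : ℕ) : ZMod b) = x + (((i : ℕ) : ZMod b) + 1) := by ring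
      rw [e]

/-- exponents of a block word -/
theorem w5_exp (f : ZMod b → Ω) (q : ℕ) : ∀ l : List (Fin 2), l.length = b * q →
    ∃ e : Fin b → ℕ, (∀ i, e i ≤ q) ∧
      ∀ x : ZMod b, w5_bw f l x = ∏ i : Fin b, (-f (x + ((i : ℕ) : ZMod b))) ^ e i := by
  induction q with
  | zero =>
    intro l hl
    rw [mul_zero, List.length_eq_zero_iff] at hl
    subst hl
    exact ⟨fun _ => 0, fun _ => le_rfl, fun x => by simp [w5_bw]⟩
  | succ q ih =>
    intro l hl
    have h1 : (l.take b).length = b := by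
      rw [List.length_take, hl, mul_add, mul_one]
      exact min_eq_left (Nat.le_add_left _ _)
    obtain ⟨e, he, he'⟩ := ih (l.drop b) (by
      rw [List.length_drop, hl, mul_add, mul_one, Nat.add_sub_cancel])
    obtain ⟨δ, hδ⟩ : ∃ δ : Fin b → Fin 2, l.take b = List.ofFn δ := by
      refine ⟨fun i => (l.take b).get (i.cast h1.symm), ?_⟩
      refine List.ext_getElem ?_ fun n h2 h3 => ?_
      · rw [List.length_ofFn, h1]
      · rw [List.getElem_ofFn]
        rfl
    refine ⟨fun i => (if δ i = 1 then 1 else 0) + e i, fun i => ?_, fun x => ?_⟩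
    · have := he i
      dsimp only
      split_ifs <;> omega
    · rw [← List.take_append_drop b l, w5_bw_append, h1, hδ, w5_bw_ofFn, he',
        ← Finset.prod_mul_distrib]
      refine Finset.prod_congr rfl fun i _ => ?_
      rw [ZMod.natCast_self, add_zero, pow_add]
      split_ifs with h
      · rw [pow_one]
      · rw [pow_zero]

/-- every exponent vector comes from a block word -/
theorem w5_exp_inv (f : ZMod b → Ω) (q : ℕ) : ∀ e : Fin b → ℕ, (∀ i, e i ≤ q) →
    ∃ l : List (Fin 2), l.length = b * q ∧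
      ∀ x : ZMod b, w5_bw f l x = ∏ i : Fin b, (-f (x + ((i : ℕ) : ZMod b))) ^ e i := by
  induction q with
  | zero =>
    intro e he
    refine ⟨[], rfl, fun x => ?_⟩
    have h : ∀ i, e i = 0 := fun i => Nat.le_zero.1 (he i)
    simp [w5_bw, h]
  | succ q ih =>
    intro e he
    obtain ⟨l, hl, hl'⟩ := ih (fun i => e i - 1) fun i => by have := he i; omega
    refine ⟨List.ofFn (fun i : Fin b => if e i = 0 then (0 : Fin 2) else 1) ++ l, ?_, fun x => ?_⟩
    · rw [List.length_append, List.length_ofFn, hl, mul_add, mul_one, add_comm]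
    · rw [w5_bw_append, w5_bw_ofFn, List.length_ofFn, hl', ← Finset.prod_mul_distrib]
      refine Finset.prod_congr rfl fun i _ => ?_
      rw [ZMod.natCast_self, add_zero]
      by_cases h : e i = 0
      · simp [h]
      · rw [if_neg h, if_pos rfl, ← pow_succ', Nat.sub_add_cancel (Nat.one_le_iff_ne_zero.2 h)]

/-- reversed product of linear factors -/
theorem w5_reflect {ι : Type*} (s : Finset ι) (a : ι → Ω) :
    Polynomial.reflect s.card (∏ i ∈ s, (Polynomial.X - Polynomial.C (a i))) =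
      ∏ i ∈ s, (1 - Polynomial.C (a i) * Polynomial.X) := by
  classical
  induction s using Finset.induction_on with
  | empty => simp
  | insert i s hi ih =>
    rw [Finset.prod_insert hi, Finset.prod_insert hi, Finset.card_insert_of_notMem hi,
      add_comm s.card 1, Polynomial.reflect_mul, ih]
    · congr 1
      have h1 : (Polynomial.X - Polynomial.C (a i) : Polynomial Ω) =
          Polynomial.C 1 * Polynomial.X ^ 1 - Polynomial.C (a i) * Polynomial.X ^ 0 := by
        simp
      rw [h1, Polynomial.reflect_sub, Polynomial.reflect_C_mul_X_pow,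
        Polynomial.reflect_C_mul_X_pow, Polynomial.revAt_le le_rfl,
        Polynomial.revAt_le (Nat.zero_le 1)]
      simp
    · exact Polynomial.natDegree_X_sub_C_le _
    · refine (Polynomial.natDegree_prod_le _ _).trans ?_
      refine (Finset.sum_le_card_nsmul _ _ 1 fun i _ => Polynomial.natDegree_X_sub_C_le _).trans ?_
      simp

theorem w5_prod_zmod [NeZero b] {M : Type*} [CommMonoid M] (g : ZMod b → M) (x : ZMod b) :
    ∏ i : Fin b, g (x + ((i : ℕ) : ZMod b)) = ∏ y, g y := by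
  have hbij : Function.Bijective fun i : Fin b => x + ((i : ℕ) : ZMod b) := by
    rw [Fintype.bijective_iff_injective_and_card]
    constructor
    · intro i i' h
      have h1 : ((i : ℕ) : ZMod b) = ((i' : ℕ) : ZMod b) := add_left_cancel h
      rw [ZMod.natCast_eq_natCast_iff'] at h1
      rw [Nat.mod_eq_of_lt i.2, Nat.mod_eq_of_lt i'.2] at h1
      exact Fin.ext h1
    · rw [Fintype.card_fin, ZMod.card]
  exact Fintype.prod_bijective _ hbij _ _ fun i => rfl

/-- the coefficients of the generic product -/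
theorem w5_cm [NeZero b] (r0 : Ω) (f : ZMod b → Ω) (c : ℕ → Ω) (hρ : r0 ^ b = c 0)
    (hc : ∑ m ∈ Finset.range (b + 1), Polynomial.C (c m) * Polynomial.X ^ (b - m) =
      Polynomial.C (c 0) * ∏ i, (Polynomial.X - Polynomial.C (f i))) (x : ZMod b) {m : ℕ}
    (hm : m ≤ b) :
    (∏ i : Fin b, (Polynomial.C r0 + Polynomial.C (-(r0 * f (x + ((i : ℕ) : ZMod b)))) *
      Polynomial.X)).coeff m = c m := by
  have h1 : ∏ i : Fin b, (Polynomial.C r0 + Polynomial.C (-(r0 * f (x + ((i : ℕ) : ZMod b)))) *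
      Polynomial.X) = Polynomial.C (c 0) * ∏ y, (1 - Polynomial.C (f y) * Polynomial.X) := by
    rw [← w5_prod_zmod (fun y => (1 - Polynomial.C (f y) * Polynomial.X)) x, ← hρ,
      Polynomial.C_pow]
    have h2 : (Polynomial.C r0 : Polynomial Ω) ^ b = ∏ _i : Fin b, Polynomial.C r0 := by
      rw [Finset.prod_const, Finset.card_univ, Fintype.card_fin]
    rw [h2, ← Finset.prod_mul_distrib]
    refine Finset.prod_congr rfl fun i _ => ?_
    rw [Polynomial.C_neg, Polynomial.C_mul]
    ring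
  have h3 := congrArg (Polynomial.reflect b) hc
  have h4 : Polynomial.reflect b (Polynomial.C (c 0) * ∏ i, (Polynomial.X - Polynomial.C (f i))) =
      Polynomial.C (c 0) * ∏ y, (1 - Polynomial.C (f y) * Polynomial.X) := by
    rw [Polynomial.reflect_C_mul]
    have h5 := w5_reflect (Finset.univ : Finset (ZMod b)) f
    rw [Finset.card_univ, ZMod.card] at h5
    rw [h5]
  rw [h1, ← h4, ← h3, Polynomial.coeff_reflect, Polynomial.finsetSum_coeff]
  rw [Finset.sum_eq_single m]
  · rw [Polynomial.coeff_C_mul, Polynomial.coeff_X_pow, if_pos (by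
      rw [Polynomial.revAt_le hm]), mul_one]
  · intro m' hm' hne
    rw [Polynomial.coeff_C_mul, Polynomial.coeff_X_pow, if_neg, mul_zero]
    rw [Polynomial.revAt_le hm]
    have := Finset.mem_range.1 hm'
    omega
  · intro h
    exact absurd (Finset.mem_range.2 (by omega)) h

/-- the constants and the diagonal operators used in `dm_core` -/
def w5_u (b : ℕ) (ρ : Fin R → Ω) (j : Fin R) : Fin b → (Fin R → ZMod b) → Ω := fun _ _ => ρ j

@[inherit_doc w5_u]
def w5_v (ρ : Fin R → Ω) (θ : Fin R → ZMod b → Ω) (j : Fin R) :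
    Fin b → (Fin R → ZMod b) → Ω := fun i κ => -(ρ j * θ j (κ j + ((i : ℕ) : ZMod b)))

theorem w5_lmul [NeZero b] {z : Ω} (hz : z ^ b = 1) (ρ : Fin R → Ω) (θ : Fin R → ZMod b → Ω)
    (j : Fin R) (l : List (Fin 2)) (q : ℕ) (hl : l.length = b * q) (e : Fin b → ℕ)
    (he : ∀ i, e i ≤ q)
    (h : ∀ x : ZMod b, w5_bw (θ j) l x = ∏ i : Fin b, (-θ j (x + ((i : ℕ) : ZMod b))) ^ e i) :
    wordE z ρ θ (l.map fun ε => Q.bl (j, ε)) = LinearMap.mulLeft Ω
      (∏ i : Fin b, w5_u b ρ j i ^ (q - e i) * w5_v ρ θ j i ^ e i) := by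
  refine LinearMap.ext fun φ => funext fun κ => ?_
  rw [w5_word, LinearMap.mulLeft_apply, Pi.mul_apply, Finset.prod_apply, hl, h]
  have h1 : (z ^ (∑ i ∈ Finset.Iio j, (κ i).val)) ^ (b * q) = 1 := by
    rw [← pow_mul, mul_comm, mul_assoc, pow_mul, hz, one_pow]
  have h2 : κ + Pi.single j ((b * q : ℕ) : ZMod b) = κ := by
    rw [Nat.cast_mul, ZMod.natCast_self, zero_mul, Pi.single_zero, add_zero]
  have h3 : ∏ i : Fin b, (w5_u b ρ j i ^ (q - e i) * w5_v ρ θ j i ^ e i) κ =
      ρ j ^ (b * q) * ∏ i : Fin b, (-θ j (κ j + ((i : ℕ) : ZMod b))) ^ e i := by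
    have h4 : ρ j ^ (b * q) = ∏ _i : Fin b, ρ j ^ q := by
      rw [Finset.prod_const, Finset.card_univ, Fintype.card_fin, ← pow_mul, mul_comm]
    rw [h4, ← Finset.prod_mul_distrib]
    refine Finset.prod_congr rfl fun i _ => ?_
    rw [Pi.mul_apply, Pi.pow_apply, Pi.pow_apply]
    change ρ j ^ (q - e i) * (-(ρ j * θ j (κ j + ((i : ℕ) : ZMod b)))) ^ e i = _
    obtain ⟨d, hd⟩ := Nat.exists_eq_add_of_le (he i)
    rw [hd, Nat.add_sub_cancel_left, ← mul_neg, mul_pow, pow_add]
    ring
  rw [h1, h2, h3, mul_one]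

theorem w5_coeff [NeZero b] (ρ : Fin R → Ω) (θ : Fin R → ZMod b → Ω)
    (c : Fin R → ℕ → Ω) (hρ : ∀ j, ρ j ^ b = c j 0)
    (hc : ∀ j, ∑ m ∈ Finset.range (b + 1), Polynomial.C (c j m) * Polynomial.X ^ (b - m) =
      Polynomial.C (c j 0) * ∏ i, (Polynomial.X - Polynomial.C (θ j i))) (j : Fin R) {m : ℕ}
    (hm : m ≤ b) :
    (∏ i : Fin b, (Polynomial.C (w5_u b ρ j i) + Polynomial.C (w5_v ρ θ j i) *
      Polynomial.X)).coeff m = fun _ => c j m := by
  funext κ
  have h := w5_cm (ρ j) (θ j) (c j) (hρ j) (hc j) (κ j) hm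
  rw [← h]
  have h1 : ∀ P : Polynomial ((Fin R → ZMod b) → Ω), P.coeff m κ =
      (P.map (Pi.evalRingHom (fun _ : Fin R → ZMod b => Ω) κ)).coeff m := fun P => by
    rw [Polynomial.coeff_map]
    rfl
  rw [h1, Polynomial.map_prod]
  congr 1
  refine Finset.prod_congr rfl fun i _ => ?_
  rw [Polynomial.map_add, Polynomial.map_mul, Polynomial.map_C, Polynomial.map_C,
    Polynomial.map_X]
  rfl

theorem words_EE [NeZero b] {ζ : K} (hζ : ζ ^ b = 1) (ρ : Fin R → Ω) (θ : Fin R → ZMod b → Ω)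
    (c : Fin R → ℕ → Ω) (hρ : ∀ j, ρ j ^ b = c j 0)
    (hc : ∀ j, ∑ m ∈ Finset.range (b + 1), Polynomial.C (c j m) * Polynomial.X ^ (b - m) =
      Polynomial.C (c j 0) * ∏ i, (Polynomial.X - Polynomial.C (θ j i)))
    (t : ℕ) (ht : R * b ^ 2 ≤ t) (l : List (Fin (R * 2))) (hl : l.length = t + b) :
    wordE (algebraMap K Ω ζ) ρ θ l ∈ Submodule.span K
      {x : Module.End Ω ((Fin R → ZMod b) → Ω) | ∃ j m l', m ≤ b ∧ l'.length = t ∧
        x = c j m • wordE (algebraMap K Ω ζ) ρ θ l'} := by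
  have hz : (algebraMap K Ω ζ) ^ b = 1 := by rw [← map_pow, hζ, map_one]
  have hb : 0 < b := Nat.pos_of_ne_zero (NeZero.ne b)
  obtain ⟨j, hj⟩ := w5_pigeon l (b ^ 2) (by omega)
  obtain ⟨n, hn⟩ := w5_split hz ρ θ j l
  have hlen : (l.filter fun p => (Q.bl.symm p).1 = j).length +
      (l.filter fun p => ¬ (Q.bl.symm p).1 = j).length = t + b := by
    rw [← hl]
    have h1 := List.length_eq_length_filter_add (l := l) fun p => decide ((Q.bl.symm p).1 = j)
    simp only [decide_not] at h1 ⊢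
    exact h1.symm
  have hFj : ∀ p ∈ (l.filter fun p => (Q.bl.symm p).1 = j), (Q.bl.symm p).1 = j := by
    intro p hp
    simpa using (List.mem_filter.1 hp).2
  generalize (l.filter fun p => (Q.bl.symm p).1 = j) = F at hj hn hlen hFj
  generalize (l.filter fun p => ¬ (Q.bl.symm p).1 = j) = F' at hn hlen
  rw [sq] at hj
  -- the first `b ^ 2` letters
  have hε : F.take (b * b) = ((F.take (b * b)).map fun p => (Q.bl.symm p).2).map
      fun ε => Q.bl (j, ε) := by
    rw [List.map_map]
    conv_lhs => rw [← List.map_id (F.take (b * b))]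
    refine List.map_congr_left fun p hp => ?_
    have h1 := hFj p (List.mem_of_mem_take hp)
    change p = Q.bl (j, (Q.bl.symm p).2)
    rw [← h1, Prod.mk.eta, Equiv.apply_symm_apply]
  have hεl : ((F.take (b * b)).map fun p => (Q.bl.symm p).2).length = b * b := by
    rw [List.length_map, List.length_take, min_eq_left hj]
  obtain ⟨e, he, he'⟩ := w5_exp (θ j) b _ hεl
  have hW1 := w5_lmul hz ρ θ j _ b hεl e he he'
  rw [← hε] at hW1
  have hF : wordE (algebraMap K Ω ζ) ρ θ F =
      wordE (algebraMap K Ω ζ) ρ θ (F.take (b * b)) *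
        wordE (algebraMap K Ω ζ) ρ θ (F.drop (b * b)) := by
    rw [← w5_wordE_append, List.take_append_drop]
  rw [hn, hF, hW1, mul_assoc]
  have hmem := w5_dm b (w5_u b ρ j) (w5_v ρ θ j) le_rfl e he
  generalize (∏ i : Fin b, w5_u b ρ j i ^ (b - e i) * w5_v ρ θ j i ^ e i) = x0 at hmem ⊢
  induction hmem using Submodule.span_induction with
  | mem x hx =>
    obtain ⟨m, hm, e', he1, rfl⟩ := hx
    obtain ⟨L, hL, hL'⟩ := w5_exp_inv (θ j) (b - 1) e' he1
    have hW2 := w5_lmul hz ρ θ j L (b - 1) hL e' he1 hL'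
    have h2 : (LinearMap.mulLeft Ω ((∏ i : Fin b, (Polynomial.C (w5_u b ρ j i) +
        Polynomial.C (w5_v ρ θ j i) * Polynomial.X)).coeff m *
        ∏ i : Fin b, w5_u b ρ j i ^ (b - 1 - e' i) * w5_v ρ θ j i ^ e' i) :
        Module.End Ω ((Fin R → ZMod b) → Ω)) = c j m •
          wordE (algebraMap K Ω ζ) ρ θ (L.map fun ε => Q.bl (j, ε)) := by
      rw [hW2, w5_coeff ρ θ c hρ hc j hm]
      refine LinearMap.ext fun φ => funext fun κ => ?_
      rw [LinearMap.smul_apply, LinearMap.mulLeft_apply, LinearMap.mulLeft_apply, mul_assoc]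
      rfl
    rw [h2, smul_mul_assoc, ← w5_wordE_append, ← w5_wordE_append, ← map_pow, algebraMap_smul]
    refine Submodule.smul_mem _ _ (Submodule.subset_span ⟨j, m, _, hm, ?_, rfl⟩)
    rw [List.length_append, List.length_append, List.length_map, hL, List.length_drop]
    have h3 : b * (b - 1) + b = b * b := by
      rw [← Nat.mul_succ, Nat.succ_eq_add_one, Nat.sub_add_cancel hb]
    omega
  | zero =>
    rw [LinearMap.mulLeft_zero_eq_zero, zero_mul, smul_zero]
    exact zero_mem _
  | add x y _ _ hx hy =>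
    have h4 : LinearMap.mulLeft Ω (x + y) = LinearMap.mulLeft Ω x + LinearMap.mulLeft Ω y := by
      refine LinearMap.ext fun φ => ?_
      rw [LinearMap.add_apply, LinearMap.mulLeft_apply, LinearMap.mulLeft_apply,
        LinearMap.mulLeft_apply, add_mul]
    rw [h4, add_mul, smul_add]
    exact add_mem hx hy
  | smul a x _ hx =>
    have h5 : LinearMap.mulLeft Ω (a • x) = a • LinearMap.mulLeft Ω x := by
      refine LinearMap.ext fun φ => ?_
      rw [LinearMap.smul_apply, LinearMap.mulLeft_apply, LinearMap.mulLeft_apply, smul_mul_assoc]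
    rw [h5, smul_mul_assoc, smul_comm]
    exact zsmul_mem hx a

end Words

end Vale.Agent.P200.W
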