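import Vale.Agent.P200.W.Binom
import Vale.Agent.P200.W.Sep
import Vale.Agent.P200.W.Galois
import Vale.Agent.P200.W.Words
import Vale.Agent.P200.W.DimQ
import Vale.Agent.P200.W.Div

/-!
**The block algebra is a division ring.**

Proof.  `F = FF K (R*2)`; `p_j = ∑_m (cc w j m) T^(b-m)` is separable of degree `b` (`block_separable`);
`exists_cyclic_roots` gives `L1`, `θ`, `g` in `Ω = AlgebraicClosure F`; `ρ_j ∈ Ω` with `ρ_j^b = cc w j 0`.
`D = QQ L1 ζ ρ θ` (`DimQ`), `E = EE`.  `N = R*2`.  Every nonzero left ideal `V` of `D` is an `F`-space stable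
under the `E`; `div_lemma` (with `psi b R w`; `rel` from `csum_of_blocks`, `EE_comm`, `wsum_EE`;
`hlong` from `words_EE` since `cc w j m = ∑_k w k j m y_k`) gives
`b^(R*2) ∣ dim_F V = [L1 : F] dim_{L1} V`; `[L1 : F]` is prime to `b`, so `b^(R*2) ∣ dim_{L1} V ≤
dim_{L1} D ≤ b^(R*2)`, hence `V = D`.  So every nonzero element has a left inverse and `D` is a
division ring (`D` is nontrivial).  `D` acts by left multiplication on itself: `E` as elements of
`Module.End F V`.
-/

namespace Vale.Agent.P200.W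

open MvPolynomial Module
open Vale.Agent.P200.B Vale.Agent.P200.G Vale.Agent.P200.L Vale.Agent.P200.M Vale.Agent.P200.V

universe u

theorem w13_map_csum {A B : Type*} [Semiring A] [Semiring B] (f : A →+* B) {N : ℕ} (b : ℕ)
    (E : Fin N → A) (α : Fin N →₀ ℕ) : f (csum b E α) = csum b (fun i => f (E i)) α := by
  unfold csum
  rw [map_sum]
  refine Finset.sum_congr rfl fun l _ => ?_
  rw [map_list_prod, List.map_ofFn]
  rfl

theorem w13_psi_hom {K : Type*} [Field K] {b R : ℕ} (w : Fin (R * 2) → Fin R → ℕ → K)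
    (k : Fin (R * 2)) : (psi b R w k).IsHomogeneous b := by
  unfold psi
  refine IsHomogeneous.sum _ _ _ fun j _ => IsHomogeneous.sum _ _ _ fun m hm => ?_
  have h1 := (isHomogeneous_C (Fin (R * 2)) (w k j m)).mul
    (((isHomogeneous_X K (Q.bl (j, (0 : Fin 2)))).pow (b - m)).mul
      ((isHomogeneous_X K (Q.bl (j, (1 : Fin 2)))).pow m))
  have h2 : 0 + (1 * (b - m) + 1 * m) = b := by
    have := Finset.mem_range.mp hm
    omega
  rw [h2] at h1
  exact h1

theorem w13_isUnit {F L1 D : Type*} [Field F] [Field L1] [Algebra F L1] [Ring D]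
    [Nontrivial D] [Algebra F D] [Algebra L1 D] [IsScalarTower F L1 D] [FiniteDimensional L1 D]
    {n : ℕ} (hn : n.Coprime (finrank F L1)) (hD : finrank L1 D ≤ n)
    (h : ∀ V : Submodule D D, n ∣ finrank F V) (a : D) : IsUnit a ∨ a = 0 := by
  have key : ∀ a : D, a ≠ 0 → ∃ c, c * a = 1 := by
    intro a ha
    set V : Submodule D D := Submodule.span D {a} with hV
    have haV : a ∈ V := Submodule.mem_span_singleton_self a
    have hfin : FiniteDimensional L1 V :=
      Module.Finite.of_injective (V.subtype.restrictScalars L1) V.injective_subtype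
    have hnt : Nontrivial V := ⟨⟨⟨a, haV⟩, 0, fun h0 => ha (congrArg Subtype.val h0)⟩⟩
    have h1 : n ∣ finrank L1 V := by
      have h2 := h V
      rw [← Module.finrank_mul_finrank F L1 V] at h2
      exact hn.dvd_of_dvd_mul_left h2
    have h3 : 0 < finrank L1 V := Module.finrank_pos
    have h4 : n ≤ finrank L1 V := Nat.le_of_dvd h3 h1
    have h5 : finrank L1 (V.restrictScalars L1) = finrank L1 V := rfl
    have h6 : finrank L1 (V.restrictScalars L1) ≤ finrank L1 D := Submodule.finrank_le _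
    have h7 : V.restrictScalars L1 = ⊤ :=
      Submodule.eq_top_of_finrank_eq (le_antisymm h6 (hD.trans (h4.trans h5.ge)))
    have h8 : (1 : D) ∈ V.restrictScalars L1 := by rw [h7]; trivial
    obtain ⟨c, hc⟩ := Submodule.mem_span_singleton.mp (show (1 : D) ∈ V from h8)
    exact ⟨c, hc⟩
  by_cases ha : a = 0
  · exact Or.inr ha
  · left
    obtain ⟨c, hc⟩ := key a ha
    have hc0 : c ≠ 0 := by
      rintro rfl
      rw [zero_mul] at hc
      exact zero_ne_one hc
    obtain ⟨d, hd⟩ := key c hc0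
    have hda : d = a := by
      calc d = d * (c * a) := by rw [hc, mul_one]
        _ = a := by rw [← mul_assoc, hd, one_mul]
    exact ⟨⟨a, c, by rw [← hda]; exact hd, hc⟩, rfl⟩

theorem w13_dvd {K : Type*} [Field K] {N b : ℕ} (hb : 2 ≤ b) (ψ : Fin N → MvPolynomial (Fin N) K)
    (hψ : ∀ k, (ψ k).IsHomogeneous b) (hm : IsMPrimary (Ideal.span (Set.range ψ)))
    {D : Type*} [Ring D] [Algebra (FF K N) D] [FiniteDimensional (FF K N) D] (e : Fin N → D)
    (rel : ∀ α, csum b e α = algebraMap (FF K N) D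
      (∑ k, algebraMap K (FF K N) (coeff α (ψ k)) * yv K k))
    (t0 : ℕ) (hlong : ∀ t, t0 ≤ t → ∀ l : List (Fin N), l.length = t + b →
      ∃ w : Fin N → List (Fin N) →₀ K, (∀ k, ∀ l' ∈ (w k).support, l'.length = t) ∧
        (l.map e).prod = ∑ k, yv K k • (w k).sum fun l' c =>
          algebraMap K (FF K N) c • (l'.map e).prod) (V : Submodule D D) :
    b ^ N ∣ finrank (FF K N) V := by
  have hfin : FiniteDimensional (FF K N) V :=
    Module.Finite.of_injective (V.subtype.restrictScalars (FF K N)) V.injective_subtype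
  let f : D →ₐ[FF K N] Module.End (FF K N) V := Algebra.lsmul (FF K N) (FF K N) V
  have hf : ∀ (l : List (Fin N)) (v : V), (l.map fun i => f (e i)).prod v = (l.map e).prod • v := by
    intro l v
    have h1 : (l.map fun i => f (e i)) = (l.map e).map f := by
      rw [List.map_map]; rfl
    rw [h1, ← map_list_prod]
    rfl
  refine div_lemma hb ψ hψ hm (fun i => f (e i)) (fun α => ?_) t0 fun t ht l hl v => ?_
  · have h1 := w13_map_csum f.toRingHom b e α
    have h2 : f.toRingHom (csum b e α) = f (csum b e α) := rfl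
    rw [h2, rel, AlgHom.commutes] at h1
    exact h1.symm
  · obtain ⟨w, hw1, hw2⟩ := hlong t ht l hl
    refine ⟨w, hw1, ?_⟩
    rw [hf, hw2, Finset.sum_smul]
    refine Finset.sum_congr rfl fun k _ => ?_
    rw [smul_assoc, Finsupp.sum, Finsupp.sum, Finset.sum_smul]
    congr 1
    refine Finset.sum_congr rfl fun l' _ => ?_
    rw [smul_assoc, hf]

theorem w13_core {K : Type*} [Field K] {b R : ℕ} (hb : b.Prime) {ζ : K}
    (hζ : IsPrimitiveRoot ζ b) (w : Fin (R * 2) → Fin R → ℕ → K)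
    (hm : IsMPrimary (Ideal.span (Set.range (psi b R w)))) {L1 D : Type*} [Field L1]
    [Algebra (FF K (R * 2)) L1] [FiniteDimensional (FF K (R * 2)) L1]
    (hcop : b.Coprime (finrank (FF K (R * 2)) L1)) [Ring D]
    [Nontrivial D] [Algebra (FF K (R * 2)) D] [Algebra L1 D] [IsScalarTower (FF K (R * 2)) L1 D]
    [FiniteDimensional L1 D] (hD : finrank L1 D ≤ b ^ (R * 2)) (E : Fin R → Fin 2 → D)
    (hcomm : ∀ j j', j < j' → ∀ ε δ, E j ε * E j' δ =
      algebraMap (FF K (R * 2)) D (algebraMap K _ ζ) * (E j' δ * E j ε))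
    (hw : ∀ j, ∀ m ≤ b, wsum (E j 0) (E j 1) b m = algebraMap (FF K (R * 2)) D (cc w j m))
    (t0 : ℕ) (hlong : ∀ t, t0 ≤ t → ∀ l : List (Fin (R * 2)), l.length = t + b →
      ∃ w : Fin (R * 2) → List (Fin (R * 2)) →₀ K, (∀ k, ∀ l' ∈ (w k).support, l'.length = t) ∧
        (l.map fun p => E (Q.bl.symm p).1 (Q.bl.symm p).2).prod =
          ∑ k, yv K k • (w k).sum fun l' c =>
          algebraMap K (FF K (R * 2)) c • (l'.map fun p => E (Q.bl.symm p).1 (Q.bl.symm p).2).prod)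
    (a : D) : IsUnit a ∨ a = 0 := by
  have hfin : FiniteDimensional (FF K (R * 2)) D := FiniteDimensional.trans _ L1 _
  refine w13_isUnit (F := FF K (R * 2)) (L1 := L1) (hcop.pow_left (R * 2)) hD (fun V => ?_) a
  refine w13_dvd hb.two_le (psi b R w) (w13_psi_hom w) hm
    (fun p => E (Q.bl.symm p).1 (Q.bl.symm p).2) (fun α => ?_) t0 hlong V
  let _ : Algebra K D := ((algebraMap (FF K (R * 2)) D).comp
    (algebraMap K (FF K (R * 2)))).toAlgebra' fun c x => Algebra.commutes _ x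
  have hmap : ∀ c : K, algebraMap K D c = algebraMap (FF K (R * 2)) D (algebraMap K _ c) :=
    fun c => rfl
  rw [csum_of_blocks hb.one_le hζ w E (fun k => algebraMap (FF K (R * 2)) D (yv K k)) ?_ ?_ α,
    map_sum]
  · refine Finset.sum_congr rfl fun k _ => ?_
    rw [Algebra.smul_def, hmap, map_mul]
  · intro j j' hj ε δ
    rw [Algebra.smul_def, hmap]
    exact hcomm j j' hj ε δ
  · intro j m hmb
    rw [hw j m hmb, cc, map_sum]
    refine Finset.sum_congr rfl fun k _ => ?_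
    rw [Algebra.smul_def, hmap, map_mul]

theorem w13_long {K : Type*} [Field K] {N : ℕ} {X : Type*} [AddCommGroup X] [Module (FF K N) X]
    [Module K X] [IsScalarTower K (FF K N) X] (W : List (Fin N) → X) (t : ℕ) (S : Set X)
    (hS : ∀ x ∈ S, ∃ (a : Fin N → K) (l' : List (Fin N)), l'.length = t ∧
      x = ∑ k, yv K k • (algebraMap K (FF K N) (a k) • W l')) {x : X}
    (hx : x ∈ Submodule.span K S) :
    ∃ w : Fin N → List (Fin N) →₀ K, (∀ k, ∀ l' ∈ (w k).support, l'.length = t) ∧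
      x = ∑ k, yv K k • (w k).sum fun l' c => algebraMap K (FF K N) c • W l' := by
  classical
  induction hx using Submodule.span_induction with
  | mem x hx =>
    obtain ⟨a, l', hl', rfl⟩ := hS x hx
    refine ⟨fun k => Finsupp.single l' (a k), fun k m hm => ?_, ?_⟩
    · have := Finsupp.support_single_subset hm
      rw [Finset.mem_singleton] at this
      rw [this, hl']
    · refine Finset.sum_congr rfl fun k _ => ?_
      rw [Finsupp.sum_single_index]
      rw [map_zero, zero_smul]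
  | zero =>
    refine ⟨0, fun k m hm => ?_, ?_⟩
    · simp at hm
    · simp
  | add x y _ _ ihx ihy =>
    obtain ⟨w1, h1, rfl⟩ := ihx
    obtain ⟨w2, h2, rfl⟩ := ihy
    refine ⟨w1 + w2, fun k m hm => ?_, ?_⟩
    · rcases Finset.mem_union.mp (Finsupp.support_add hm) with h | h
      · exact h1 k m h
      · exact h2 k m h
    · rw [← Finset.sum_add_distrib]
      refine Finset.sum_congr rfl fun k _ => ?_
      rw [Pi.add_apply, Finsupp.sum_add_index', smul_add]
      · intro l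
        rw [map_zero, zero_smul]
      · intro l c d
        rw [map_add, add_smul]
  | smul c x _ ih =>
    obtain ⟨w1, h1, rfl⟩ := ih
    refine ⟨c • w1, fun k m hm => h1 k m (Finsupp.support_smul hm), ?_⟩
    rw [← algebraMap_smul (FF K N) c, Finset.smul_sum]
    refine Finset.sum_congr rfl fun k _ => ?_
    rw [Pi.smul_apply, Finsupp.sum_smul_index', smul_comm, Finsupp.smul_sum]
    · congr 1
      refine Finset.sum_congr rfl fun l _ => ?_
      beta_reduce
      rw [smul_eq_mul, map_mul, mul_smul]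
    · intro l
      rw [map_zero, zero_smul]

theorem w13_map_wsum {A B : Type*} [Semiring A] [Semiring B] (f : A →+* B) (x y : A) :
    ∀ N m : ℕ, f (wsum x y N m) = wsum (f x) (f y) N m
  | 0, 0 => by rw [wsum, wsum, map_one]
  | 0, m + 1 => by rw [wsum, wsum, map_zero]
  | N + 1, 0 => by rw [wsum, wsum, map_mul, w13_map_wsum f x y N 0]
  | N + 1, m + 1 => by
    rw [wsum, wsum, map_add, map_mul, map_mul, w13_map_wsum f x y N m,
      w13_map_wsum f x y N (m + 1)]

section final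

variable {K : Type*} [Field K] {b R : ℕ} {Ω : Type*} [Field Ω] [Algebra (FF K (R * 2)) Ω]
  [Algebra K Ω] [IsScalarTower K (FF K (R * 2)) Ω]

theorem w13_words [NeZero b] {ζ : K} (hζ : ζ ^ b = 1) (ρ : Fin R → Ω) (θ : Fin R → ZMod b → Ω)
    (w : Fin (R * 2) → Fin R → ℕ → K)
    (hρ : ∀ j, ρ j ^ b = algebraMap (FF K (R * 2)) Ω (cc w j 0))
    (hc : ∀ j, ∑ m ∈ Finset.range (b + 1),
      Polynomial.C (algebraMap (FF K (R * 2)) Ω (cc w j m)) * Polynomial.X ^ (b - m) =
      Polynomial.C (algebraMap (FF K (R * 2)) Ω (cc w j 0)) *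
        ∏ i, (Polynomial.X - Polynomial.C (θ j i)))
    (t : ℕ) (ht : R * b ^ 2 ≤ t) (l : List (Fin (R * 2))) (hl : l.length = t + b) :
    ∃ w : Fin (R * 2) → List (Fin (R * 2)) →₀ K, (∀ k, ∀ l' ∈ (w k).support, l'.length = t) ∧
      wordE (algebraMap K Ω ζ) ρ θ l = ∑ k, yv K k • (w k).sum fun l' c =>
        algebraMap K (FF K (R * 2)) c • wordE (algebraMap K Ω ζ) ρ θ l' := by
  have h1 := words_EE (K := K) (Ω := Ω) hζ ρ θ
    (fun j m => algebraMap (FF K (R * 2)) Ω (cc w j m)) hρ hc t ht l hl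
  refine w13_long (wordE (algebraMap K Ω ζ) ρ θ) t _ ?_ h1
  rintro x ⟨j, m, l', hmb, hl', rfl⟩
  refine ⟨fun k => w k j m, l', hl', ?_⟩
  rw [algebraMap_smul, cc, Finset.sum_smul]
  refine Finset.sum_congr rfl fun k _ => ?_
  rw [mul_comm (algebraMap K (FF K (R * 2)) (w k j m)) (yv K k), mul_smul]

section DD

variable {D : Type*} [Ring D] [Algebra (FF K (R * 2)) D]
  (f : D →ₐ[FF K (R * 2)] Module.End Ω ((Fin R → ZMod b) → Ω)) (hf : Function.Injective f)
  {ζ : K} {ρ : Fin R → Ω} {θ : Fin R → ZMod b → Ω} (E : Fin R → Fin 2 → D)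
  (hfE : ∀ j ε, f (E j ε) = EE (algebraMap K Ω ζ) ρ θ j ε)
include hf hfE

theorem w13_comm [NeZero b] (hζ : ζ ^ b = 1) (j j' : Fin R) (hj : j < j') (ε δ : Fin 2) :
    E j ε * E j' δ = algebraMap (FF K (R * 2)) D (algebraMap K _ ζ) * (E j' δ * E j ε) := by
  have hζ3 : (algebraMap K Ω ζ) ^ b = 1 := by
    rw [← map_pow, hζ, map_one]
  apply hf
  rw [map_mul, map_mul, map_mul, AlgHom.commutes, hfE, hfE, EE_comm hζ3 ρ θ hj ε δ,
    Algebra.smul_def, IsScalarTower.algebraMap_apply K (FF K (R * 2)) Ω,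
    ← IsScalarTower.algebraMap_apply (FF K (R * 2)) Ω]

omit [IsScalarTower K (FF K (R * 2)) Ω] in
theorem w13_ws [NeZero b] (hζ : ζ ^ b = 1) (w : Fin (R * 2) → Fin R → ℕ → K)
    (hρ : ∀ j, ρ j ^ b = algebraMap (FF K (R * 2)) Ω (cc w j 0))
    (hc : ∀ j, ∑ m ∈ Finset.range (b + 1),
      Polynomial.C (algebraMap (FF K (R * 2)) Ω (cc w j m)) * Polynomial.X ^ (b - m) =
      Polynomial.C (algebraMap (FF K (R * 2)) Ω (cc w j 0)) *
        ∏ i, (Polynomial.X - Polynomial.C (θ j i))) (j : Fin R) (m : ℕ) (hmb : m ≤ b) :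
    wsum (E j 0) (E j 1) b m = algebraMap (FF K (R * 2)) D (cc w j m) := by
  have hζ3 : (algebraMap K Ω ζ) ^ b = 1 := by
    rw [← map_pow, hζ, map_one]
  apply hf
  have h1 := w13_map_wsum f.toRingHom (E j 0) (E j 1) b m
  have h2 : f.toRingHom (wsum (E j 0) (E j 1) b m) = f (wsum (E j 0) (E j 1) b m) := rfl
  have h3 : f.toRingHom (E j 0) = EE (algebraMap K Ω ζ) ρ θ j 0 := hfE j 0
  have h4 : f.toRingHom (E j 1) = EE (algebraMap K Ω ζ) ρ θ j 1 := hfE j 1
  rw [h2, h3, h4, wsum_EE hζ3 ρ θ j (fun m => algebraMap (FF K (R * 2)) Ω (cc w j m)) (hρ j)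
    (hc j) hmb] at h1
  rw [AlgHom.commutes, h1, ← IsScalarTower.algebraMap_apply (FF K (R * 2)) Ω]

theorem w13_lng [NeZero b] (hζ : ζ ^ b = 1) (w : Fin (R * 2) → Fin R → ℕ → K)
    (hρ : ∀ j, ρ j ^ b = algebraMap (FF K (R * 2)) Ω (cc w j 0))
    (hc : ∀ j, ∑ m ∈ Finset.range (b + 1),
      Polynomial.C (algebraMap (FF K (R * 2)) Ω (cc w j m)) * Polynomial.X ^ (b - m) =
      Polynomial.C (algebraMap (FF K (R * 2)) Ω (cc w j 0)) *
        ∏ i, (Polynomial.X - Polynomial.C (θ j i)))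
    (t : ℕ) (ht : R * b ^ 2 ≤ t) (l : List (Fin (R * 2))) (hl : l.length = t + b) :
    ∃ w : Fin (R * 2) → List (Fin (R * 2)) →₀ K, (∀ k, ∀ l' ∈ (w k).support, l'.length = t) ∧
      (l.map fun p => E (Q.bl.symm p).1 (Q.bl.symm p).2).prod =
        ∑ k, yv K k • (w k).sum fun l' c =>
        algebraMap K (FF K (R * 2)) c •
          (l'.map fun p => E (Q.bl.symm p).1 (Q.bl.symm p).2).prod := by
  have hfw : ∀ l : List (Fin (R * 2)),
      f (l.map fun p => E (Q.bl.symm p).1 (Q.bl.symm p).2).prod =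
        wordE (algebraMap K Ω ζ) ρ θ l := by
    intro l
    rw [map_list_prod, List.map_map]
    unfold wordE
    congr 1
    refine List.map_congr_left fun p _ => ?_
    exact hfE _ _
  obtain ⟨w', hw1, hw2⟩ := w13_words hζ ρ θ w hρ hc t ht l hl
  refine ⟨w', hw1, ?_⟩
  apply hf
  rw [hfw, hw2, map_sum]
  refine Finset.sum_congr rfl fun k _ => ?_
  rw [map_smul, map_finsuppSum]
  congr 1
  refine Finset.sum_congr rfl fun l' _ => ?_
  beta_reduce
  rw [map_smul, hfw]

end DD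

theorem w13_final [NeZero b] {L1 : Type*} [Field L1] [Algebra (FF K (R * 2)) L1] [Algebra L1 Ω]
    [IsScalarTower (FF K (R * 2)) L1 Ω] [FiniteDimensional (FF K (R * 2)) L1] (hb : b.Prime)
    {ζ : K} (hζ : IsPrimitiveRoot ζ b)
    (w : Fin (R * 2) → Fin R → ℕ → K) (hm : IsMPrimary (Ideal.span (Set.range (psi b R w))))
    (hcop : b.Coprime (finrank (FF K (R * 2)) L1))
    (ρ : Fin R → Ω) (θ : Fin R → ZMod b → Ω) (h0 : ∀ j, cc w j 0 ≠ 0)
    (hρ : ∀ j, ρ j ^ b = algebraMap (FF K (R * 2)) Ω (cc w j 0))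
    (hc : ∀ j, ∑ m ∈ Finset.range (b + 1),
      Polynomial.C (algebraMap (FF K (R * 2)) Ω (cc w j m)) * Polynomial.X ^ (b - m) =
      Polynomial.C (algebraMap (FF K (R * 2)) Ω (cc w j 0)) *
        ∏ i, (Polynomial.X - Polynomial.C (θ j i)))
    (g : Fin R → Polynomial L1) (hg : ∀ j i, Polynomial.aeval (θ j i) (g j) = θ j (i + 1)) :
    ∃ (D : Subalgebra L1 (Module.End Ω ((Fin R → ZMod b) → Ω))) (E : Fin R → Fin 2 → D),
      (∀ a : D, IsUnit a ∨ a = 0) ∧
      (∀ j j', j < j' → ∀ ε δ, E j ε * E j' δ =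
        algebraMap (FF K (R * 2)) D (algebraMap K _ ζ) * (E j' δ * E j ε)) ∧
      ∀ j, ∀ m ≤ b, wsum (E j 0) (E j 1) b m = algebraMap (FF K (R * 2)) D (cc w j m) := by
  have e1 : ∀ x : FF K (R * 2), algebraMap L1 Ω (algebraMap (FF K (R * 2)) L1 x) =
      algebraMap (FF K (R * 2)) Ω x := fun x => (IsScalarTower.algebraMap_apply _ L1 Ω x).symm
  obtain ⟨ζ1, hζ1⟩ : ∃ z : L1, z = algebraMap (FF K (R * 2)) L1 (algebraMap K _ ζ) := ⟨_, rfl⟩
  have hζ1Ω : algebraMap L1 Ω ζ1 = algebraMap K Ω ζ := by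
    rw [hζ1, e1, ← IsScalarTower.algebraMap_apply]
  have hζ2 : ζ1 ^ b = 1 := by
    rw [hζ1, ← map_pow, ← map_pow, hζ.pow_eq_one, map_one, map_one]
  obtain ⟨hfinD, hrankD⟩ := finrank_QQ (L1 := L1) (Ω := Ω) hζ2 ρ θ
    (fun j m => algebraMap (FF K (R * 2)) L1 (cc w j m))
    (fun j => by
      rw [Ne, map_eq_zero]
      exact h0 j) (by intro j; rw [e1]; exact hρ j) (by intro j; simp only [e1]; exact hc j) g hg
  rw [hζ1Ω] at hfinD hrankD
  let E : Fin R → Fin 2 → QQ L1 (algebraMap K Ω ζ) ρ θ := fun j ε =>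
    ⟨EE (algebraMap K Ω ζ) ρ θ j ε, EE_mem_QQ (algebraMap K Ω ζ) ρ θ j ε⟩
  let f : QQ L1 (algebraMap K Ω ζ) ρ θ →ₐ[FF K (R * 2)] Module.End Ω ((Fin R → ZMod b) → Ω) :=
    (QQ L1 (algebraMap K Ω ζ) ρ θ).val.restrictScalars (FF K (R * 2))
  have hf : Function.Injective f := Subtype.val_injective
  have hfE : ∀ j ε, f (E j ε) = EE (algebraMap K Ω ζ) ρ θ j ε := fun j ε => rfl
  have hcomm := w13_comm f hf E hfE hζ.pow_eq_one
  have hws := w13_ws f hf E hfE hζ.pow_eq_one w hρ hc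
  have hlong := w13_lng f hf E hfE hζ.pow_eq_one w hρ hc
  have hunit := w13_core hb hζ w hm hcop hrankD E hcomm hws (R * b ^ 2) hlong
  exact ⟨_, E, hunit, hcomm, hws⟩

end final

theorem w13_pack {K : Type u} [Field K] {b R : ℕ} {ζ : K} {w : Fin (R * 2) → Fin R → ℕ → K}
    {D : Type u} [Ring D] [Nontrivial D] [Algebra (FF K (R * 2)) D]
    (hu : ∀ a : D, IsUnit a ∨ a = 0) (E : Fin R → Fin 2 → D)
    (h2 : ∀ j j', j < j' → ∀ ε δ, E j ε * E j' δ =
      algebraMap (FF K (R * 2)) D (algebraMap K _ ζ) * (E j' δ * E j ε))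
    (h3 : ∀ j, ∀ m ≤ b, wsum (E j 0) (E j 1) b m = algebraMap (FF K (R * 2)) D (cc w j m)) :
    ∃ (D : Type u) (_ : DivisionRing D) (_ : Algebra (FF K (R * 2)) D) (E : Fin R → Fin 2 → D),
      (∀ j j', j < j' → ∀ ε δ, E j ε * E j' δ =
        algebraMap (FF K (R * 2)) D (algebraMap K _ ζ) * (E j' δ * E j ε)) ∧
      ∀ j, ∀ m ≤ b, wsum (E j 0) (E j 1) b m = algebraMap (FF K (R * 2)) D (cc w j m) :=
  ⟨D, DivisionRing.ofIsUnitOrEqZero hu, ‹_›, E, h2, h3⟩

theorem exists_block_algebra {K : Type u} [Field K] [IsAlgClosed K] {b : ℕ} (hb : b.Prime)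
    (hbK : (b.factorial : K) ≠ 0) {ζ : K} (hζ : IsPrimitiveRoot ζ b) {R : ℕ}
    (w : Fin (R * 2) → Fin R → ℕ → K) (hm : IsMPrimary (Ideal.span (Set.range (psi b R w)))) :
    ∃ (D : Type u) (_ : DivisionRing D) (_ : Algebra (FF K (R * 2)) D) (E : Fin R → Fin 2 → D),
      (∀ j j', j < j' → ∀ ε δ, E j ε * E j' δ =
        algebraMap (FF K (R * 2)) D (algebraMap K _ ζ) * (E j' δ * E j ε)) ∧
      ∀ j, ∀ m ≤ b, wsum (E j 0) (E j 1) b m = algebraMap (FF K (R * 2)) D (cc w j m) := by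
  classical
  have : Fact b.Prime := ⟨hb⟩
  have : NeZero b := ⟨hb.ne_zero⟩
  let F := FF K (R * 2)
  let Ω := AlgebraicClosure F
  let p : Fin R → Polynomial F := fun j =>
    ∑ m ∈ Finset.range (b + 1), Polynomial.C (cc w j m) * Polynomial.X ^ (b - m)
  have hsep := fun j => block_separable hb.two_le hbK w hm j
  have hcoeff : ∀ j, (p j).coeff b = cc w j 0 := by
    intro j
    rw [Polynomial.finsetSum_coeff, Finset.sum_eq_single 0]
    · rw [Polynomial.coeff_C_mul, Nat.sub_zero, Polynomial.coeff_X_pow_self, mul_one]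
    · intro m hm hm0
      rw [Polynomial.coeff_C_mul, Polynomial.coeff_X_pow, if_neg, mul_zero]
      have := Finset.mem_range.mp hm
      have := hb.pos
      omega
    · intro h
      exact absurd (Finset.mem_range.mpr (Nat.succ_pos b)) h
  have hdeg : ∀ j, (p j).natDegree = b := by
    intro j
    refine le_antisymm ?_ (Polynomial.le_natDegree_of_ne_zero (by rw [hcoeff]; exact (hsep j).1))
    refine Polynomial.natDegree_sum_le_of_forall_le _ _ fun m _ => ?_
    refine (Polynomial.natDegree_C_mul_X_pow_le _ _).trans (Nat.sub_le _ _)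
  obtain ⟨L1, hL1, hcop, θ, g, hroots, hcyc⟩ :=
    exists_cyclic_roots p hdeg (fun j => (hsep j).2)
  have hrho : ∀ j, ∃ z : Ω, z ^ b = algebraMap F Ω (cc w j 0) := fun j =>
    IsAlgClosed.exists_pow_nat_eq _ hb.pos
  choose ρ hρ using hrho
  have hc : ∀ j, ∑ m ∈ Finset.range (b + 1),
      Polynomial.C (algebraMap F Ω (cc w j m)) * Polynomial.X ^ (b - m) =
      Polynomial.C (algebraMap F Ω (cc w j 0)) *
        ∏ i, (Polynomial.X - Polynomial.C (θ j i)) := by
    intro j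
    have h1 := hroots j
    rw [Polynomial.leadingCoeff, hdeg, hcoeff, Polynomial.map_sum] at h1
    rw [← h1]
    refine Finset.sum_congr rfl fun m _ => ?_
    rw [Polynomial.map_mul, Polynomial.map_C, Polynomial.map_pow, Polynomial.map_X]
  obtain ⟨D, E, h1, h2, h3⟩ := w13_final (Ω := Ω) (L1 := L1) hb hζ w hm hcop ρ θ
    (fun j => (hsep j).1) hρ hc g hcyc
  exact w13_pack h1 E h2 h3

end Vale.Agent.P200.W
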