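import Vale.Agent.P200.W.Defs
import Vale.Agent.P200.Q.Small1

/-!
Choice of the blocks.

`exists_powers_span`: finitely many linear forms whose `b`-th powers span the forms of degree `b`
(`b! ≠ 0`, polarization: `b! l_1 ... l_b = ∑_{S ⊆ [b]} (-1)^(b-|S|) (∑_{i ∈ S} l_i)^b`, forms of degree `b` are spanned
by products of `b` linear forms; finite dimensional, so finitely many of the `l^b` suffice).

`exists_blocks`: let `λ_1..λ_s` be such forms, `R = s * s`, blocks `j = (i, i')`, `l j 0 = λ_i`,
`l j 1 = λ_i'`.  Let `U` = all `u : Fin R → Fin (b+1) → K` with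
`∑_j ∑_m u j m (l j 0)^(b-m) (l j 1)^m ∈ (f)` and `Λ` the space of the forms
`∑_j ∑_m u j m X_{j0}^(b-m) X_{j1}^m`, `u ∈ U`.
CLAIM: `Λ` has no common zero `(p_j, q_j)_j ≠ 0` in `K^(2R)`.  Let `(p, q)` be a common zero.  The linear
functional `u ↦ ∑ u j m p_j^(b-m) q_j^m` kills `U`, the kernel of `(all u) → S_b / (f)_b`; so there is
a linear functional `φ` on `S_b` which kills `(f)_b` with `φ((l j 0)^(b-m) (l j 1)^m) = p_j^(b-m) q_j^m`
for all `j`, `m`.  Then (H): `φ(l^b) φ(l^(b-m-1) l'^(m+1)) = φ(l^(b-1) l') φ(l^(b-m) l'^m)` for `m < b` and all `l, l'` among the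
`λ`.  If `φ ≠ 0` there is `l = λ_i` with `a = φ(l^b) ≠ 0`; put `v(g) = φ(l^(b-1) g)/a` for linear forms
`g` (a linear functional, i.e. evaluation at a point `v ∈ K^n`), `v(l) = 1`; by (H) `φ(l^(b-m) l'^m) = a v(l')^m`,
in particular `φ(l'^b) = a v(l')^b` for all `l' = λ_i'`; the `l'^b` span, so `φ(g) = a g(v)` for all
forms `g` of degree `b`.  As `φ(f_i) = 0`, all `f_i(v) = 0`, so `v = 0` since `(f)` is m-primary;
contradiction to `v(l) = 1`.  So `φ = 0`, hence `p_j^b = q_j^b = 0` for all `j`, `p = q = 0`.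
By the Nullstellensatz (`MvPolynomial.vanishingIdeal_zeroLocus_eq_radical`) the variables are in the
radical of the ideal generated by `Λ`; `Q.exists_space_system` (with `f = X_i^b`, `R = univ`, `V = Λ`)
gives `ψ_k ∈ Λ`, `k : Fin (R*2)`, generating an m-primary ideal; `ψ_k = psi b R w k`.
Last claim: a common zero `v` of the `λ_i` is a zero of all forms of degree `b`, so `v = 0`; or directly: linear forms whose
`b`-th powers span `S_b` generate an m-primary ideal.
-/

namespace Vale.Agent.P200.W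

open MvPolynomial Module
open Vale.Agent.P200.B Vale.Agent.P200.G Vale.Agent.P200.L Vale.Agent.P200.M Vale.Agent.P200.V

variable {K : Type*} [Field K] {n : ℕ}

/-- coefficient extraction -/
theorem w14_coeff_mem [Infinite K] {V : Type*} [AddCommGroup V] [Module K V] (P : Submodule K V)
    (N : ℕ) (v : ℕ → V) (h : ∀ t : K, ∑ j ∈ Finset.range N, t ^ j • v j ∈ P) (j : ℕ)
    (hj : j < N) : v j ∈ P := by
  rw [← Submodule.Quotient.mk_eq_zero, ← Module.forall_dual_apply_eq_zero_iff K]
  intro φ
  set q : Polynomial K := ∑ i ∈ Finset.range N, Polynomial.monomial i (φ (Submodule.Quotient.mk (v i)))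
    with hq
  have hq0 : q = 0 := by
    refine Polynomial.funext fun t => ?_
    rw [hq, Polynomial.eval_finsetSum, Polynomial.eval_zero]
    have h1 : φ (Submodule.Quotient.mk (p := P) (∑ j ∈ Finset.range N, t ^ j • v j)) = 0 := by
      rw [(Submodule.Quotient.mk_eq_zero P).2 (h t), map_zero]
    rw [← h1, ← Submodule.mkQ_apply, map_sum, map_sum]
    refine Finset.sum_congr rfl fun i _ => ?_
    rw [Polynomial.eval_monomial, map_smul, map_smul, smul_eq_mul, mul_comm, Submodule.mkQ_apply]
  have h2 : q.coeff j = φ (Submodule.Quotient.mk (v j)) := by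
    rw [hq, Polynomial.finsetSum_coeff, Finset.sum_eq_single j]
    · rw [Polynomial.coeff_monomial, if_pos rfl]
    · intro i _ hi
      rw [Polynomial.coeff_monomial, if_neg hi]
    · intro h
      exact absurd (Finset.mem_range.2 hj) h
  rw [← h2, hq0, Polynomial.coeff_zero]

/-- the span of the powers of linear forms -/
noncomputable def w14_pow (K : Type*) [Field K] (n b : ℕ) : Submodule K (MvPolynomial (Fin n) K) :=
  Submodule.span K {g | ∃ l : MvPolynomial (Fin n) K, l.IsHomogeneous 1 ∧ g = l ^ b}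

theorem w14_mul_mem [Infinite K] {b : ℕ} (hb : ((b + 1 : ℕ) : K) ≠ 0)
    {l m : MvPolynomial (Fin n) K} (hl : l.IsHomogeneous 1) (hm : m.IsHomogeneous 1) :
    l ^ b * m ∈ w14_pow K n (b + 1) := by
  have h1 := w14_coeff_mem (w14_pow K n (b + 1)) (b + 2)
    (fun j => m ^ j * l ^ (b + 1 - j) * ((b + 1).choose j : MvPolynomial (Fin n) K)) (fun t => by
      have h2 : ∑ j ∈ Finset.range (b + 2), t ^ j • (m ^ j * l ^ (b + 1 - j) *
          ((b + 1).choose j : MvPolynomial (Fin n) K)) = (C t * m + l) ^ (b + 1) := by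
        rw [add_pow]
        refine Finset.sum_congr rfl fun j _ => ?_
        rw [smul_eq_C_mul, map_pow, mul_pow]
        ring
      rw [h2]
      refine Submodule.subset_span ⟨_, IsHomogeneous.add ?_ hl, rfl⟩
      have h3 := (isHomogeneous_C (Fin n) t).mul hm
      rwa [zero_add] at h3) 1 (by omega)
  simp only [pow_one, Nat.add_sub_cancel, Nat.choose_one_right] at h1
  have h2 := (w14_pow K n (b + 1)).smul_mem (((b + 1 : ℕ) : K)⁻¹) h1
  have h3 : (((b + 1 : ℕ) : K)⁻¹) • (m * l ^ b * ((b + 1 : ℕ) : MvPolynomial (Fin n) K)) =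
      l ^ b * m := by
    have h4 : ((b + 1 : ℕ) : MvPolynomial (Fin n) K) = C ((b + 1 : ℕ) : K) := by
      rw [map_natCast]
    rw [h4, smul_eq_C_mul]
    have h5 : (C (((b + 1 : ℕ) : K)⁻¹) : MvPolynomial (Fin n) K) * C ((b + 1 : ℕ) : K) = 1 := by
      rw [← map_mul, inv_mul_cancel₀ hb, map_one]
    linear_combination (m * l ^ b) * h5
  rwa [h3] at h2

theorem w14_span [Infinite K] (b : ℕ) (hbK : (b.factorial : K) ≠ 0) :
    homogeneousSubmodule (Fin n) K b = w14_pow K n b := by
  induction b with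
  | zero =>
    apply le_antisymm
    · intro g hg
      have h1 : g = C (coeff 0 g) := by
        exact (totalDegree_eq_zero_iff_eq_C).1 (Nat.le_zero.1 (IsHomogeneous.totalDegree_le hg))
      rw [h1, C_eq_smul_one]
      exact Submodule.smul_mem _ _ (Submodule.subset_span ⟨0, isHomogeneous_zero _ _ _, by
        rw [pow_zero]⟩)
    · refine Submodule.span_le.2 ?_
      rintro _ ⟨l, -, rfl⟩
      rw [pow_zero]
      exact isHomogeneous_one _ _
  | succ b ih =>
    have hb1 : ((b + 1 : ℕ) : K) ≠ 0 := by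
      intro h
      apply hbK
      rw [Nat.factorial_succ, Nat.cast_mul, h, zero_mul]
    have hb2 : (b.factorial : K) ≠ 0 := by
      intro h
      apply hbK
      rw [Nat.factorial_succ, Nat.cast_mul, h, mul_zero]
    apply le_antisymm
    · rw [← homogeneousSubmodule_one_pow, pow_succ, homogeneousSubmodule_one_pow, ih hb2,
        Submodule.mul_le]
      intro g hg m hm
      refine Submodule.span_induction (p := fun g _ => g * m ∈ w14_pow K n (b + 1)) ?_ ?_ ?_ ?_ hg
      · rintro _ ⟨l, hl, rfl⟩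
        exact w14_mul_mem hb1 hl hm
      · rw [zero_mul]
        exact zero_mem _
      · intro x y _ _ hx hy
        rw [add_mul]
        exact add_mem hx hy
      · intro c x _ hx
        rw [smul_mul_assoc]
        exact Submodule.smul_mem _ _ hx
    · refine Submodule.span_le.2 ?_
      rintro _ ⟨l, hl, rfl⟩
      have h1 := hl.pow (b + 1)
      rwa [one_mul] at h1

theorem exists_powers_span [Infinite K] {b : ℕ} (hb : 1 ≤ b) (hbK : (b.factorial : K) ≠ 0) :
    ∃ (s : ℕ) (l : Fin s → MvPolynomial (Fin n) K), (∀ i, (l i).IsHomogeneous 1) ∧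
      homogeneousSubmodule (Fin n) K b = Submodule.span K (Set.range fun i => l i ^ b) := by
  have h1 := w14_span (n := n) b hbK
  have hfg : (w14_pow K n b).FG := by
    rw [← h1]
    exact Module.Finite.iff_fg.1 inferInstance
  obtain ⟨t, ht1, ht2⟩ := (Submodule.fg_span_iff_fg_span_finset_subset _).1 hfg
  choose! l hl hl2 using fun g (hg : g ∈ (t : Set (MvPolynomial (Fin n) K))) => ht1 hg
  refine ⟨t.card, fun i => l (t.equivFin.symm i), fun i => hl _ (t.equivFin.symm i).2, ?_⟩
  rw [h1, w14_pow, ht2]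
  congr 1
  ext g
  constructor
  · intro hg
    exact ⟨t.equivFin ⟨g, hg⟩, by
      simp only [Equiv.symm_apply_apply]
      exact (hl2 g hg).symm⟩
  · rintro ⟨i, rfl⟩
    simp only
    rw [← hl2 _ (t.equivFin.symm i).2]
    exact (t.equivFin.symm i).2

section blocks

variable {b R : ℕ}

/-- the space of coefficients → combinations of the products `A j m` -/
noncomputable def w14_lin {R N : ℕ} (b : ℕ) (A : Fin R → ℕ → MvPolynomial (Fin N) K) :
    (Fin R → ℕ → K) →ₗ[K] MvPolynomial (Fin N) K where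
  toFun u := ∑ j, ∑ m ∈ Finset.range (b + 1), C (u j m) * A j m
  map_add' u v := by
    rw [← Finset.sum_add_distrib]
    refine Finset.sum_congr rfl fun j _ => ?_
    rw [← Finset.sum_add_distrib]
    refine Finset.sum_congr rfl fun m _ => ?_
    rw [Pi.add_apply, Pi.add_apply, map_add, add_mul]
  map_smul' c u := by
    rw [RingHom.id_apply, Finset.smul_sum]
    refine Finset.sum_congr rfl fun j _ => ?_
    rw [Finset.smul_sum]
    refine Finset.sum_congr rfl fun m _ => ?_
    rw [Pi.smul_apply, Pi.smul_apply, smul_eq_mul, map_mul, smul_eq_C_mul, mul_assoc]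

theorem w14_lin_apply {R N : ℕ} (b : ℕ) (A : Fin R → ℕ → MvPolynomial (Fin N) K)
    (u : Fin R → ℕ → K) :
    w14_lin b A u = ∑ j, ∑ m ∈ Finset.range (b + 1), C (u j m) * A j m := rfl

theorem w14_lin_single {R N : ℕ} (b : ℕ) (A : Fin R → ℕ → MvPolynomial (Fin N) K) (j : Fin R)
    {m : ℕ} (hm : m ≤ b) : w14_lin b A (Pi.single j (Pi.single m 1)) = A j m := by
  rw [w14_lin_apply, Finset.sum_eq_single j]
  · rw [Finset.sum_eq_single m]
    · rw [Pi.single_eq_same, Pi.single_eq_same, map_one, one_mul]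
    · intro i _ hi
      rw [Pi.single_eq_same, Pi.single_eq_of_ne hi, map_zero, zero_mul]
    · intro h
      exact absurd (Finset.mem_range.2 (by omega)) h
  · intro i _ hi
    refine Finset.sum_eq_zero fun m' _ => ?_
    rw [Pi.single_eq_of_ne hi, Pi.zero_apply, map_zero, zero_mul]
  · intro h
    exact absurd (Finset.mem_univ _) h

/-- evaluation of a linear form -/
theorem w14_eval_lin (ψ : MvPolynomial (Fin n) K →ₗ[K] K) {g : MvPolynomial (Fin n) K}
    (hg : g.IsHomogeneous 1) : eval (fun k => ψ (X k)) g = ψ g := by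
  have h1 : g ∈ homogeneousSubmodule (Fin n) K 1 := hg
  rw [homogeneousSubmodule_one_eq_span_X] at h1
  refine Submodule.span_induction (p := fun g _ => eval (fun k => ψ (X k)) g = ψ g)
    ?_ ?_ ?_ ?_ h1
  · rintro _ ⟨i, rfl⟩
    rw [eval_X]
  · rw [map_zero, map_zero]
  · intro x y _ _ hx hy
    rw [map_add, map_add, hx, hy]
  · intro c x _ hx
    rw [smul_eval, map_smul, hx, smul_eq_mul]

/-- the point argument: a functional `φ` killing `(f)` with the Veronese property vanishes on
the `b`-th powers of the `λ i`. -/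
theorem w14_key {b s : ℕ} (hb : 1 ≤ b) (f : Fin n → MvPolynomial (Fin n) K)
    (hf : ∀ i, (f i).IsHomogeneous b) (hm : IsMPrimary (Ideal.span (Set.range f)))
    (l : Fin s → MvPolynomial (Fin n) K) (hl : ∀ i, (l i).IsHomogeneous 1)
    (hspan : homogeneousSubmodule (Fin n) K b = Submodule.span K (Set.range fun i => l i ^ b))
    (φ : MvPolynomial (Fin n) K →ₗ[K] K) (hφ : ∀ g ∈ Ideal.span (Set.range f), φ g = 0)
    (x : Fin s → Fin s → Fin 2 → K)
    (hx : ∀ i i', ∀ m ≤ b, φ (l i ^ (b - m) * l i' ^ m) = x i i' 0 ^ (b - m) * x i i' 1 ^ m)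
    (i : Fin s) : φ (l i ^ b) = 0 := by
  by_contra ha
  set a := φ (l i ^ b) with hadef
  -- the linear functional `v`
  let ψ : MvPolynomial (Fin n) K →ₗ[K] K :=
    a⁻¹ • φ.comp (LinearMap.mulLeft K (l i ^ (b - 1)))
  have hψ : ∀ g, ψ g = a⁻¹ * φ (l i ^ (b - 1) * g) := fun g => rfl
  set v : Fin n → K := fun k => ψ (X k) with hv
  have hev : ∀ g : MvPolynomial (Fin n) K, g.IsHomogeneous 1 →
      a * eval v g = φ (l i ^ (b - 1) * g) := by
    intro g hg
    rw [hv, w14_eval_lin ψ hg, hψ, ← mul_assoc, mul_inv_cancel₀ ha, one_mul]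
  have hpow : ∀ i' : Fin s, ∀ m ≤ b, φ (l i ^ (b - m) * l i' ^ m) = a * eval v (l i') ^ m := by
    intro i' m
    induction m with
    | zero =>
      intro _
      rw [Nat.sub_zero, pow_zero, mul_one, pow_zero, mul_one]
    | succ m ih =>
      intro hmb
      have h1 := ih (by omega)
      have h2 : a * φ (l i ^ (b - (m + 1)) * l i' ^ (m + 1)) =
          φ (l i ^ (b - 1) * l i') * φ (l i ^ (b - m) * l i' ^ m) := by
        have e0 := hx i i' 0 (by omega)
        have e1 := hx i i' 1 hb
        have e2 := hx i i' m (by omega)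
        have e3 := hx i i' (m + 1) hmb
        rw [Nat.sub_zero, pow_zero, mul_one, pow_zero, mul_one] at e0
        rw [pow_one, pow_one] at e1
        rw [hadef, e0, e1, e2, e3]
        obtain ⟨c, rfl⟩ : ∃ c, b = m + 1 + c := ⟨b - (m + 1), by omega⟩
        have f1 : m + 1 + c - (m + 1) = c := by omega
        have f2 : m + 1 + c - 1 = m + c := by omega
        have f3 : m + 1 + c - m = c + 1 := by omega
        rw [f1, f2, f3]
        ring
      rw [← hev _ (hl i'), h1] at h2
      have h3 : a * (φ (l i ^ (b - (m + 1)) * l i' ^ (m + 1)) - a * eval v (l i') ^ (m + 1)) = 0 := by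
        rw [mul_sub, h2]
        ring
      rcases mul_eq_zero.1 h3 with h4 | h4
      · exact absurd h4 ha
      · exact sub_eq_zero.1 h4
  -- `φ = a · eval v` on forms of degree `b`
  have hall : ∀ g : MvPolynomial (Fin n) K, g.IsHomogeneous b → φ g = a * eval v g := by
    intro g hg
    have h1 : g ∈ homogeneousSubmodule (Fin n) K b := hg
    rw [hspan] at h1
    refine Submodule.span_induction (p := fun g _ => φ g = a * eval v g) ?_ ?_ ?_ ?_ h1
    · rintro _ ⟨i', rfl⟩
      have h2 := hpow i' b le_rfl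
      simp only
      rw [Nat.sub_self, pow_zero, one_mul] at h2
      rw [h2, map_pow]
    · rw [map_zero, map_zero, mul_zero]
    · intro y z _ _ hy hz
      rw [map_add, map_add, hy, hz, mul_add]
    · intro c y _ hy
      rw [map_smul, smul_eval, hy, smul_eq_mul]
      ring
  have hfv : ∀ j, eval v (f j) = 0 := by
    intro j
    have h1 := hall (f j) (hf j)
    rw [hφ _ (Ideal.subset_span ⟨j, rfl⟩)] at h1
    rcases mul_eq_zero.1 h1.symm with h2 | h2
    · exact absurd h2 ha
    · exact h2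
  have hIv : ∀ g ∈ Ideal.span (Set.range f), eval v g = 0 := by
    have h1 : Ideal.span (Set.range f) ≤ RingHom.ker (eval v : MvPolynomial (Fin n) K →+* K) := by
      rw [Ideal.span_le]
      rintro _ ⟨j, rfl⟩
      exact hfv j
    exact fun g hg => h1 hg
  have hv0 : v = 0 := by
    funext k
    obtain ⟨N, hN⟩ := isMPrimary_iff_pow.1 hm k
    have h1 := hIv _ hN
    rw [map_pow, eval_X] at h1
    exact eq_zero_of_pow_eq_zero h1
  have h1 := hall (l i ^ b) (by
    have := (hl i).pow b
    rwa [one_mul] at this)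
  apply ha
  rw [hadef, h1, hv0, map_pow]
  have h2 : eval (0 : Fin n → K) (l i) = 0 := by
    rw [MvPolynomial.eval_zero, constantCoeff_eq]
    exact (hl i).coeff_eq_zero (by simp)
  rw [h2, zero_pow (by omega), mul_zero]

theorem w14_psi (b R : ℕ) (w : Fin (R * 2) → Fin R → ℕ → K) (k : Fin (R * 2)) :
    psi b R w k = w14_lin b (fun j m => X (Q.bl (j, (0 : Fin 2))) ^ (b - m) *
      X (Q.bl (j, (1 : Fin 2))) ^ m) (w k) := rfl

end blocks

theorem exists_blocks [IsAlgClosed K] {b : ℕ} (hb : 1 ≤ b) (hbK : (b.factorial : K) ≠ 0)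
    (f : Fin n → MvPolynomial (Fin n) K) (hf : ∀ i, (f i).IsHomogeneous b)
    (hm : IsMPrimary (Ideal.span (Set.range f))) :
    ∃ (R : ℕ) (l : Fin R → Fin 2 → MvPolynomial (Fin n) K) (w : Fin (R * 2) → Fin R → ℕ → K),
      (∀ j ε, (l j ε).IsHomogeneous 1) ∧
      IsMPrimary (Ideal.span (Set.range (psi b R w))) ∧
      (∀ k, ∑ j, ∑ m ∈ Finset.range (b + 1), C (w k j m) * (l j 0 ^ (b - m) * l j 1 ^ m) ∈
        Ideal.span (Set.range f)) ∧
      IsMPrimary (Ideal.span (Set.range fun p : Fin R × Fin 2 => l p.1 p.2)) := by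
  have : Infinite K := IsAlgClosed.instInfinite
  obtain ⟨s, lam, hlam, hspan⟩ := exists_powers_span (K := K) (n := n) hb hbK
  let e : Fin s × Fin s ≃ Fin (s * s) := finProdFinEquiv
  set l : Fin (s * s) → Fin 2 → MvPolynomial (Fin n) K := fun j =>
    ![lam (e.symm j).1, lam (e.symm j).2] with hl
  have hl0 : ∀ j, l j 0 = lam (e.symm j).1 := fun j => rfl
  have hl1 : ∀ j, l j 1 = lam (e.symm j).2 := fun j => rfl
  have hlhom : ∀ j ε, (l j ε).IsHomogeneous 1 := by
    intro j ε
    fin_cases ε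
    · exact hlam _
    · exact hlam _
  set I := Ideal.span (Set.range f) with hI
  set Ψ := w14_lin (K := K) b (fun (j : Fin (s * s)) m => X (Q.bl (j, (0 : Fin 2))) ^ (b - m) *
      X (Q.bl (j, (1 : Fin 2))) ^ m) with hΨ
  set Θ := w14_lin (K := K) b (fun (j : Fin (s * s)) m => l j 0 ^ (b - m) * l j 1 ^ m) with hΘ
  set T := (I.restrictScalars K).mkQ.comp Θ with hT
  set V := (LinearMap.ker T).map Ψ with hV
  have hVhom : ∀ v ∈ V, v.IsHomogeneous b := by
    rintro _ ⟨u, -, rfl⟩
    rw [hΨ, w14_lin_apply]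
    refine IsHomogeneous.sum _ _ _ fun j _ => IsHomogeneous.sum _ _ _ fun m hm' => ?_
    rw [Finset.mem_range] at hm'
    have h1 := (isHomogeneous_C (Fin (s * s * 2)) (u j m)).mul
      ((isHomogeneous_X_pow (R := K) (Q.bl (j, (0 : Fin 2))) (b - m)).mul
        (isHomogeneous_X_pow (R := K) (Q.bl (j, (1 : Fin 2))) m))
    rwa [zero_add, Nat.sub_add_cancel (by omega)] at h1
  -- no common zeros
  have hzero : ∀ x : Fin (s * s * 2) → K, (∀ v ∈ V, eval x v = 0) → x = 0 := by
    intro x hx
    let ev : Module.Dual K (Fin (s * s) → ℕ → K) := (aeval x : MvPolynomial _ K →ₐ[K] K).toLinearMap.comp Ψ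
    have hev : ev ∈ (LinearMap.ker T).dualAnnihilator := by
      rw [Submodule.mem_dualAnnihilator]
      intro u hu
      exact hx _ ⟨u, hu, rfl⟩
    rw [← LinearMap.range_dualMap_eq_dualAnnihilator_ker] at hev
    obtain ⟨φ0, hφ0⟩ := hev
    let φ : MvPolynomial (Fin n) K →ₗ[K] K := φ0.comp (I.restrictScalars K).mkQ
    have hφI : ∀ g ∈ I, φ g = 0 := by
      intro g hg
      have h1 : (I.restrictScalars K).mkQ g = 0 := by
        rw [Submodule.mkQ_apply]
        exact (Submodule.Quotient.mk_eq_zero _).2 hg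
      change φ0 ((I.restrictScalars K).mkQ g) = 0
      rw [h1, map_zero]
    have hφΘ : ∀ u, φ (Θ u) = eval x (Ψ u) := by
      intro u
      exact LinearMap.congr_fun hφ0 u
    have hφx : ∀ j, ∀ m ≤ b, φ (l j 0 ^ (b - m) * l j 1 ^ m) =
        x (Q.bl (j, (0 : Fin 2))) ^ (b - m) * x (Q.bl (j, (1 : Fin 2))) ^ m := by
      intro j m hm'
      have h1 := hφΘ (Pi.single j (Pi.single m 1))
      rw [hΘ, hΨ, w14_lin_single _ _ j hm', w14_lin_single _ _ j hm'] at h1
      rw [h1, map_mul, map_pow, map_pow, eval_X, eval_X]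
    have hkey : ∀ i, φ (lam i ^ b) = 0 := w14_key hb f hf hm lam hlam hspan φ hφI
      (fun i i' ε => x (Q.bl (e (i, i'), ε))) (fun i i' m hm' => by
        have h1 := hφx (e (i, i')) m hm'
        rw [hl0, hl1, Equiv.symm_apply_apply] at h1
        exact h1)
    funext y
    obtain ⟨⟨j, ε⟩, rfl⟩ := Q.bl.surjective y
    rw [Pi.zero_apply]
    have hb0 : b ≠ 0 := by omega
    have h0 := hφx j 0 (by omega)
    have h1 := hφx j b le_rfl
    rw [Nat.sub_zero, pow_zero, mul_one, pow_zero, mul_one, hl0, hkey] at h0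
    rw [Nat.sub_self, pow_zero, one_mul, pow_zero, one_mul, hl1, hkey] at h1
    fin_cases ε
    · exact eq_zero_of_pow_eq_zero h0.symm
    · exact eq_zero_of_pow_eq_zero h1.symm
  have hrad : ∀ k, (X k : MvPolynomial (Fin (s * s * 2)) K) ∈
      (Ideal.span (V : Set (MvPolynomial (Fin (s * s * 2)) K))).radical := by
    intro k
    rw [← MvPolynomial.vanishingIdeal_zeroLocus_eq_radical (K := K), mem_vanishingIdeal_iff]
    intro x hx
    rw [mem_zeroLocus_iff] at hx
    have h1 := hzero x fun v hv => hx v (Ideal.subset_span hv)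
    rw [aeval_X, h1, Pi.zero_apply]
  have hXm : IsMPrimary (Ideal.span (Set.range fun i : Fin (s * s * 2) =>
      (X i : MvPolynomial (Fin (s * s * 2)) K))) :=
    isMPrimary_iff_pow.2 fun i => ⟨1, by
      rw [pow_one]
      exact Ideal.subset_span ⟨i, rfl⟩⟩
  obtain ⟨F, -, hFV, hFm⟩ := Q.exists_space_system (fun _ => 1) (fun _ => le_rfl)
    (fun i : Fin (s * s * 2) => (X i : MvPolynomial (Fin (s * s * 2)) K))
    (fun i => isHomogeneous_X K i) hXm Finset.univ V hb hVhom (by
      intro k _ q hq _ hVq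
      have h1 : (Ideal.span (V : Set (MvPolynomial (Fin (s * s * 2)) K))).radical ≤ q := by
        rw [hq.radical_le_iff, Ideal.span_le]
        exact hVq
      exact h1 (hrad k))
  choose w hw1 hw2 using fun k => (Submodule.mem_map.1 (hFV k (Finset.mem_univ k)))
  refine ⟨s * s, l, w, hlhom, ?_, ?_, ?_⟩
  · have h1 : psi b (s * s) w = F := by
      funext k
      rw [w14_psi, hw2]
    rw [h1]
    exact hFm
  · intro k
    have h1 := hw1 k
    rw [LinearMap.mem_ker, hT, LinearMap.comp_apply, Submodule.mkQ_apply,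
      Submodule.Quotient.mk_eq_zero] at h1
    exact h1
  · rw [isMPrimary_iff_pow]
    intro k
    refine ⟨b, ?_⟩
    have h1 : (X k : MvPolynomial (Fin n) K) ^ b ∈ homogeneousSubmodule (Fin n) K b :=
      isHomogeneous_X_pow k b
    rw [hspan] at h1
    have h2 : Submodule.span K (Set.range fun i => lam i ^ b) ≤
        (Ideal.span (Set.range fun p : Fin (s * s) × Fin 2 => l p.1 p.2)).restrictScalars K := by
      rw [Submodule.span_le]
      rintro _ ⟨i, rfl⟩
      have h3 : lam i ∈ Ideal.span (Set.range fun p : Fin (s * s) × Fin 2 => l p.1 p.2) :=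
        Ideal.subset_span ⟨(e (i, i), 0), by
          simp only
          rw [hl0, Equiv.symm_apply_apply]⟩
      exact Ideal.pow_mem_of_mem _ h3 _ (by omega)
    exact h2 h1

end Vale.Agent.P200.W
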