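import Vale.Agent.P200.W.Defs

/-!
Enough rows are independent.

Let `E : Fin n' → Fin n → D` be rows with entrywise commuting entries, `ξ_i = lin (E i)`, and suppose that
the left ideal of `YR D n` generated by the `ξ_i` contains (the image of) an m-primary ideal of
`K[x]`.  Then the rows span `D^n` from the left, so `n` of them form a basis.

Proof.  Suppose the left span `W` of the rows has dimension `r < n`.  Choose a basis of `W` among the rows and complete it
by unit vectors (`x_k`, `k ∈ C`, central entries) to a basis of `D^n`; this gives `E'' : Fin n → Fin n → D`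
(choose an indexing) with entrywise commuting rows and `LinearIndependent D E''`.  By `M/Theta.lean`
(`theta`, `theta_injective`, `map_theta`, `theta_mul_zv`) the monomials `xim E'' m` form a left basis of `YR D n`, and
right multiplication by `lin (E'' i)` adds `e_i` to the exponent.  Every `ξ_i` is a left `D`-combination of the
`lin (E'' i')` with `i'` in the row part `S`.  The left ideal generated by the `ξ_i` is therefore contained in
the left `D`-span of the `xim E'' m` with `m i ≠ 0` for some `i ∈ S` (write `u = ∑ d_m xim E'' m`, then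
`u * lin (E'' i) = ∑ d_m xim E'' (m + e_i)`; for `u * (d * lin (E'' i))` first rewrite `u * d`).  But for `k ∈ C` a power `x_k^M` lies in
the m-primary ideal and `x_k^M = xim E'' (M e_k)`: contradiction.
-/

namespace Vale.Agent.P200.W

open MvPolynomial Module
open Vale.Agent.P200.B Vale.Agent.P200.G Vale.Agent.P200.L Vale.Agent.P200.M Vale.Agent.P200.V

section w15
variable {D : Type*} [DivisionRing D] {n : ℕ}

theorem w15_theta_surj (E : Fin n → Fin n → D)
    (hrow : ∀ i j, i ≠ j → ∀ k l, E i k * E j l = E j l * E i k)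
    (hind : LinearIndependent D E) : Function.Surjective (theta E) := by
  intro u
  have h : u ∈ LinearMap.range (theta E) := by
    rw [m4_sum_single u]
    refine Submodule.sum_mem _ fun m _ => ?_
    obtain ⟨w, _, hw⟩ := m4_single_range E hrow hind _ m (u.coeff m) rfl
    exact ⟨w, hw⟩
  exact h

/-- polynomials without pure powers of the variable `i₀` -/
def w15P (D : Type*) [DivisionRing D] {n : ℕ} (i₀ : Fin n) : Submodule D (YR D n) where
  carrier := {u | ∀ t : ℕ, u.coeff (Finsupp.single i₀ t) = 0}
  add_mem' := by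
    intro a b ha hb t
    rw [AddMonoidAlgebra.coeff_add, Finsupp.add_apply, ha t, hb t, add_zero]
  zero_mem' := by
    intro t
    rw [AddMonoidAlgebra.coeff_zero, Finsupp.zero_apply]
  smul_mem' := by
    intro k a ha t
    rw [AddMonoidAlgebra.coeff_smul_apply, ha t, smul_zero]

theorem w15_mem_P {i₀ : Fin n} {u : YR D n} :
    u ∈ w15P D i₀ ↔ ∀ t : ℕ, u.coeff (Finsupp.single i₀ t) = 0 := Iff.rfl

theorem w15_mul_zv_mem {i₀ j : Fin n} (hj : j ≠ i₀) (w : YR D n) : w * zv D n j ∈ w15P D i₀ := by
  induction w using AddMonoidAlgebra.induction_linear with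
  | zero => rw [zero_mul]; exact Submodule.zero_mem _
  | add a b ha hb => rw [add_mul]; exact Submodule.add_mem _ ha hb
  | single m c =>
    intro t
    unfold zv
    rw [AddMonoidAlgebra.single_mul_single, mul_one, AddMonoidAlgebra.coeff_single,
      Finsupp.single_apply, if_neg]
    intro h
    have h1 := DFunLike.congr_fun h j
    rw [Finsupp.add_apply, Finsupp.single_eq_same, Finsupp.single_apply,
      if_neg (Ne.symm hj)] at h1
    omega

theorem w15_xim_single (E : Fin n → Fin n → D) (i₀ : Fin n) (t : ℕ) :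
    xim E (Finsupp.single i₀ t) = M.lin (E i₀) ^ t := by
  unfold xim
  have h : ∀ (k : ℕ) (f : Fin k → YR D n) (i : Fin k), (∀ j, j ≠ i → f j = 1) →
      (List.ofFn f).prod = f i := by
    intro k
    induction k with
    | zero => intro f i; exact i.elim0
    | succ k ih =>
      intro f i hf
      rw [List.ofFn_succ, List.prod_cons]
      rcases Fin.eq_zero_or_eq_succ i with h | ⟨i', h⟩
      · subst h
        have h1 : (List.ofFn fun j : Fin k => f j.succ).prod = 1 := by
          apply List.prod_eq_one
          intro y hy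
          rw [List.mem_ofFn] at hy
          obtain ⟨j, rfl⟩ := hy
          exact hf _ (Fin.succ_ne_zero j)
        rw [h1, mul_one]
      · subst h
        rw [hf 0 (Fin.succ_ne_zero i').symm, one_mul]
        exact ih (fun j => f j.succ) i' fun j hj => hf _ fun h => hj (Fin.succ_injective _ h)
  rw [h n _ i₀ fun j hj => by
    rw [Finsupp.single_apply, if_neg (Ne.symm hj), pow_zero], Finsupp.single_eq_same]

theorem w15_lin_single (k : Fin n) : M.lin (Pi.single k 1 : Fin n → D) = zv D n k := by
  unfold M.lin zv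
  rw [Finset.sum_eq_single k]
  · rw [Pi.single_eq_same]
  · intro l _ hl
    rw [Pi.single_eq_of_ne hl, AddMonoidAlgebra.single_zero]
  · intro h
    exact absurd (Finset.mem_univ k) h

theorem w15_lin_add (a b : Fin n → D) : M.lin (a + b) = M.lin a + M.lin b := by
  unfold M.lin
  rw [← Finset.sum_add_distrib]
  refine Finset.sum_congr rfl fun k _ => ?_
  rw [Pi.add_apply, AddMonoidAlgebra.single_add]

theorem w15_lin_smul (c : D) (a : Fin n → D) :
    M.lin (c • a) = (AddMonoidAlgebra.single 0 c : YR D n) * M.lin a := by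
  unfold M.lin
  rw [Finset.mul_sum]
  refine Finset.sum_congr rfl fun k _ => ?_
  rw [AddMonoidAlgebra.single_mul_single, zero_add, Pi.smul_apply, smul_eq_mul]

theorem w15_lin_zero : M.lin (0 : Fin n → D) = 0 := by
  unfold M.lin
  refine Finset.sum_eq_zero fun k _ => ?_
  rw [Pi.zero_apply, AddMonoidAlgebra.single_zero]

/-- the products `u * M.lin v`, `v` in the span of the rows `j ≠ i₀`, have no pure power -/
theorem w15_mul_lin_mem (E : Fin n → Fin n → D)
    (hrow : ∀ i j, i ≠ j → ∀ k l, E i k * E j l = E j l * E i k)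
    (hind : LinearIndependent D E) (i₀ : Fin n) (v : Fin n → D)
    (hv : v ∈ Submodule.span D (E '' {j | j ≠ i₀})) :
    ∀ u : YR D n, u * M.lin v ∈ (w15P D i₀).map (theta E) := by
  induction hv using Submodule.span_induction with
  | mem x hx =>
    obtain ⟨j, hj, rfl⟩ := hx
    intro u
    obtain ⟨w, rfl⟩ := w15_theta_surj E hrow hind u
    refine ⟨w * zv D n j, w15_mul_zv_mem hj w, ?_⟩
    rw [theta_mul_zv E hrow]
  | zero =>
    intro u
    rw [w15_lin_zero, mul_zero]
    exact Submodule.zero_mem _
  | add x y _ _ hx hy =>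
    intro u
    rw [w15_lin_add, mul_add]
    exact Submodule.add_mem _ (hx u) (hy u)
  | smul c x _ hx =>
    intro u
    rw [w15_lin_smul, ← mul_assoc]
    exact hx _

end w15

theorem w15_contra {K : Type*} [Field K] {D : Type*} [DivisionRing D] [Algebra K D]
    {n n' : ℕ} (E : Fin n' → Fin n → D)
    (J : Ideal (MvPolynomial (Fin n) K)) (hJ : IsMPrimary J)
    (h : ∀ g ∈ J, bD D g ∈ Ideal.span (Set.range fun i => (M.lin (E i) : YR D n)))
    (F : Fin n → Fin n → D)
    (hrow : ∀ i j, i ≠ j → ∀ k l, F i k * F j l = F j l * F i k)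
    (hind : LinearIndependent D F) (i₀ k : Fin n) (hk : F i₀ = Pi.single k 1)
    (hE : ∀ i, E i ∈ Submodule.span D (F '' {j | j ≠ i₀})) : False := by
  rw [isMPrimary_iff_pow] at hJ
  obtain ⟨N, hN⟩ := hJ k
  have h1 := h _ hN
  rw [map_pow, bD_X] at h1
  have h2 : zv D n k ^ N ∈ (w15P D i₀).map (theta F) := by
    unfold Ideal.span at h1
    rw [Submodule.mem_span_range_iff_exists_fun] at h1
    obtain ⟨c, hc⟩ := h1
    rw [← hc]
    refine Submodule.sum_mem _ fun i _ => ?_
    rw [smul_eq_mul]
    exact w15_mul_lin_mem F hrow hind i₀ (E i) (hE i) (c i)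
  obtain ⟨w, hw, hw'⟩ := h2
  have h3 : theta F (AddMonoidAlgebra.single (Finsupp.single i₀ N) 1) = zv D n k ^ N := by
    rw [theta_single, w15_xim_single, hk, w15_lin_single, one_smul]
  rw [← h3] at hw'
  have h4 := theta_injective F hrow hind hw'
  have h5 := hw N
  rw [h4, AddMonoidAlgebra.coeff_single, Finsupp.single_eq_same] at h5
  exact one_ne_zero h5

theorem exists_independent_rows {K : Type*} [Field K] {D : Type*} [DivisionRing D] [Algebra K D]
    {n n' : ℕ} (E : Fin n' → Fin n → D)
    (hrow : ∀ i j, i ≠ j → ∀ k l, E i k * E j l = E j l * E i k)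
    (J : Ideal (MvPolynomial (Fin n) K)) (hJ : IsMPrimary J)
    (h : ∀ g ∈ J, bD D g ∈ Ideal.span (Set.range fun i => (M.lin (E i) : YR D n))) :
    ∃ s : Fin n → Fin n', Function.Injective s ∧ LinearIndependent D fun i => E (s i) := by
  classical
  obtain ⟨v, hv⟩ : ∃ v : Fin n' ⊕ Fin n → Fin n → D,
      v = Sum.elim E (fun k => Pi.single k 1) := ⟨_, rfl⟩
  have hvl : ∀ i, v (Sum.inl i) = E i := fun i => by rw [hv, Sum.elim_inl]
  have hvr : ∀ k, v (Sum.inr k) = Pi.single k 1 := fun k => by rw [hv, Sum.elim_inr]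
  obtain ⟨b₁, hb1, -, hb1s, hb1i⟩ := exists_linearIndepOn_extension
    (linearIndepOn_empty D v) (Set.empty_subset (Set.range Sum.inl))
  obtain ⟨b₂, -, hb12, hb2s, hb2i⟩ := exists_linearIndepOn_extension hb1i (Set.subset_univ b₁)
  have hspan : Submodule.span D (v '' b₂) = ⊤ := by
    rw [eq_top_iff]
    have h1 : Submodule.span D (Set.range fun k : Fin n => (Pi.single k 1 : Fin n → D)) = ⊤ := by
      have h2 := (Pi.basisFun D (Fin n)).span_eq
      have h3 : (fun k : Fin n => (Pi.single k 1 : Fin n → D)) = Pi.basisFun D (Fin n) := by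
        funext k
        rw [Pi.basisFun_apply]
      rw [h3]
      exact h2
    rw [← h1, Submodule.span_le]
    rintro _ ⟨k, rfl⟩
    exact hb2s ⟨Sum.inr k, Set.mem_univ _, hvr k⟩
  have hcard : Fintype.card b₂ = n := by
    have hr : Set.range (fun x : b₂ => v x) = v '' b₂ := by
      rw [Set.image_eq_range]
    have h1 : finrank D (Submodule.span D (Set.range fun x : b₂ => v x)) = Fintype.card b₂ :=
      finrank_span_eq_card hb2i
    rw [hr, hspan, finrank_top, Module.finrank_fin_fun] at h1
    exact h1.symm
  obtain ⟨e⟩ : Nonempty (Fin n ≃ b₂) := ⟨(Fintype.equivFinOfCardEq hcard).symm⟩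
  have hFi : LinearIndependent D fun i => v (e i) := hb2i.comp e e.injective
  by_cases hcase : b₂ ⊆ Set.range Sum.inl
  · have h1 : ∀ i, ∃ j : Fin n', Sum.inl j = (e i : Fin n' ⊕ Fin n) := fun i => hcase (e i).2
    choose s hs using h1
    have h2 : (fun i => v (e i)) = fun i => E (s i) := by
      funext i
      rw [← hs i, hvl]
    rw [h2] at hFi
    exact ⟨s, fun i j hij => hFi.injective (by
      change E (s i) = E (s j)
      rw [hij]), hFi⟩
  · exfalso
    rw [Set.not_subset] at hcase
    obtain ⟨z, hz, hz'⟩ := hcase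
    obtain ⟨k, rfl⟩ : ∃ k, z = Sum.inr k := by
      rcases z with i | k
      · exact absurd ⟨i, rfl⟩ hz'
      · exact ⟨k, rfl⟩
    have hzb1 : Sum.inr k ∉ b₁ := fun h => hz' (hb1 h)
    refine w15_contra E J hJ h (fun i => v (e i)) ?_ hFi (e.symm ⟨Sum.inr k, hz⟩) k ?_ ?_
    · intro i j hij a l
      have hne : (e i : Fin n' ⊕ Fin n) ≠ e j := fun h => hij (e.injective (Subtype.ext h))
      have hc : ∀ (m c : Fin n) (y : D), (Pi.single m 1 : Fin n → D) c * y =
          y * (Pi.single m 1 : Fin n → D) c := by
        intro m c y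
        rw [Pi.single_apply]
        split_ifs
        · rw [one_mul, mul_one]
        · rw [zero_mul, mul_zero]
      change v (e i) a * v (e j) l = v (e j) l * v (e i) a
      rcases hi : (e i : Fin n' ⊕ Fin n) with p | p
      · rcases hj : (e j : Fin n' ⊕ Fin n) with q | q
        · rw [hvl, hvl]
          refine hrow p q (fun h => hne ?_) a l
          rw [hi, hj, h]
        · rw [hvr]
          exact (hc _ _ _).symm
      · rw [hvr]
        exact hc _ _ _
    · change v (e (e.symm ⟨Sum.inr k, hz⟩)) = _
      rw [Equiv.apply_symm_apply]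
      exact hvr k
    · intro i
      have h1 : E i ∈ Submodule.span D (v '' b₁) := by
        rw [← hvl i]
        exact hb1s ⟨Sum.inl i, ⟨i, rfl⟩, rfl⟩
      refine Submodule.span_mono ?_ h1
      rintro _ ⟨x, hx, rfl⟩
      refine ⟨e.symm ⟨x, hb12 hx⟩, ?_, ?_⟩
      · intro h
        have h2 := congrArg e h
        rw [Equiv.apply_symm_apply, Equiv.apply_symm_apply] at h2
        have h3 : x = Sum.inr k := congrArg Subtype.val h2
        exact hzb1 (h3 ▸ hx)
      · change v (e (e.symm ⟨x, hb12 hx⟩)) = v x
        rw [Equiv.apply_symm_apply]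

end Vale.Agent.P200.W
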