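import Vale.Agent.P200.W.Alg
import Vale.Agent.P200.W.Choose
import Vale.Agent.P200.W.Rows

/-!
**Division ring points.**  For every m-primary system of `n` forms of the same prime degree `b` in `n`
variables there are commuting `D`-linear forms `ξ_i` (left independent) with
`ξ_i^b = ∑_j c_ij f_j`, `c` a generic matrix over a central subfield.

Proof.  Take `R, l, w` from `exists_blocks`.  `n` copies of the system, each with `R + 1` blocks, the
last one a dummy block with the two forms `X^b`, `Y^b`: total number of blocks `R' = n * (R+1)`, blocks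
`(i, j)` ordered lexicographically (`finProdFinEquiv` is lexicographic), forms
`ψ'_{(i,k)}` (`k < R*2`: `psi b R w k` in the blocks `(i, j)`, `j < R`), `ψ'_{(i, R*2)} = X^b`,
`ψ'_{(i, R*2+1)} = Y^b` in the block `(i, R)`; they are m-primary (a power of every variable is in the ideal).
`exists_block_algebra` gives `D` and `E (i,j) ε`.  Let `τ_i = E (i,R) 0`, `τ_i^b = y_{(i,R*2)} ≠ 0`.
`A_i = ∑_{j<R} (l j 0) E (i,j) 0 + (l j 1) E (i,j) 1 ∈ YR D n` (a linear form) satisfies (`qpow_sum`, `wsum_eval`)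
`A_i^b = ∑_j ∑_m (l j 0)^(b-m) (l j 1)^m cc = ∑_{k<R*2} y_{(i,k)} Ψ_k`,
`Ψ_k = ∑_j ∑_m w k j m (l j 0)^(b-m) (l j 1)^m ∈ (f)`, so `Ψ_k = ∑_j λ_kj f_j` with `λ_kj ∈ K` (degree `b`).
Put `ξ_i = A_i τ_i⁻¹`, `E'_i` its row of coefficients.  For `i < i'` every letter of copy `i` `ζ`-commutes with every letter
of copy `i'`; so the coefficients of `A_i τ_i⁻¹` and `A_i' τ_i'⁻¹` commute:
`A τ⁻¹ A' τ'⁻¹ = ζ^(1 - 1 - 1 + 1) A' τ'⁻¹ A τ⁻¹`.  `A_i τ_i = ζ τ_i A_i`, so
`ξ_i^b = (power of ζ) A_i^b τ_i^(-b) = ∑_j c_ij f_j`, `c_ij = (power of ζ) y_{(i,R*2)}⁻¹ ∑_k y_{(i,k)} λ_kj`.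
The ideal `J = (Ψ_k)` is m-primary: substitute `X_{jε} ↦ l j ε` in `X_{jε}^M ∈ (psi b R w k)_k` and use that the
`l j ε` generate an m-primary ideal.  Hence the `Ψ_k` span the `n`-dimensional space of the `f_j` (fewer than `n` forms are
never m-primary in `n` variables), the matrix `λ` has rank `n`, and all the minors of `c` are nonzero: a
minor with rows `s` and columns `t` is, up to nonzero factors, a polynomial in the `y_{(i,k)}` which for suitable values
of the `y` (rows of a left inverse of `λ`) is the determinant of an identity matrix.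
In particular `c` is invertible, so every `bD f_j` is in the left ideal generated by the `ξ_i` (a central combination of
the `ξ_i^b`); `exists_independent_rows` (with `n' = n`, `J = (f)`) or `V.rows_indep` gives the left independence of the rows.
-/

namespace Vale.Agent.P200.W

open MvPolynomial Module
open Vale.Agent.P200.B Vale.Agent.P200.G Vale.Agent.P200.L Vale.Agent.P200.M Vale.Agent.P200.V

universe u

/-! ### The copies of the blocks -/

theorem w16_bl_lt {r s : ℕ} {i i' : Fin r} {j j' : Fin s} (h : i < i' ∨ i = i' ∧ j < j') :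
    (Q.bl (i, j) : Fin (r * s)) < Q.bl (i', j') := by
  rw [Fin.lt_def, finProdFinEquiv_apply_val, finProdFinEquiv_apply_val]
  rcases h with h | ⟨rfl, h⟩
  · have h1 : (i : ℕ) + 1 ≤ i' := h
    have h2 : s * ((i : ℕ) + 1) ≤ s * i' := Nat.mul_le_mul_left _ h1
    have h3 := j.2
    simp only
    rw [Nat.mul_add, Nat.mul_one] at h2
    omega
  · have h1 : (j : ℕ) < j' := h
    simp only
    omega

section copies
variable {K : Type*} [Field K]

/-- index of a variable after renaming the blocks by `σ` -/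
def w16_ren {R R' : ℕ} (σ : Fin R → Fin R') (p : Fin (R * 2)) : Fin (R' * 2) :=
  Q.bl (σ (Q.bl.symm p).1, (Q.bl.symm p).2)

theorem w16_ren_bl {R R' : ℕ} (σ : Fin R → Fin R') (j : Fin R) (ε : Fin 2) :
    w16_ren σ (Q.bl (j, ε)) = Q.bl (σ j, ε) := by
  unfold w16_ren
  rw [Equiv.symm_apply_apply]

theorem w16_ren_injective {R R' : ℕ} {σ : Fin R → Fin R'} (hσ : Function.Injective σ) :
    Function.Injective (w16_ren σ) := by
  intro p p' h
  obtain ⟨⟨j, ε⟩, rfl⟩ := Q.bl.surjective p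
  obtain ⟨⟨j', ε'⟩, rfl⟩ := Q.bl.surjective p'
  rw [w16_ren_bl, w16_ren_bl] at h
  have h1 := Q.bl.injective h
  rw [Prod.mk.injEq] at h1
  rw [hσ h1.1, h1.2]

theorem w16_rename_psi {b R R' : ℕ} (σ : Fin R → Fin R') (hσ : Function.Injective σ)
    (w : Fin (R * 2) → Fin R → ℕ → K) (w' : Fin (R' * 2) → Fin R' → ℕ → K) (k : Fin (R * 2))
    (h1 : ∀ j m, w' (w16_ren σ k) (σ j) m = w k j m)
    (h2 : ∀ j', (∀ j, j' ≠ σ j) → ∀ m, w' (w16_ren σ k) j' m = 0) :
    rename (w16_ren σ) (psi b R w k) = psi b R' w' (w16_ren σ k) := by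
  classical
  unfold psi
  rw [map_sum, ← Finset.sum_subset (Finset.subset_univ (Finset.univ.map ⟨σ, hσ⟩)),
    Finset.sum_map]
  · refine Finset.sum_congr rfl fun j _ => ?_
    rw [map_sum]
    refine Finset.sum_congr rfl fun m _ => ?_
    rw [map_mul, map_mul, map_pow, map_pow, rename_C, rename_X, rename_X, w16_ren_bl, w16_ren_bl]
    show _ = C (w' (w16_ren σ k) (σ j) m) *
      (X (Q.bl (σ j, 0)) ^ (b - m) * X (Q.bl (σ j, 1)) ^ m)
    rw [h1]
  · intro j' _ hj'
    refine Finset.sum_eq_zero fun m _ => ?_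
    rw [h2 j' (fun j h => hj' (Finset.mem_map.2 ⟨j, Finset.mem_univ _, h.symm⟩)), C_0, zero_mul]

theorem w16_cc {R R' : ℕ} (σ : Fin R → Fin R') (hσ : Function.Injective σ)
    (w : Fin (R * 2) → Fin R → ℕ → K) (w' : Fin (R' * 2) → Fin R' → ℕ → K) (j : Fin R) (m : ℕ)
    (h1 : ∀ k, w' (w16_ren σ k) (σ j) m = w k j m)
    (h2 : ∀ p, (∀ k, p ≠ w16_ren σ k) → w' p (σ j) m = 0) :
    cc w' (σ j) m = ∑ k, algebraMap K (FF K (R' * 2)) (w k j m) * yv K (w16_ren σ k) := by
  classical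
  unfold cc
  rw [← Finset.sum_subset (Finset.subset_univ
    (Finset.univ.map ⟨w16_ren σ, w16_ren_injective hσ⟩)), Finset.sum_map]
  · refine Finset.sum_congr rfl fun k _ => ?_
    show algebraMap K (FF K (R' * 2)) (w' (w16_ren σ k) (σ j) m) * yv K (w16_ren σ k) = _
    rw [h1]
  · intro p _ hp
    rw [h2 p (fun k h => hp (Finset.mem_map.2 ⟨k, Finset.mem_univ _, h.symm⟩)), map_zero,
      zero_mul]

/-- the weights of the copies with a dummy block -/
noncomputable def w16_w (b : ℕ) {R : ℕ} (r : ℕ) (w : Fin (R * 2) → Fin R → ℕ → K) :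
    Fin (r * (R + 1) * 2) → Fin (r * (R + 1)) → ℕ → K := fun p q m =>
  if (Q.bl.symm q).1 = (Q.bl.symm (Q.bl.symm p).1).1 then
    Fin.lastCases (motive := fun _ => K)
      (Fin.lastCases (motive := fun _ => K)
        (if m = (if (Q.bl.symm p).2 = 0 then 0 else b) then 1 else 0) (fun _ => 0)
        (Q.bl.symm q).2)
      (fun j => Fin.lastCases (motive := fun _ => K) 0
        (fun j' => w (Q.bl (j, (Q.bl.symm p).2)) j' m) (Q.bl.symm q).2)
      (Q.bl.symm (Q.bl.symm p).1).2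
  else 0

section weights
variable (b : ℕ) {R : ℕ} (r : ℕ) (w : Fin (R * 2) → Fin R → ℕ → K)

theorem w16_w_ne {i i' : Fin r} (h : i' ≠ i) (j j' : Fin (R + 1)) (ε : Fin 2) (m : ℕ) :
    w16_w b r w (Q.bl (Q.bl (i, j), ε)) (Q.bl (i', j')) m = 0 := by
  unfold w16_w
  rw [Equiv.symm_apply_apply, Equiv.symm_apply_apply, Equiv.symm_apply_apply]
  exact if_neg h

theorem w16_w_cc (i : Fin r) (j j' : Fin R) (ε : Fin 2) (m : ℕ) :
    w16_w b r w (Q.bl (Q.bl (i, j.castSucc), ε)) (Q.bl (i, j'.castSucc)) m =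
      w (Q.bl (j, ε)) j' m := by
  unfold w16_w
  rw [Equiv.symm_apply_apply, Equiv.symm_apply_apply, Equiv.symm_apply_apply]
  simp

theorem w16_w_cl (i : Fin r) (j : Fin R) (ε : Fin 2) (m : ℕ) :
    w16_w b r w (Q.bl (Q.bl (i, j.castSucc), ε)) (Q.bl (i, Fin.last R)) m = 0 := by
  unfold w16_w
  rw [Equiv.symm_apply_apply, Equiv.symm_apply_apply, Equiv.symm_apply_apply]
  simp

theorem w16_w_lc (i : Fin r) (j' : Fin R) (ε : Fin 2) (m : ℕ) :
    w16_w b r w (Q.bl (Q.bl (i, Fin.last R), ε)) (Q.bl (i, j'.castSucc)) m = 0 := by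
  unfold w16_w
  rw [Equiv.symm_apply_apply, Equiv.symm_apply_apply, Equiv.symm_apply_apply]
  simp

theorem w16_w_ll (i : Fin r) (ε : Fin 2) (m : ℕ) :
    w16_w b r w (Q.bl (Q.bl (i, Fin.last R), ε)) (Q.bl (i, Fin.last R)) m =
      if m = (if ε = 0 then 0 else b) then 1 else 0 := by
  unfold w16_w
  rw [Equiv.symm_apply_apply, Equiv.symm_apply_apply, Equiv.symm_apply_apply]
  simp

/-- the blocks of the copy `i` -/
def w16_σ {r R : ℕ} (i : Fin r) (j : Fin R) : Fin (r * (R + 1)) := Q.bl (i, j.castSucc)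

theorem w16_σ_injective {r R : ℕ} (i : Fin r) :
    Function.Injective (w16_σ i : Fin R → Fin (r * (R + 1))) := by
  intro j j' h
  have h1 := Q.bl.injective h
  rw [Prod.mk.injEq] at h1
  exact Fin.castSucc_injective _ h1.2

theorem w16_psi_dummy (hb : 1 ≤ b) (i : Fin r) (ε : Fin 2) :
    psi b (r * (R + 1)) (w16_w b r w) (Q.bl (Q.bl (i, Fin.last R), ε)) =
      X (Q.bl (Q.bl (i, Fin.last R), ε)) ^ b := by
  classical
  unfold psi
  rw [Finset.sum_eq_single (Q.bl (i, Fin.last R))]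
  · rw [Finset.sum_eq_single (if ε = 0 then 0 else b)]
    · rw [w16_w_ll, if_pos rfl, C_1, one_mul]
      fin_cases ε
      · simp
      · simp
    · intro m _ hm
      rw [w16_w_ll, if_neg hm, C_0, zero_mul]
    · intro h
      exfalso
      apply h
      rw [Finset.mem_range]
      split_ifs <;> omega
  · intro q _ hq
    obtain ⟨⟨i', j'⟩, rfl⟩ := Q.bl.surjective q
    refine Finset.sum_eq_zero fun m _ => ?_
    by_cases hi : i' = i
    · subst hi
      rcases Fin.eq_castSucc_or_eq_last j' with ⟨j0, rfl⟩ | rfl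
      · rw [w16_w_lc, C_0, zero_mul]
      · exact absurd rfl hq
    · rw [w16_w_ne b r w hi, C_0, zero_mul]
  · intro h
    exact absurd (Finset.mem_univ _) h

theorem w16_psi_copy (i : Fin r) (k : Fin (R * 2)) :
    rename (w16_ren (w16_σ i)) (psi b R w k) =
      psi b (r * (R + 1)) (w16_w b r w) (w16_ren (w16_σ i) k) := by
  obtain ⟨⟨j, ε⟩, rfl⟩ := Q.bl.surjective k
  refine w16_rename_psi _ (w16_σ_injective i) _ _ _ (fun j' m => ?_) fun q hq m => ?_
  · rw [w16_ren_bl]
    exact w16_w_cc b r w i j j' ε m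
  · rw [w16_ren_bl]
    obtain ⟨⟨i', j'⟩, rfl⟩ := Q.bl.surjective q
    by_cases hi : i' = i
    · subst hi
      rcases Fin.eq_castSucc_or_eq_last j' with ⟨j0, rfl⟩ | rfl
      · exact absurd rfl (hq j0)
      · exact w16_w_cl b r w i' j ε m
    · exact w16_w_ne b r w hi _ _ ε m

theorem w16_isMPrimary (hb : 1 ≤ b) (hm : IsMPrimary (Ideal.span (Set.range (psi b R w)))) :
    IsMPrimary (Ideal.span (Set.range (psi b (r * (R + 1)) (w16_w b r w)))) := by
  obtain ⟨M, hM⟩ := hm
  refine Q.isMPrimary_of_pow_mem (M + b) fun p => ?_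
  obtain ⟨⟨q, ε⟩, rfl⟩ := Q.bl.surjective p
  obtain ⟨⟨i, j⟩, rfl⟩ := Q.bl.surjective q
  rw [pow_add]
  rcases Fin.eq_castSucc_or_eq_last j with ⟨j0, rfl⟩ | rfl
  · have h1 : (X (Q.bl (j0, ε)) : MvPolynomial (Fin (R * 2)) K) ^ M ∈
        Ideal.span (Set.range (psi b R w)) := by
      refine hM M le_rfl _ ?_
      have := (isHomogeneous_X K (Q.bl (j0, ε))).pow M
      simpa using this
    have h2 := Ideal.mem_map_of_mem (rename (R := K) (w16_ren (w16_σ (r := r) i))) h1
    rw [map_pow, rename_X, Ideal.map_span, w16_ren_bl] at h2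
    refine Ideal.mul_mem_right _ _ (Ideal.span_mono ?_ h2)
    rintro _ ⟨_, ⟨k, rfl⟩, rfl⟩
    exact ⟨_, (w16_psi_copy b r w i k).symm⟩
  · refine Ideal.mul_mem_left _ _ (Ideal.subset_span ⟨_, w16_psi_dummy b r w hb i ε⟩)

theorem w16_cc_copy (i : Fin r) (j : Fin R) (m : ℕ) :
    cc (w16_w b r w) (Q.bl (i, j.castSucc)) m =
      ∑ k, algebraMap K (FF K (r * (R + 1) * 2)) (w k j m) *
        yv K (w16_ren (w16_σ i) k) := by
  refine w16_cc (w16_σ i) (w16_σ_injective i) w (w16_w b r w) j m (fun k => ?_) fun p hp => ?_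
  · obtain ⟨⟨j', ε⟩, rfl⟩ := Q.bl.surjective k
    rw [w16_ren_bl]
    exact w16_w_cc b r w i j' j ε m
  · obtain ⟨⟨q, ε⟩, rfl⟩ := Q.bl.surjective p
    obtain ⟨⟨i', j'⟩, rfl⟩ := Q.bl.surjective q
    by_cases hi : i = i'
    · subst hi
      rcases Fin.eq_castSucc_or_eq_last j' with ⟨j0, rfl⟩ | rfl
      · exact absurd (w16_ren_bl (w16_σ i) j0 ε).symm (hp (Q.bl (j0, ε)))
      · exact w16_w_lc b r w i j ε m
    · exact w16_w_ne b r w hi _ _ ε m

theorem w16_cc_dummy (hb : 1 ≤ b) (i : Fin r) :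
    cc (w16_w b r w) (Q.bl (i, Fin.last R)) 0 =
      yv K (Q.bl (Q.bl (i, Fin.last R), (0 : Fin 2))) := by
  unfold cc
  rw [Finset.sum_eq_single (Q.bl (Q.bl (i, Fin.last R), (0 : Fin 2)))]
  · rw [w16_w_ll, if_pos rfl, if_pos rfl, map_one, one_mul]
  · intro p _ hp
    obtain ⟨⟨q, ε⟩, rfl⟩ := Q.bl.surjective p
    obtain ⟨⟨i', j'⟩, rfl⟩ := Q.bl.surjective q
    by_cases hi : i = i'
    · subst hi
      rcases Fin.eq_castSucc_or_eq_last j' with ⟨j0, rfl⟩ | rfl
      · rw [w16_w_cl, map_zero, zero_mul]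
      · have hε : ε ≠ 0 := by
          rintro rfl
          exact hp rfl
        rw [w16_w_ll, if_neg hε, if_neg (by omega), map_zero, zero_mul]
    · rw [w16_w_ne b r w hi, map_zero, zero_mul]
  · intro h
    exact absurd (Finset.mem_univ _) h

end weights

end copies

/-! ### Commutation rules -/

theorem w16_comm4 {D : Type*} [DivisionRing D] {z a a' t t' : D} (hz : ∀ x, z * x = x * z)
    (hz0 : z ≠ 0) (ht : t ≠ 0) (ht' : t' ≠ 0)
    (h1 : a * a' = z * (a' * a)) (h2 : t * a' = z * (a' * t)) (h3 : a * t' = z * (t' * a))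
    (h4 : t * t' = z * (t' * t)) :
    (a * t⁻¹) * (a' * t'⁻¹) = (a' * t'⁻¹) * (a * t⁻¹) := by
  have e1 : z * ((a * t⁻¹) * (a' * t'⁻¹)) * (t' * t) = z * (a' * a) := by
    calc z * ((a * t⁻¹) * (a' * t'⁻¹)) * (t' * t)
        = z * (a * t⁻¹ * (a' * (t'⁻¹ * t' * t))) := by noncomm_ring
      _ = a * t⁻¹ * (z * (a' * t)) := by
          rw [inv_mul_cancel₀ ht', one_mul, ← mul_assoc z, hz, mul_assoc (a * t⁻¹)]
      _ = a * (t⁻¹ * t) * a' := by rw [← h2]; noncomm_ring
      _ = z * (a' * a) := by rw [inv_mul_cancel₀ ht, mul_one, h1]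
  have e2 : z * ((a' * t'⁻¹) * (a * t⁻¹)) * (t' * t) = z * (a' * a) := by
    calc z * ((a' * t'⁻¹) * (a * t⁻¹)) * (t' * t)
        = (a' * t'⁻¹) * (a * t⁻¹) * (z * (t' * t)) := by
          rw [hz]; noncomm_ring
      _ = (a' * t'⁻¹) * (a * (t⁻¹ * t * t')) := by rw [← h4]; noncomm_ring
      _ = a' * t'⁻¹ * (z * (t' * a)) := by rw [inv_mul_cancel₀ ht, one_mul, h3]
      _ = z * (a' * (t'⁻¹ * t' * a)) := by
          rw [← mul_assoc (a' * t'⁻¹), ← hz]; noncomm_ring
      _ = z * (a' * a) := by rw [inv_mul_cancel₀ ht', one_mul]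
  exact mul_left_cancel₀ hz0 (mul_right_cancel₀ (mul_ne_zero ht' ht) (e1.trans e2.symm))

theorem w16_mul_pow {A : Type*} [Ring A] {z u v : A} (hz : ∀ x, z * x = x * z)
    (h : v * u = z * (u * v)) (N : ℕ) : ∃ e : ℕ, (u * v) ^ N = z ^ e * (u ^ N * v ^ N) := by
  have hzp : ∀ N x, z ^ N * x = x * z ^ N := fun N x => (Commute.pow_left (hz x) N).eq
  have h1 : ∀ N, v ^ N * u = z ^ N * (u * v ^ N) := by
    intro N
    induction N with
    | zero => simp
    | succ N ih =>
      rw [pow_succ, mul_assoc, h, ← mul_assoc (v ^ N) z, ← hz, mul_assoc z, ← mul_assoc (v ^ N),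
        ih]
      rw [pow_succ' z]
      simp only [mul_assoc]
  induction N with
  | zero => exact ⟨0, by simp⟩
  | succ N ih =>
    obtain ⟨e, he⟩ := ih
    refine ⟨e + N, ?_⟩
    rw [pow_succ, he]
    calc z ^ e * (u ^ N * v ^ N) * (u * v) = z ^ e * (u ^ N * ((v ^ N * u) * v)) := by
          noncomm_ring
      _ = z ^ e * (u ^ N * (z ^ N * ((u * v ^ N) * v))) := by rw [h1, mul_assoc (z ^ N)]
      _ = z ^ e * (z ^ N * (u ^ N * ((u * v ^ N) * v))) := by
          rw [← mul_assoc (u ^ N) (z ^ N), ← hzp, mul_assoc (z ^ N)]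
      _ = z ^ (e + N) * (u ^ (N + 1) * v ^ (N + 1)) := by
          rw [pow_add, pow_succ u, pow_succ v]
          noncomm_ring

theorem w16_bilin {K D : Type*} [Field K] [DivisionRing D] [Algebra K D] {S S' : Set D} {z : D}
    (h : ∀ a ∈ S, ∀ a' ∈ S', a * a' = z * (a' * a)) {a a' : D}
    (ha : a ∈ Submodule.span K S) (ha' : a' ∈ Submodule.span K S') :
    a * a' = z * (a' * a) := by
  induction ha using Submodule.span_induction with
  | mem x hx =>
    induction ha' using Submodule.span_induction with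
    | mem y hy => exact h x hx y hy
    | zero => simp
    | add y y' _ _ h1 h2 => rw [mul_add, h1, h2, add_mul, mul_add]
    | smul k y _ h1 => rw [mul_smul_comm, h1, smul_mul_assoc, mul_smul_comm]
  | zero => simp
  | add x x' _ _ h1 h2 => rw [add_mul, h1, h2, mul_add, mul_add]
  | smul k x _ h1 => rw [smul_mul_assoc, h1, mul_smul_comm, mul_smul_comm]

theorem w16_coeff_comm {D : Type*} [DivisionRing D] {n : ℕ} {z : D} (u v : YR D n)
    (h : ∀ m m', u.coeff m * v.coeff m' = z * (v.coeff m' * u.coeff m)) :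
    u * v = AddMonoidAlgebra.single 0 z * (v * u) := by
  rw [AddMonoidAlgebra.mul_def u v, AddMonoidAlgebra.mul_def v u]
  simp only [Finsupp.sum]
  rw [Finset.mul_sum, Finset.sum_comm]
  refine Finset.sum_congr rfl fun m' _ => ?_
  rw [Finset.mul_sum]
  refine Finset.sum_congr rfl fun m _ => ?_
  rw [AddMonoidAlgebra.single_mul_single, zero_add, h, add_comm m m']

/-! ### Linear forms -/

section linear
variable {D : Type*} [DivisionRing D] {n : ℕ}

theorem w16_lin_coeff (e : Fin n → D) (k : Fin n) :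
    (M.lin e : YR D n).coeff (Finsupp.single k 1) = e k := by
  classical
  unfold M.lin
  rw [AddMonoidAlgebra.coeff_sum, Finsupp.finsetSum_apply, Finset.sum_eq_single k]
  · rw [AddMonoidAlgebra.coeff_single, Finsupp.single_eq_same]
  · intro k' _ hk
    rw [AddMonoidAlgebra.coeff_single, Finsupp.single_apply, if_neg]
    intro h
    have h1 := congrArg (fun f : Fin n →₀ ℕ => f k) h
    simp only [Finsupp.single_eq_same] at h1
    rw [Finsupp.single_eq_of_ne (Ne.symm hk)] at h1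
    omega
  · intro h
    exact absurd (Finset.mem_univ k) h

theorem w16_eq_lin {u : YR D n} (hu : u ∈ YD D n 1) :
    M.lin (fun k => u.coeff (Finsupp.single k 1)) = u := by
  classical
  have hlin := lin_mem (fun k => u.coeff (Finsupp.single k 1))
  ext m
  by_cases hm : ∑ i, m i = 1
  · obtain ⟨k, hk⟩ : ∃ k, m = Finsupp.single k 1 := by
      obtain ⟨k, hk⟩ : ∃ k, m k ≠ 0 := by
        by_contra hcon
        push Not at hcon
        rw [Finset.sum_eq_zero fun i _ => hcon i] at hm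
        omega
      refine ⟨k, ?_⟩
      have h1 := Finset.add_sum_erase Finset.univ (fun i => m i) (Finset.mem_univ k)
      ext i
      by_cases hi : i = k
      · rw [hi, Finsupp.single_eq_same]
        omega
      · rw [Finsupp.single_eq_of_ne hi]
        have h2 := Finset.single_le_sum (f := fun i => m i) (fun i _ => Nat.zero_le _)
          (Finset.mem_erase.2 ⟨hi, Finset.mem_univ i⟩)
        omega
    rw [hk, w16_lin_coeff]
  · have h1 : ∀ v ∈ YD D n 1, v.coeff m = 0 := by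
      intro v hv
      by_contra h
      exact hm (hv m h)
    rw [h1 _ hlin, h1 _ hu]

theorem w16_single_mul_coeff (c : D) (u : YR D n) (m : Fin n →₀ ℕ) :
    (AddMonoidAlgebra.single 0 c * u).coeff m = c * u.coeff m := by
  rw [AddMonoidAlgebra.coeff_single_zero_mul]

theorem w16_smul_eq (c : D) (u : YR D n) : c • u = AddMonoidAlgebra.single 0 c * u := by
  ext m
  rw [w16_single_mul_coeff, AddMonoidAlgebra.coeff_smul_apply, smul_eq_mul]

end linear

section point
variable {K : Type*} [Field K] {F : Type*} [Field F] [Algebra K F]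
  {D : Type*} [DivisionRing D] [Algebra K D] [Algebra F D] [IsScalarTower K F D] {n : ℕ}

omit [Field F] [Algebra K F] [Algebra F D] [IsScalarTower K F D] in
theorem w16_smul_eqK (c : K) (u : YR D n) :
    c • u = AddMonoidAlgebra.single 0 (algebraMap K D c) * u := by
  ext m
  rw [w16_single_mul_coeff, AddMonoidAlgebra.coeff_smul_apply, Algebra.smul_def]

omit [Field F] [Algebra K F] [Algebra F D] [IsScalarTower K F D] in
theorem w16_bD_comm (g : MvPolynomial (Fin n) K) (u : YR D n) :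
    bD D g * u = u * bD D g := by
  have h := w16_coeff_comm (z := (1 : D)) (bD D g) u fun m m' => by
    rw [bD_coeff, one_mul, Algebra.commutes]
  rw [h, ← AddMonoidAlgebra.one_def, one_mul]

omit [Field F] [Algebra K F] [Algebra F D] [IsScalarTower K F D] in
theorem w16_bD_mul_coeff (g : MvPolynomial (Fin n) K) (c : D) (m : Fin n →₀ ℕ) :
    (bD D g * AddMonoidAlgebra.single 0 c : YR D n).coeff m =
      algebraMap K D (coeff m g) * c := by
  rw [AddMonoidAlgebra.coeff_mul_single_zero, bD_coeff]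

omit [Field F] [Algebra K F] [Algebra F D] [IsScalarTower K F D] in
theorem w16_bD_mem {g : MvPolynomial (Fin n) K} {d : ℕ} (hg : g.IsHomogeneous d) :
    bD D g ∈ YD D n d := by
  rw [← VD_homogeneous (K := K)]
  exact Submodule.subset_span ⟨g, hg, rfl⟩

/-- the linear form of one block -/
noncomputable def w16_blk (l : Fin 2 → MvPolynomial (Fin n) K) (x : Fin 2 → D) : YR D n :=
  bD D (l 0) * AddMonoidAlgebra.single 0 (x 0) + bD D (l 1) * AddMonoidAlgebra.single 0 (x 1)

omit [Field F] [Algebra K F] [Algebra F D] [IsScalarTower K F D] in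
theorem w16_blk_mem (l : Fin 2 → MvPolynomial (Fin n) K) (hl : ∀ ε, (l ε).IsHomogeneous 1)
    (x : Fin 2 → D) : w16_blk l x ∈ YD D n 1 := by
  have h1 : ∀ ε, bD D (l ε) * AddMonoidAlgebra.single 0 (x ε) ∈ YD D n 1 := by
    intro ε
    have h2 := mul_mem_YD (w16_bD_mem (D := D) (hl ε))
      (m4_single_mem (D := D) (n := n) (d := 0) (m := 0) (by simp) (x ε))
    simpa using h2
  exact Submodule.add_mem _ (h1 0) (h1 1)

omit [Field F] [Algebra K F] [Algebra F D] [IsScalarTower K F D] in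
theorem w16_blk_coeff (l : Fin 2 → MvPolynomial (Fin n) K) (x : Fin 2 → D) {S : Set D}
    (hx : ∀ ε, x ε ∈ S) (m : Fin n →₀ ℕ) :
    (w16_blk l x).coeff m ∈ Submodule.span K S := by
  unfold w16_blk
  rw [AddMonoidAlgebra.coeff_add, Finsupp.add_apply, w16_bD_mul_coeff, w16_bD_mul_coeff,
    ← Algebra.smul_def, ← Algebra.smul_def]
  exact Submodule.add_mem _ (Submodule.smul_mem _ _ (Submodule.subset_span (hx 0)))
    (Submodule.smul_mem _ _ (Submodule.subset_span (hx 1)))

/-- a linear combination with coefficients in `F` -/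
theorem w16_bD_sum {ι : Type*} (s : Finset ι) (g : MvPolynomial (Fin n) K) (w : ι → K)
    (y : ι → F) :
    bD D g * AddMonoidAlgebra.single 0 (algebraMap F D (∑ k ∈ s, algebraMap K F (w k) * y k)) =
      ∑ k ∈ s, algebraMap F D (y k) • bD D (C (w k) * g) := by
  ext m
  rw [w16_bD_mul_coeff, AddMonoidAlgebra.coeff_sum, Finsupp.finsetSum_apply,
    IsScalarTower.algebraMap_apply K F D, ← map_mul, Finset.mul_sum, map_sum]
  refine Finset.sum_congr rfl fun k _ => ?_
  rw [AddMonoidAlgebra.coeff_smul_apply, bD_coeff, coeff_C_mul, smul_eq_mul,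
    IsScalarTower.algebraMap_apply K F D, ← map_mul, map_mul (algebraMap K F)]
  congr 1
  ring

theorem w16_blk_pow {b : ℕ} {ι : Type*} (s : Finset ι) (l : Fin 2 → MvPolynomial (Fin n) K)
    (x : Fin 2 → D) (w : ι → ℕ → K) (y : ι → F)
    (hw : ∀ m ≤ b, wsum (x 0) (x 1) b m =
      algebraMap F D (∑ k ∈ s, algebraMap K F (w k m) * y k)) :
    w16_blk l x ^ b = ∑ k ∈ s, algebraMap F D (y k) •
      bD D (∑ m ∈ Finset.range (b + 1), C (w k m) * (l 0 ^ (b - m) * l 1 ^ m)) := by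
  have h1 := wsum_eval (B := YR D n) (AddMonoidAlgebra.singleZeroRingHom : D →+* YR D n)
    (bD D (l 0)) (bD D (l 1)) (fun a => w16_bD_comm _ _) (fun a => w16_bD_comm _ _)
    (w16_bD_comm _ _) (x 0) (x 1) b
  have h2 : w16_blk l x = bD D (l 0) * (AddMonoidAlgebra.singleZeroRingHom : D →+* YR D n) (x 0) +
      bD D (l 1) * (AddMonoidAlgebra.singleZeroRingHom : D →+* YR D n) (x 1) := rfl
  rw [h2, h1]
  have h3 : ∀ m ∈ Finset.range (b + 1), bD D (l 0) ^ (b - m) * bD D (l 1) ^ m *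
      (AddMonoidAlgebra.singleZeroRingHom : D →+* YR D n) (wsum (x 0) (x 1) b m) =
      ∑ k ∈ s, algebraMap F D (y k) • bD D (C (w k m) * (l 0 ^ (b - m) * l 1 ^ m)) := by
    intro m hm
    rw [hw m (Nat.lt_succ_iff.1 (Finset.mem_range.1 hm)), ← map_pow, ← map_pow, ← map_mul]
    exact w16_bD_sum s _ (fun k => w k m) y
  rw [Finset.sum_congr rfl h3, Finset.sum_comm]
  refine Finset.sum_congr rfl fun k _ => ?_
  rw [map_sum, Finset.smul_sum]

/-- the powers of the sum of the blocks -/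
theorem w16_sum_pow {b R : ℕ} (hb : 1 ≤ b) {ζ : K} (hζ : IsPrimitiveRoot ζ b)
    {ι : Type*} [Fintype ι]
    (l : Fin R → Fin 2 → MvPolynomial (Fin n) K) (x : Fin R → Fin 2 → D)
    (hcomm : ∀ j j', j < j' → ∀ ε δ, x j ε * x j' δ = algebraMap K D ζ * (x j' δ * x j ε))
    (w : ι → Fin R → ℕ → K) (y : ι → F)
    (hw : ∀ j, ∀ m ≤ b, wsum (x j 0) (x j 1) b m =
      algebraMap F D (∑ k, algebraMap K F (w k j m) * y k)) :
    (∑ j, w16_blk (l j) (x j)) ^ b = ∑ k, algebraMap F D (y k) •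
      bD D (∑ j, ∑ m ∈ Finset.range (b + 1), C (w k j m) * (l j 0 ^ (b - m) * l j 1 ^ m)) := by
  rw [qpow_sum hb hζ]
  · rw [Finset.sum_congr rfl fun j _ => w16_blk_pow Finset.univ (l j) (x j)
      (fun k m => w k j m) y (hw j), Finset.sum_comm]
    refine Finset.sum_congr rfl fun k _ => ?_
    rw [map_sum, Finset.smul_sum]
  · intro j j' hj
    rw [w16_smul_eqK]
    refine w16_coeff_comm _ _ fun m m' => ?_
    refine w16_bilin (K := K) (S := Set.range (x j)) (S' := Set.range (x j')) ?_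
      (w16_blk_coeff _ _ (fun ε => Set.mem_range_self ε) m)
      (w16_blk_coeff _ _ (fun ε => Set.mem_range_self ε) m')
    rintro _ ⟨ε, rfl⟩ _ ⟨δ, rfl⟩
    exact hcomm j j' hj ε δ

/-- all the rows -/
theorem w16_rows {b R r : ℕ} (hb : 1 ≤ b) {ζ : K} (hζ : IsPrimitiveRoot ζ b)
    {ι : Type*} [Fintype ι]
    (l : Fin R → Fin 2 → MvPolynomial (Fin n) K) (hl : ∀ j ε, (l j ε).IsHomogeneous 1)
    (x : Fin r → Fin (R + 1) → Fin 2 → D)
    (hcomm : ∀ i j i' j', (i < i' ∨ i = i' ∧ j < j') → ∀ ε δ,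
      x i j ε * x i' j' δ = algebraMap K D ζ * (x i' j' δ * x i j ε))
    (w : ι → Fin R → ℕ → K) (y : Fin r → ι → F) (t : Fin r → F) (ht0 : ∀ i, t i ≠ 0)
    (hw : ∀ i j, ∀ m ≤ b, wsum (x i (Fin.castSucc j) 0) (x i (Fin.castSucc j) 1) b m =
      algebraMap F D (∑ k, algebraMap K F (w k j m) * y i k))
    (ht : ∀ i, x i (Fin.last R) 0 ^ b = algebraMap F D (t i)) :
    ∃ (E : Fin r → Fin n → D) (c : Fin r → F), (∀ i, c i ≠ 0) ∧
      (∀ i j, i ≠ j → ∀ k l, E i k * E j l = E j l * E i k) ∧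
      ∀ i, (M.lin (E i) ^ b : YR D n) = algebraMap F D (c i) • ∑ k, algebraMap F D (y i k) •
        bD D (∑ j, ∑ m ∈ Finset.range (b + 1),
          C (w k j m) * (l j 0 ^ (b - m) * l j 1 ^ m)) := by
  have hζ0 : ζ ≠ 0 := hζ.ne_zero (by omega)
  have hzD : algebraMap K D ζ ≠ 0 := by
    intro h
    exact hζ0 ((algebraMap K D).injective (by rw [h, map_zero]))
  set A : Fin r → YR D n := fun i => ∑ j, w16_blk (l j) (x i (Fin.castSucc j)) with hA
  set τ : Fin r → D := fun i => x i (Fin.last R) 0 with hτ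
  have hτ0 : ∀ i, τ i ≠ 0 := by
    intro i h
    have h1 := ht i
    have h2 : x i (Fin.last R) 0 = 0 := h
    rw [h2, zero_pow (by omega)] at h1
    exact ht0 i ((algebraMap F D).injective (by rw [← h1, map_zero]))
  set ξ : Fin r → YR D n := fun i => A i * AddMonoidAlgebra.single 0 (τ i)⁻¹ with hξ
  have hAd : ∀ i, A i ∈ YD D n 1 := fun i =>
    Submodule.sum_mem _ fun j _ => w16_blk_mem (l j) (hl j) _
  have hξd : ∀ i, ξ i ∈ YD D n 1 := by
    intro i
    have h2 := mul_mem_YD (hAd i)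
      (m4_single_mem (D := D) (n := n) (d := 0) (m := 0) (by simp) (τ i)⁻¹)
    simpa using h2
  set S : Fin r → Set D := fun i => Set.range fun p : Fin (R + 1) × Fin 2 => x i p.1 p.2 with hS
  have hAc : ∀ i m, (A i).coeff m ∈ Submodule.span K
      (Set.range fun p : Fin R × Fin 2 => x i (Fin.castSucc p.1) p.2) := by
    intro i m
    rw [hA]
    simp only
    rw [AddMonoidAlgebra.coeff_sum, Finsupp.finsetSum_apply]
    exact Submodule.sum_mem _ fun j _ => w16_blk_coeff _ _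
      (fun ε => Set.mem_range_self (f := fun p : Fin R × Fin 2 => x i (Fin.castSucc p.1) p.2)
        (j, ε)) m
  have hAS : ∀ i m, (A i).coeff m ∈ Submodule.span K (S i) := by
    intro i m
    refine Submodule.span_mono ?_ (hAc i m)
    rintro _ ⟨p, rfl⟩
    exact ⟨(Fin.castSucc p.1, p.2), rfl⟩
  have hτS : ∀ i, τ i ∈ Submodule.span K (S i) := fun i =>
    Submodule.subset_span ⟨(Fin.last R, 0), rfl⟩
  have hSS : ∀ i i', i < i' → ∀ a ∈ Submodule.span K (S i), ∀ a' ∈ Submodule.span K (S i'),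
      a * a' = algebraMap K D ζ * (a' * a) := by
    intro i i' hi a ha a' ha'
    refine w16_bilin (K := K) ?_ ha ha'
    rintro _ ⟨p, rfl⟩ _ ⟨p', rfl⟩
    exact hcomm _ _ _ _ (Or.inl hi) _ _
  have hAτ : ∀ i m, (A i).coeff m * τ i = algebraMap K D ζ * (τ i * (A i).coeff m) := by
    intro i m
    refine w16_bilin (K := K) (S' := {τ i}) ?_ (hAc i m)
      (Submodule.subset_span (Set.mem_singleton _))
    rintro _ ⟨p, rfl⟩ _ h
    rw [Set.mem_singleton_iff] at h
    rw [h]
    exact hcomm _ _ _ _ (Or.inr ⟨rfl, Fin.castSucc_lt_last _⟩) _ _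
  have hrow : ∀ i i', i < i' → ∀ k k', (ξ i).coeff (Finsupp.single k 1) *
      (ξ i').coeff (Finsupp.single k' 1) =
      (ξ i').coeff (Finsupp.single k' 1) * (ξ i).coeff (Finsupp.single k 1) := by
    intro i i' hi k k'
    rw [hξ]
    simp only
    rw [AddMonoidAlgebra.coeff_mul_single_zero, AddMonoidAlgebra.coeff_mul_single_zero]
    exact w16_comm4 (fun a => Algebra.commutes ζ a) hzD (hτ0 i) (hτ0 i')
      (hSS i i' hi _ (hAS i _) _ (hAS i' _)) (hSS i i' hi _ (hτS i) _ (hAS i' _))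
      (hSS i i' hi _ (hAS i _) _ (hτS i')) (hSS i i' hi _ (hτS i) _ (hτS i'))
  -- the powers
  have hvu : ∀ i, (AddMonoidAlgebra.single 0 (τ i)⁻¹ : YR D n) * A i =
      AddMonoidAlgebra.single 0 (algebraMap K D ζ) *
        (A i * AddMonoidAlgebra.single 0 (τ i)⁻¹) := by
    intro i
    ext m
    rw [w16_single_mul_coeff, w16_single_mul_coeff, AddMonoidAlgebra.coeff_mul_single_zero]
    have h1 := hAτ i m
    have h2 : (τ i)⁻¹ * ((A i).coeff m * τ i) * (τ i)⁻¹ =
        (τ i)⁻¹ * (algebraMap K D ζ * (τ i * (A i).coeff m)) * (τ i)⁻¹ := by rw [h1]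
    have h3 : (τ i)⁻¹ * ((A i).coeff m * τ i) * (τ i)⁻¹ = (τ i)⁻¹ * (A i).coeff m := by
      rw [mul_assoc, mul_assoc, mul_inv_cancel₀ (hτ0 i), mul_one]
    have h4 : (τ i)⁻¹ * (algebraMap K D ζ * (τ i * (A i).coeff m)) * (τ i)⁻¹ =
        algebraMap K D ζ * ((A i).coeff m * (τ i)⁻¹) := by
      rw [← mul_assoc (τ i)⁻¹, ← Algebra.commutes ζ (τ i)⁻¹, mul_assoc (algebraMap K D ζ),
        ← mul_assoc (τ i)⁻¹ (τ i), inv_mul_cancel₀ (hτ0 i), one_mul, mul_assoc]
    rw [← h3, h2, h4]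
  have hpow : ∀ i, ∃ e : ℕ, ξ i ^ b = AddMonoidAlgebra.single 0
      (algebraMap F D (algebraMap K F ζ ^ e * (t i)⁻¹)) * A i ^ b := by
    intro i
    have hzc : ∀ u : YR D n, AddMonoidAlgebra.single 0 (algebraMap K D ζ) * u =
        u * AddMonoidAlgebra.single 0 (algebraMap K D ζ) := by
      intro u
      ext m
      rw [w16_single_mul_coeff, AddMonoidAlgebra.coeff_mul_single_zero, Algebra.commutes]
    obtain ⟨e, he⟩ := w16_mul_pow hzc (hvu i) b
    refine ⟨e, ?_⟩
    have h1 : ξ i ^ b = (A i * AddMonoidAlgebra.single 0 (τ i)⁻¹) ^ b := rfl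
    rw [h1, he]
    have h2 : (AddMonoidAlgebra.single 0 (τ i)⁻¹ : YR D n) ^ b =
        AddMonoidAlgebra.single 0 (algebraMap F D (t i)⁻¹) := by
      have h3 : (AddMonoidAlgebra.single 0 (τ i)⁻¹ : YR D n) =
          (AddMonoidAlgebra.singleZeroRingHom : D →+* YR D n) (τ i)⁻¹ := rfl
      rw [h3, ← map_pow, inv_pow]
      have h4 : τ i ^ b = algebraMap F D (t i) := ht i
      rw [h4, ← map_inv₀ (algebraMap F D)]
      rfl
    have h5 : (AddMonoidAlgebra.single 0 (algebraMap K D ζ) : YR D n) ^ e =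
        AddMonoidAlgebra.single 0 (algebraMap F D (algebraMap K F ζ ^ e)) := by
      have h3 : (AddMonoidAlgebra.single 0 (algebraMap K D ζ) : YR D n) =
          (AddMonoidAlgebra.singleZeroRingHom : D →+* YR D n) (algebraMap K D ζ) := rfl
      rw [h3, ← map_pow, IsScalarTower.algebraMap_apply K F D, ← map_pow]
      rfl
    rw [h2, h5]
    ext m
    rw [w16_single_mul_coeff, AddMonoidAlgebra.coeff_mul_single_zero, w16_single_mul_coeff,
      map_mul, mul_assoc, Algebra.commutes (t i)⁻¹]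
  choose e he using hpow
  refine ⟨fun i k => (ξ i).coeff (Finsupp.single k 1),
    fun i => algebraMap K F ζ ^ e i * (t i)⁻¹, fun i => ?_, ?_, fun i => ?_⟩
  · refine mul_ne_zero (pow_ne_zero _ ?_) (inv_ne_zero (ht0 i))
    intro h
    exact hζ0 ((algebraMap K F).injective (by rw [h, map_zero]))
  · intro i i' hi k k'
    rcases lt_or_gt_of_ne hi with h | h
    · exact hrow i i' h k k'
    · exact (hrow i' i h k' k).symm
  · rw [w16_eq_lin (hξd i), he i, w16_smul_eq]
    congr 1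
    exact w16_sum_pow hb hζ l (fun j => x i (Fin.castSucc j))
      (fun j j' hj => hcomm _ _ _ _ (Or.inr ⟨rfl, Fin.castSucc_lt_castSucc_iff.2 hj⟩)) w (y i)
      (hw i)

end point

/-! ### The ideal generated by the forms `Ψ_k` -/

section ideal
variable {K : Type*} [Field K] {n : ℕ}

theorem w16_primary_of_radical {I J : Ideal (MvPolynomial (Fin n) K)} (hI : IsMPrimary I)
    (h : I ≤ J.radical) : IsMPrimary J := by
  obtain ⟨M, hM⟩ := hI
  have h1 : ∀ i, ∃ N : ℕ, (X i : MvPolynomial (Fin n) K) ^ N ∈ J := by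
    intro i
    have h2 : (X i : MvPolynomial (Fin n) K) ^ M ∈ I := by
      refine hM M le_rfl _ ?_
      have := (isHomogeneous_X K i).pow M
      simpa using this
    obtain ⟨N, hN⟩ := h h2
    rw [← pow_mul] at hN
    exact ⟨_, hN⟩
  choose N hN using h1
  refine Q.isMPrimary_of_pow_mem (∑ i, N i) fun i => ?_
  exact Ideal.pow_mem_of_pow_mem _ (hN i)
    (Finset.single_le_sum (f := N) (fun i _ => Nat.zero_le _) (Finset.mem_univ i))

theorem w16_J {b R : ℕ} (l : Fin R → Fin 2 → MvPolynomial (Fin n) K)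
    (w : Fin (R * 2) → Fin R → ℕ → K)
    (hm : IsMPrimary (Ideal.span (Set.range (psi b R w))))
    (hl : IsMPrimary (Ideal.span (Set.range fun p : Fin R × Fin 2 => l p.1 p.2))) :
    IsMPrimary (Ideal.span (Set.range fun k : Fin (R * 2) =>
      ∑ j, ∑ m ∈ Finset.range (b + 1), C (w k j m) * (l j 0 ^ (b - m) * l j 1 ^ m))) := by
  refine w16_primary_of_radical hl ?_
  rw [Ideal.span_le]
  rintro _ ⟨⟨j, ε⟩, rfl⟩
  obtain ⟨M, hM⟩ := hm
  have h1 : (X (Q.bl (j, ε)) : MvPolynomial (Fin (R * 2)) K) ^ M ∈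
      Ideal.span (Set.range (psi b R w)) := by
    refine hM M le_rfl _ ?_
    have := (isHomogeneous_X K (Q.bl (j, ε))).pow M
    simpa using this
  set φ : MvPolynomial (Fin (R * 2)) K →ₐ[K] MvPolynomial (Fin n) K :=
    aeval fun p => l (Q.bl.symm p).1 (Q.bl.symm p).2 with hφ
  have hφX : ∀ (j : Fin R) (ε : Fin 2), φ (X (Q.bl (j, ε))) = l j ε := by
    intro j ε
    rw [hφ, aeval_X, Equiv.symm_apply_apply]
  have h2 := Ideal.mem_map_of_mem φ h1
  rw [map_pow, hφX, Ideal.map_span] at h2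
  refine ⟨M, Ideal.span_mono ?_ h2⟩
  rintro _ ⟨_, ⟨k, rfl⟩, rfl⟩
  refine ⟨k, ?_⟩
  unfold psi
  rw [map_sum]
  refine Finset.sum_congr rfl fun j _ => ?_
  rw [map_sum]
  refine Finset.sum_congr rfl fun m _ => ?_
  rw [map_mul, map_mul, map_pow, map_pow, hφX, hφX, algHom_C]
  rfl

theorem w16_lambda {b : ℕ} (f : Fin n → MvPolynomial (Fin n) K)
    (hf : ∀ i, (f i).IsHomogeneous b) {g : MvPolynomial (Fin n) K}
    (hg : g ∈ Ideal.span (Set.range f)) (hgb : g.IsHomogeneous b) :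
    ∃ c : Fin n → K, g = ∑ j, c j • f j := by
  have h1 : g ∈ Submodule.span K (Set.range f) := by
    refine piece_span_le (s := Set.range f) (d := b) ?_ ⟨hg, hgb⟩
    rintro _ ⟨i, rfl⟩ w
    rw [comp_zero_mul w (hf i)]
    exact Submodule.smul_mem _ _ (Submodule.subset_span ⟨i, rfl⟩)
  obtain ⟨c, hc⟩ := (Submodule.mem_span_range_iff_exists_fun K).1 h1
  exact ⟨c, hc.symm⟩

/-- the coefficient matrix of m-primary combinations of `n` forms has a left inverse -/
theorem w16_left_inverse {b N : ℕ} (hb : 1 ≤ b) (f : Fin n → MvPolynomial (Fin n) K)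
    (hf : ∀ i, (f i).IsHomogeneous b) (Λ : Matrix (Fin N) (Fin n) K)
    (hJ : IsMPrimary (Ideal.span (Set.range fun k => ∑ j, Λ k j • f j))) :
    ∃ μ : Matrix (Fin n) (Fin N) K, μ * Λ = 1 := by
  classical
  have hker : LinearMap.ker (Matrix.toLin' Λ) = ⊥ := by
    rw [LinearMap.ker_eq_bot']
    intro v hv
    by_contra hv0
    obtain ⟨j0, hj0⟩ : ∃ j0, v j0 ≠ 0 := by
      by_contra hcon
      push Not at hcon
      exact hv0 (funext hcon)
    set g : Fin n → MvPolynomial (Fin n) K := fun j => f j - (v j * (v j0)⁻¹) • f j0 with hg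
    have hgb : ∀ j, (g j).IsHomogeneous b := by
      intro j
      have h1 : ((v j * (v j0)⁻¹) • f j0).IsHomogeneous b :=
        (homogeneousSubmodule (Fin n) K b).smul_mem _ (hf j0)
      exact (hf j).sub h1
    have hle : Ideal.span (Set.range fun k => ∑ j, Λ k j • f j) ≤
        Ideal.span (Set.range g) := by
      rw [Ideal.span_le]
      rintro _ ⟨k, rfl⟩
      have h1 : ∑ j, Λ k j * v j = 0 := by
        have h2 := congrFun hv k
        rw [Matrix.toLin'_apply] at h2
        exact h2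
      have h3 : ∑ j, Λ k j • f j = ∑ j, Λ k j • g j := by
        rw [← sub_eq_zero, ← Finset.sum_sub_distrib]
        have h4 : ∀ j, Λ k j • f j - Λ k j • g j = (Λ k j * v j) • ((v j0)⁻¹ • f j0) := by
          intro j
          rw [hg]
          simp only
          rw [← smul_sub, sub_sub_cancel, smul_smul, smul_smul, mul_assoc]
        rw [Finset.sum_congr rfl fun j _ => h4 j, ← Finset.sum_smul, h1, zero_smul]
      show ∑ j, Λ k j • f j ∈ _
      rw [h3]
      refine Ideal.sum_mem _ fun j _ => ?_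
      rw [smul_eq_C_mul]
      exact Ideal.mul_mem_left _ _ (Ideal.subset_span ⟨j, rfl⟩)
    refine ne_zero_of_isMPrimary (fun _ => b) (fun _ => hb) g hgb
      (IsMPrimary.mono hJ hle) j0 ?_
    rw [hg]
    simp only
    rw [mul_inv_cancel₀ hj0, one_smul, sub_self]
  obtain ⟨G, hG⟩ := LinearMap.exists_leftInverse_of_injective _ hker
  refine ⟨LinearMap.toMatrix' G, ?_⟩
  have h1 : Λ = LinearMap.toMatrix' (Matrix.toLin' Λ) := (LinearMap.toMatrix'_toLin' Λ).symm
  conv_lhs => rw [h1]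
  rw [← LinearMap.toMatrix'_comp, hG, LinearMap.toMatrix'_id]

/-- the minors of the matrix of coefficients -/
theorem w16_minor {N N' m : ℕ} (ρ : Fin n → Fin N → Fin N')
    (hρ : ∀ i k i' k', ρ i k = ρ i' k' → i = i' ∧ k = k') (Λ : Matrix (Fin N) (Fin n) K)
    (μ : Matrix (Fin n) (Fin N) K) (hμ : μ * Λ = 1) (d : Fin n → FF K N') (hd : ∀ i, d i ≠ 0)
    (s t : Fin m → Fin n) (hs : Function.Injective s) (ht : Function.Injective t) :
    ((Matrix.of fun i j => d i * ∑ k, yv K (ρ i k) *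
      algebraMap K (FF K N') (Λ k j)).submatrix s t).det ≠ 0 := by
  classical
  set M0 : Matrix (Fin m) (Fin m) (MvPolynomial (Fin N') K) :=
    Matrix.of fun i j => ∑ k, X (ρ (s i) k) * C (Λ k (t j)) with hM0
  have h1 : (Matrix.of fun i j => d i * ∑ k, yv K (ρ i k) *
      algebraMap K (FF K N') (Λ k j)).submatrix s t =
      Matrix.diagonal (fun i => d (s i)) *
        (algebraMap (MvPolynomial (Fin N') K) (FF K N')).mapMatrix M0 := by
    ext i j
    rw [Matrix.diagonal_mul]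
    show d (s i) * ∑ k, yv K (ρ (s i) k) * algebraMap K (FF K N') (Λ k (t j)) =
      d (s i) * algebraMap (MvPolynomial (Fin N') K) (FF K N')
        (∑ k, X (ρ (s i) k) * C (Λ k (t j)))
    rw [map_sum]
    congr 1
    refine Finset.sum_congr rfl fun k _ => ?_
    rw [map_mul, IsScalarTower.algebraMap_apply K (MvPolynomial (Fin N') K) (FF K N')]
    rfl
  rw [h1, Matrix.det_mul, Matrix.det_diagonal, ← RingHom.map_det]
  refine mul_ne_zero (Finset.prod_ne_zero_iff.2 fun i _ => hd (s i)) fun h => ?_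
  have h2 : M0.det = 0 :=
    IsFractionRing.injective (MvPolynomial (Fin N') K) (FF K N') (by rw [h, map_zero])
  have hinj : Function.Injective fun p : Fin m × Fin N => ρ (s p.1) p.2 := by
    rintro ⟨i, k⟩ ⟨i', k'⟩ h
    obtain ⟨ha, hb⟩ := hρ _ _ _ _ h
    exact Prod.ext (hs ha) hb
  set v : Fin N' → K := Function.extend (fun p : Fin m × Fin N => ρ (s p.1) p.2)
    (fun p => μ (t p.1) p.2) 0 with hv
  have hvi : ∀ i k, v (ρ (s i) k) = μ (t i) k := fun i k => hinj.extend_apply _ _ (i, k)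
  have h3 : (eval v).mapMatrix M0 = 1 := by
    ext i j
    show eval v (∑ k, X (ρ (s i) k) * C (Λ k (t j))) = _
    rw [map_sum]
    have h4 : ∀ k, eval v (X (ρ (s i) k) * C (Λ k (t j))) = μ (t i) k * Λ k (t j) := by
      intro k
      rw [map_mul, eval_X, eval_C, hvi]
    rw [Finset.sum_congr rfl fun k _ => h4 k, ← Matrix.mul_apply, hμ]
    by_cases hij : i = j
    · rw [hij, Matrix.one_apply_eq, Matrix.one_apply_eq]
    · rw [Matrix.one_apply_ne hij, Matrix.one_apply_ne fun h => hij (ht h)]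
  have h4 := RingHom.map_det (eval v) M0
  rw [h3, h2, map_zero, Matrix.det_one] at h4
  exact zero_ne_one h4

end ideal

/-- the forms `f_j` are in the left ideal generated by the rows -/
theorem w16_mem_span {K : Type*} [Field K] {F : Type*} [Field F]
    {D : Type*} [DivisionRing D] [Algebra K D] [Algebra F D] {n N b : ℕ} (hb : 1 ≤ b)
    (Z : Matrix (Fin N) (Fin N) F) (hZ : Z.det ≠ 0) (Ψ : Fin N → MvPolynomial (Fin n) K)
    (E : Fin N → Fin n → D)
    (hE : ∀ i, (M.lin (E i) ^ b : YR D n) = ∑ k, algebraMap F D (Z i k) • bD D (Ψ k))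
    (k : Fin N) :
    bD D (Ψ k) ∈ Ideal.span (Set.range fun i => (M.lin (E i) : YR D n)) := by
  classical
  have h1 : Z⁻¹ * Z = 1 := Matrix.nonsing_inv_mul Z (isUnit_iff_ne_zero.2 hZ)
  have h2 : bD D (Ψ k) = ∑ i, algebraMap F D (Z⁻¹ k i) • M.lin (E i) ^ b := by
    have h3 : ∀ i, algebraMap F D (Z⁻¹ k i) • (M.lin (E i) ^ b : YR D n) =
        ∑ k', algebraMap F D (Z⁻¹ k i * Z i k') • bD D (Ψ k') := by
      intro i
      rw [hE i, Finset.smul_sum]
      refine Finset.sum_congr rfl fun k' _ => ?_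
      rw [smul_smul, ← map_mul]
    rw [Finset.sum_congr rfl fun i _ => h3 i, Finset.sum_comm]
    have h4 : ∀ k', ∑ i, algebraMap F D (Z⁻¹ k i * Z i k') • (bD D (Ψ k') : YR D n) =
        if k' = k then bD D (Ψ k') else 0 := by
      intro k'
      rw [← Finset.sum_smul, ← map_sum]
      have h5 : ∑ i, Z⁻¹ k i * Z i k' = (1 : Matrix (Fin N) (Fin N) F) k k' := by
        rw [← h1, Matrix.mul_apply]
      rw [h5, Matrix.one_apply]
      by_cases hk : k' = k
      · rw [if_pos hk, if_pos hk.symm, map_one, one_smul]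
      · rw [if_neg hk, if_neg (Ne.symm hk), map_zero, zero_smul]
    rw [Finset.sum_congr rfl fun k' _ => h4 k', Finset.sum_ite_eq' Finset.univ k, if_pos
      (Finset.mem_univ k)]
  rw [h2]
  refine Ideal.sum_mem _ fun i _ => ?_
  rw [w16_smul_eq]
  refine Ideal.mul_mem_left _ _ ?_
  obtain ⟨b', rfl⟩ : ∃ b', b = b' + 1 := ⟨b - 1, by omega⟩
  rw [pow_succ]
  exact Ideal.mul_mem_left _ _ (Ideal.subset_span ⟨i, rfl⟩)

theorem w16_yv_ne_zero {K : Type*} [Field K] {N : ℕ} (k : Fin N) : yv K k ≠ 0 := by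
  intro h
  have h1 : (X k : MvPolynomial (Fin N) K) = 0 :=
    IsFractionRing.injective (MvPolynomial (Fin N) K) (FF K N) (by rw [map_zero]; exact h)
  exact X_ne_zero k h1

theorem w16_wsum_zero {A : Type*} [Semiring A] (x y : A) (N : ℕ) : wsum x y N 0 = x ^ N := by
  induction N with
  | zero => rw [pow_zero]; rfl
  | succ N ih => rw [pow_succ', ← ih]; rfl

theorem exists_point_gen {K : Type u} [Field K] [IsAlgClosed K] {n b : ℕ} (hb : b.Prime)
    (hbK : (b.factorial : K) ≠ 0)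
    (f : Fin n → MvPolynomial (Fin n) K) (hf : ∀ i, (f i).IsHomogeneous b)
    (hm : IsMPrimary (Ideal.span (Set.range f))) :
    ∃ (L : Type u) (_ : Field L) (D : Type u) (_ : DivisionRing D) (_ : Algebra K D)
      (_ : Algebra L D) (E : Fin n → Fin n → D) (c : Matrix (Fin n) (Fin n) L),
      (∀ i j, i ≠ j → ∀ k l, E i k * E j l = E j l * E i k) ∧ LinearIndependent D E ∧
      (∀ (m : ℕ) (s t : Fin m → Fin n), Function.Injective s → Function.Injective t →
        (c.submatrix s t).det ≠ 0) ∧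
      ∀ i, (M.lin (E i) ^ b : YR D n) = ∑ j, algebraMap L D (c i j) • bD D (f j) := by
  classical
  have hb1 : 1 ≤ b := hb.one_lt.le
  have hbK' : (b : K) ≠ 0 := by
    intro h
    apply hbK
    obtain ⟨c, hc⟩ := Nat.dvd_factorial hb.pos le_rfl
    rw [hc, Nat.cast_mul, h, zero_mul]
  obtain ⟨R, l, w, hl, hψ, hΨ, hlm⟩ := exists_blocks hb1 hbK f hf hm
  have : NeZero (b : K) := ⟨hbK'⟩
  obtain ⟨ζ, hζ⟩ := HasEnoughRootsOfUnity.exists_primitiveRoot K b
  obtain ⟨D, iD, iF, x, hx, hxw⟩ := exists_block_algebra hb hbK hζ (w16_w b n w)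
    (w16_isMPrimary b n w hb1 hψ)
  let iK : Algebra K D := Algebra.compHom D (algebraMap K (FF K (n * (R + 1) * 2)))
  have : IsScalarTower K (FF K (n * (R + 1) * 2)) D :=
    IsScalarTower.of_algebraMap_eq fun _ => rfl
  obtain ⟨E, d, hd, hrow, hE⟩ := w16_rows (F := FF K (n * (R + 1) * 2)) (r := n) hb1 hζ l
    hl (fun i j ε => x (Q.bl (i, j)) ε)
    (fun i j i' j' h ε δ => hx _ _ (w16_bl_lt h) ε δ) w
    (fun i k => yv K (w16_ren (w16_σ i) k))
    (fun i => yv K (Q.bl (Q.bl (i, Fin.last R), (0 : Fin 2))))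
    (fun i => w16_yv_ne_zero _)
    (fun i j m hm => by rw [hxw _ m hm, w16_cc_copy])
    (fun i => by
      have h := hxw (Q.bl (i, Fin.last R)) 0 (Nat.zero_le b)
      rw [w16_cc_dummy b n w hb1 i, w16_wsum_zero] at h
      exact h)
  have hΨb : ∀ k, (∑ j, ∑ m ∈ Finset.range (b + 1),
      C (w k j m) * (l j 0 ^ (b - m) * l j 1 ^ m)).IsHomogeneous b := by
    intro k
    refine IsHomogeneous.sum _ _ _ fun j _ => IsHomogeneous.sum _ _ _ fun m hm => ?_
    have hm' := Finset.mem_range.1 hm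
    have h1 := (isHomogeneous_C (Fin n) (w k j m)).mul
      (((hl j 0).pow (b - m)).mul ((hl j 1).pow m))
    have h2 : 0 + (1 * (b - m) + 1 * m) = b := by omega
    rw [h2] at h1
    exact h1
  choose Λ hΛ using fun k => w16_lambda f hf (hΨ k) (hΨb k)
  have hJ := w16_J l w hψ hlm
  have hΛ' : (fun k : Fin (R * 2) => ∑ j, ∑ m ∈ Finset.range (b + 1),
      C (w k j m) * (l j 0 ^ (b - m) * l j 1 ^ m)) = fun k => ∑ j, Λ k j • f j := funext hΛ
  rw [hΛ'] at hJ
  obtain ⟨μ, hμ⟩ := w16_left_inverse hb1 f hf Λ hJ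
  set c : Matrix (Fin n) (Fin n) (FF K (n * (R + 1) * 2)) := Matrix.of fun i j =>
    d i * ∑ k, yv K (w16_ren (w16_σ i) k) * algebraMap K (FF K (n * (R + 1) * 2)) (Λ k j) with hc
  have hminor : ∀ (m : ℕ) (s t : Fin m → Fin n), Function.Injective s → Function.Injective t →
      (c.submatrix s t).det ≠ 0 := fun m s t hs ht =>
    w16_minor (fun i k => w16_ren (w16_σ i) k) (fun i k i' k' h => by
        obtain ⟨⟨j, ε⟩, rfl⟩ := Q.bl.surjective k
        obtain ⟨⟨j', ε'⟩, rfl⟩ := Q.bl.surjective k'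
        rw [w16_ren_bl, w16_ren_bl] at h
        have h1 := Q.bl.injective h
        rw [Prod.mk.injEq] at h1
        have h2 := Q.bl.injective h1.1
        rw [Prod.mk.injEq] at h2
        exact ⟨h2.1, by rw [Fin.castSucc_injective _ h2.2, h1.2]⟩) Λ μ hμ d hd s t hs ht
  have hEc : ∀ i, (M.lin (E i) ^ b : YR D n) =
      ∑ j, algebraMap (FF K (n * (R + 1) * 2)) D (c i j) • bD D (f j) := by
    intro i
    have h1 : ∀ k, algebraMap (FF K (n * (R + 1) * 2)) D (yv K (w16_ren (w16_σ i) k)) •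
        bD D (∑ j, ∑ m ∈ Finset.range (b + 1),
          C (w k j m) * (l j 0 ^ (b - m) * l j 1 ^ m)) =
        ∑ j, algebraMap (FF K (n * (R + 1) * 2)) D (yv K (w16_ren (w16_σ i) k) *
          algebraMap K (FF K (n * (R + 1) * 2)) (Λ k j)) • bD D (f j) := by
      intro k
      rw [hΛ k, map_sum, Finset.smul_sum]
      refine Finset.sum_congr rfl fun j _ => ?_
      rw [bD_smul, smul_smul, map_mul]
      rfl
    rw [hE i, Finset.sum_congr rfl fun k _ => h1 k, Finset.sum_comm, Finset.smul_sum]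
    refine Finset.sum_congr rfl fun j _ => ?_
    rw [← Finset.sum_smul, smul_smul, ← map_sum, ← map_mul]
    rfl
  have hmem : ∀ k, bD D (f k) ∈ Ideal.span (Set.range fun i => (M.lin (E i) : YR D n)) :=
    w16_mem_span hb1 c (by
      have h1 := hminor n id id Function.injective_id Function.injective_id
      rwa [Matrix.submatrix_id_id] at h1) f E hEc
  obtain ⟨s, hs, hind⟩ := exists_independent_rows E hrow (Ideal.span (Set.range f)) hm
    fun g hg => by
      obtain ⟨h, hh⟩ := Ideal.mem_span_range_iff_exists_fun.1 hg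
      rw [← hh, map_sum]
      refine Ideal.sum_mem _ fun k _ => ?_
      rw [map_mul]
      exact Ideal.mul_mem_left _ _ (hmem k)
  refine ⟨FF K (n * (R + 1) * 2), inferInstance, D, iD, iK, iF, E, c, hrow, ?_, hminor, hEc⟩
  exact (linearIndependent_equiv (Equiv.ofBijective s
    ((Fintype.bijective_iff_injective_and_card s).2 ⟨hs, rfl⟩))).1 hind

theorem exists_point {K : Type u} [Field K] [IsAlgClosed K] {n b : ℕ} (hb : b.Prime)
    (hbK : (b.factorial : K) ≠ 0)
    (f : Fin n → MvPolynomial (Fin n) K) (hf : ∀ i, (f i).IsHomogeneous b)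
    (hm : IsMPrimary (Ideal.span (Set.range f))) :
    ∃ (D : Type u) (_ : DivisionRing D) (_ : Algebra K D) (E : Fin n → Fin n → D),
      (∀ i j, i ≠ j → ∀ k l, E i k * E j l = E j l * E i k) ∧ LinearIndependent D E ∧
      ∀ i, (M.lin (E i) ^ b : YR D n) ∈ VD D (piece (Ideal.span (Set.range f)) b) := by
  obtain ⟨L, iL, D, iD, iK, iLD, E, c, hrow, hind, -, hE⟩ := exists_point_gen hb hbK f hf hm
  refine ⟨D, iD, iK, E, hrow, hind, fun i => ?_⟩
  rw [hE]
  exact Submodule.sum_mem _ fun k _ => Submodule.smul_mem _ _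
    (Submodule.subset_span ⟨f k, ⟨Ideal.subset_span ⟨k, rfl⟩, hf k⟩, rfl⟩)

end Vale.Agent.P200.W
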