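import Vale.Agent.P200.W.Defs

/-!
Words and `ζ`-commuting variables.

* `qpow_add` : if `x y = ζ y x` with a primitive `b`-th root of unity `ζ` then
  `(x + y)^b = x^b + y^b`.  (Gaussian binomials: put `g (N+1) (m+1) = g N m * ζ^? + g N (m+1)`,
  prove `(x+y)^N = ∑_m g N m • (y^m x^(N-m))` (or the other order) and
  `g N m * [m]! * [N-m]! = [N]!` with `[i] = 1 + ζ + ... + ζ^(i-1)`, which is nonzero for `0 < i < b` and
  zero for `i = b`.)
* `qpow_sum` : several variables, induction over the number of variables (`x = x_0`,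
  `y = ∑_{i>0} x_i`).
* `wsum_eval` : `(s x + t y)^N = ∑_m s^(N-m) t^m wsum x y N m` for central `s`, `t`.
* `coeff_linA_pow` : the coefficients of `(∑ E_l X_l)^b` are the `csum`.
* `csum_of_blocks` : combination: put `A_j = E_{j0} X_{j0} + E_{j1} X_{j1}` in `AR A (R*2)`; then
  `linA E = ∑_j A_j`, `A_j A_j' = ζ A_j' A_j` for `j < j'`, hence `(linA E)^b = ∑_j A_j^b`
  `= ∑_j ∑_m X_{j0}^(b-m) X_{j1}^m wsum (E j 0) (E j 1) b m = ∑_k ψ_k y_k`; take coefficients.
-/

namespace Vale.Agent.P200.W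

open MvPolynomial Module
open Vale.Agent.P200.B Vale.Agent.P200.G Vale.Agent.P200.L Vale.Agent.P200.M Vale.Agent.P200.V

section binom
variable {K : Type*} [Field K] {A : Type*} [Ring A] [Algebra K A]

/-- Gaussian binomial coefficients -/
def w1_g (ζ : K) : ℕ → ℕ → K
  | 0, 0 => 1
  | 0, _ + 1 => 0
  | N + 1, 0 => w1_g ζ N 0
  | N + 1, m + 1 => ζ ^ (m + 1) * w1_g ζ N (m + 1) + w1_g ζ N m

theorem w1_g_zero (ζ : K) (N : ℕ) : w1_g ζ N 0 = 1 := by
  induction N with
  | zero => rfl
  | succ N ih => rw [w1_g, ih]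

theorem w1_g_lt (ζ : K) (N : ℕ) : ∀ m, N < m → w1_g ζ N m = 0 := by
  induction N with
  | zero =>
    intro m hm
    obtain ⟨m, rfl⟩ := Nat.exists_eq_succ_of_ne_zero (by omega : m ≠ 0)
    rfl
  | succ N ih =>
    intro m hm
    obtain ⟨m, rfl⟩ := Nat.exists_eq_succ_of_ne_zero (by omega : m ≠ 0)
    rw [Nat.succ_eq_add_one, w1_g, ih _ (by omega), ih _ (by omega), mul_zero, add_zero]

theorem w1_g_self (ζ : K) (N : ℕ) : w1_g ζ N N = 1 := by
  induction N with
  | zero => rfl
  | succ N ih => rw [w1_g, ih, w1_g_lt ζ N _ (by omega), mul_zero, zero_add]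

theorem w1_g_rel (ζ : K) (N : ℕ) : ∀ m,
    (ζ ^ (m + 1) - 1) * w1_g ζ (N + 1) (m + 1) = (ζ ^ (N + 1) - 1) * w1_g ζ N m := by
  induction N with
  | zero =>
    intro m
    cases m with
    | zero => simp [w1_g]
    | succ m => simp [w1_g]
  | succ N ih =>
    intro m
    have h1 : (ζ ^ (N + 1) - ζ ^ m) * w1_g ζ (N + 1) m = ζ ^ m * (ζ ^ (N + 1) - 1) * w1_g ζ N m := by
      cases m with
      | zero => rw [w1_g_zero, w1_g_zero]; ring
      | succ m =>
        have h2 := ih m
        have h3 : w1_g ζ (N + 1) (m + 1) = ζ ^ (m + 1) * w1_g ζ N (m + 1) + w1_g ζ N m := by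
          rw [w1_g]
        rw [h3] at h2 ⊢
        linear_combination (-1) * h2
    have h4 : w1_g ζ (N + 1 + 1) (m + 1) =
        ζ ^ (m + 1) * w1_g ζ (N + 1) (m + 1) + w1_g ζ (N + 1) m := by
      rw [w1_g]
    rw [h4]
    have h5 := ih m
    linear_combination ζ ^ (m + 1) * h5 + ζ * (-1) * h1

theorem w1_comm {ζ : K} (x y : A) (h : x * y = ζ • (y * x)) (m : ℕ) :
    x * y ^ m = ζ ^ m • (y ^ m * x) := by
  induction m with
  | zero => simp
  | succ m ih =>
    rw [pow_succ' y m, ← mul_assoc, h, smul_mul_assoc, mul_assoc y x, ih, mul_smul_comm, smul_smul,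
      ← mul_assoc, pow_succ' ζ m]

theorem w1_expand {ζ : K} (x y : A) (h : x * y = ζ • (y * x)) (N : ℕ) :
    (x + y) ^ N = ∑ m ∈ Finset.range (N + 1), w1_g ζ N m • (y ^ m * x ^ (N - m)) := by
  induction N with
  | zero => simp [w1_g]
  | succ N ih =>
    rw [pow_succ', ih, add_mul, Finset.mul_sum, Finset.mul_sum]
    have h1 : ∀ m ∈ Finset.range (N + 1), x * w1_g ζ N m • (y ^ m * x ^ (N - m)) =
        (ζ ^ m * w1_g ζ N m) • (y ^ m * x ^ (N + 1 - m)) := by
      intro m hm
      have hm' : m ≤ N := Nat.lt_succ_iff.mp (Finset.mem_range.mp hm)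
      rw [mul_smul_comm, ← mul_assoc, w1_comm x y h, smul_mul_assoc, smul_smul, mul_assoc,
        ← pow_succ', mul_comm (w1_g ζ N m), show N - m + 1 = N + 1 - m by omega]
    have h2 : ∀ m ∈ Finset.range (N + 1), y * w1_g ζ N m • (y ^ m * x ^ (N - m)) =
        w1_g ζ N m • (y ^ (m + 1) * x ^ (N + 1 - (m + 1))) := by
      intro m _
      rw [mul_smul_comm, ← mul_assoc, ← pow_succ', show N + 1 - (m + 1) = N - m by omega]
    rw [Finset.sum_congr rfl h1, Finset.sum_congr rfl h2]
    rw [Finset.sum_range_succ' (fun m => w1_g ζ (N + 1) m • (y ^ m * x ^ (N + 1 - m))) (N + 1)]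
    have h3 : ∀ m ∈ Finset.range (N + 1),
        w1_g ζ (N + 1) (m + 1) • (y ^ (m + 1) * x ^ (N + 1 - (m + 1))) =
        (ζ ^ (m + 1) * w1_g ζ N (m + 1)) • (y ^ (m + 1) * x ^ (N + 1 - (m + 1))) +
          w1_g ζ N m • (y ^ (m + 1) * x ^ (N + 1 - (m + 1))) := by
      intro m _
      rw [w1_g, add_smul]
    rw [Finset.sum_congr rfl h3, Finset.sum_add_distrib]
    rw [Finset.sum_range_succ' (fun m => (ζ ^ m * w1_g ζ N m) • (y ^ m * x ^ (N + 1 - m))) N]
    rw [Finset.sum_range_succ
      (fun m => (ζ ^ (m + 1) * w1_g ζ N (m + 1)) • (y ^ (m + 1) * x ^ (N + 1 - (m + 1)))) N]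
    rw [w1_g_lt ζ N (N + 1) (by omega), w1_g_zero, w1_g_zero]
    simp only [mul_zero, zero_smul, add_zero, pow_zero, one_mul, Nat.sub_zero, one_smul, mul_one]
    abel

theorem qpow_add {ζ : K} {b : ℕ} (hb : 1 ≤ b) (hζ : IsPrimitiveRoot ζ b) (x y : A)
    (h : x * y = ζ • (y * x)) : (x + y) ^ b = x ^ b + y ^ b := by
  obtain ⟨N, rfl⟩ : ∃ N, b = N + 1 := ⟨b - 1, by omega⟩
  rw [w1_expand x y h, Finset.sum_range_succ, Finset.sum_range_succ', w1_g_zero, w1_g_self]
  rw [Finset.sum_eq_zero]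
  · simp
  · intro m hm
    have hm' : m < N := Finset.mem_range.mp hm
    have h1 := w1_g_rel ζ N m
    rw [hζ.pow_eq_one, sub_self, zero_mul] at h1
    have h2 : ζ ^ (m + 1) - 1 ≠ 0 :=
      sub_ne_zero.mpr (hζ.pow_ne_one_of_pos_of_lt (by omega) (by omega))
    rw [(mul_eq_zero.mp h1).resolve_left h2, zero_smul]

theorem qpow_sum {ζ : K} {b : ℕ} (hb : 1 ≤ b) (hζ : IsPrimitiveRoot ζ b) {R : ℕ} (x : Fin R → A)
    (h : ∀ i j, i < j → x i * x j = ζ • (x j * x i)) : (∑ i, x i) ^ b = ∑ i, x i ^ b := by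
  induction R with
  | zero =>
    simp only [Finset.univ_eq_empty, Finset.sum_empty]
    exact zero_pow (by omega)
  | succ R ih =>
    rw [Fin.sum_univ_succ, Fin.sum_univ_succ, qpow_add hb hζ, ih]
    · intro i j hij
      exact h _ _ (Fin.succ_lt_succ_iff.mpr hij)
    · rw [Finset.mul_sum, Finset.sum_mul, Finset.smul_sum]
      exact Finset.sum_congr rfl fun i _ => h _ _ (Fin.succ_pos i)

theorem w1_wsum_lt {A : Type*} [Semiring A] (x y : A) (N : ℕ) :
    ∀ m, N < m → wsum x y N m = 0 := by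
  induction N with
  | zero =>
    intro m hm
    obtain ⟨m, rfl⟩ := Nat.exists_eq_succ_of_ne_zero (by omega : m ≠ 0)
    rfl
  | succ N ih =>
    intro m hm
    obtain ⟨m, rfl⟩ := Nat.exists_eq_succ_of_ne_zero (by omega : m ≠ 0)
    rw [Nat.succ_eq_add_one, wsum, ih _ (by omega), ih _ (by omega), mul_zero, mul_zero, add_zero]

theorem wsum_eval {B : Type*} [Ring B] (φ : A →+* B) (s t : B) (hs : ∀ a, s * φ a = φ a * s)
    (ht : ∀ a, t * φ a = φ a * t) (hst : s * t = t * s) (x y : A) (N : ℕ) :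
    (s * φ x + t * φ y) ^ N =
      ∑ m ∈ Finset.range (N + 1), s ^ (N - m) * t ^ m * φ (wsum x y N m) := by
  have hs' : ∀ (a : A), Commute (φ a) s := fun a => (hs a).symm
  have ht' : ∀ (a : A), Commute (φ a) t := fun a => (ht a).symm
  have hst' : Commute t s := hst.symm
  induction N with
  | zero => simp [wsum]
  | succ N ih =>
    rw [pow_succ', ih, add_mul, Finset.mul_sum, Finset.mul_sum]
    have h1 : ∀ m ∈ Finset.range (N + 1), s * φ x * (s ^ (N - m) * t ^ m * φ (wsum x y N m)) =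
        s ^ (N + 1 - m) * t ^ m * φ (x * wsum x y N m) := by
      intro m hm
      have hm' : m ≤ N := Nat.lt_succ_iff.mp (Finset.mem_range.mp hm)
      have h2 : φ x * (s ^ (N - m) * t ^ m) = s ^ (N - m) * t ^ m * φ x :=
        (((hs' x).pow_right _).mul_right ((ht' x).pow_right _)).eq
      rw [mul_assoc s, ← mul_assoc (φ x), h2, map_mul, show N + 1 - m = N - m + 1 by omega,
        pow_succ' s (N - m)]
      simp only [mul_assoc]
    have h3 : ∀ m ∈ Finset.range (N + 1), t * φ y * (s ^ (N - m) * t ^ m * φ (wsum x y N m)) =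
        s ^ (N + 1 - (m + 1)) * t ^ (m + 1) * φ (y * wsum x y N m) := by
      intro m hm
      have h2 : φ y * (s ^ (N - m) * t ^ m) = s ^ (N - m) * t ^ m * φ y :=
        (((hs' y).pow_right _).mul_right ((ht' y).pow_right _)).eq
      have h4 : t * s ^ (N - m) = s ^ (N - m) * t := (hst'.pow_right _).eq
      rw [mul_assoc t, ← mul_assoc (φ y), h2, map_mul, show N + 1 - (m + 1) = N - m by omega,
        pow_succ' t m]
      rw [← mul_assoc t, ← mul_assoc t, ← mul_assoc t, h4]
      simp only [mul_assoc]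
    rw [Finset.sum_congr rfl h1, Finset.sum_congr rfl h3]
    rw [Finset.sum_range_succ' (fun m => s ^ (N + 1 - m) * t ^ m * φ (wsum x y (N + 1) m)) (N + 1)]
    have h5 : ∀ m ∈ Finset.range (N + 1),
        s ^ (N + 1 - (m + 1)) * t ^ (m + 1) * φ (wsum x y (N + 1) (m + 1)) =
        s ^ (N + 1 - (m + 1)) * t ^ (m + 1) * φ (x * wsum x y N (m + 1)) +
        s ^ (N + 1 - (m + 1)) * t ^ (m + 1) * φ (y * wsum x y N m) := by
      intro m _
      rw [wsum, map_add, mul_add]
    rw [Finset.sum_congr rfl h5, Finset.sum_add_distrib]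
    rw [Finset.sum_range_succ' (fun m => s ^ (N + 1 - m) * t ^ m * φ (x * wsum x y N m)) N]
    rw [Finset.sum_range_succ
      (fun m => s ^ (N + 1 - (m + 1)) * t ^ (m + 1) * φ (x * wsum x y N (m + 1))) N]
    rw [w1_wsum_lt x y N (N + 1) (by omega), wsum]
    simp only [mul_zero, map_zero, add_zero, pow_zero, Nat.sub_zero, mul_one]
    abel

theorem w1_linA_pow {N : ℕ} (b : ℕ) (E : Fin N → A) :
    (linA E ^ b : AR A N) = ∑ l : Fin b → Fin N,
      AddMonoidAlgebra.single (content l) (List.ofFn fun i => E (l i)).prod := by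
  induction b with
  | zero =>
    rw [pow_zero, Fintype.sum_unique]
    simp [content, AddMonoidAlgebra.one_def]
  | succ b ih =>
    rw [pow_succ', ih, linA, Finset.sum_mul_sum]
    rw [← (Fin.consEquiv fun _ : Fin (b + 1) => Fin N).sum_comp, Fintype.sum_prod_type]
    refine Finset.sum_congr rfl fun k _ => Finset.sum_congr rfl fun l _ => ?_
    rw [AddMonoidAlgebra.single_mul_single]
    congr 1
    · simp [content, Fin.sum_univ_succ]
    · simp [List.ofFn_succ]

theorem coeff_linA_pow {N : ℕ} (b : ℕ) (E : Fin N → A) (α : Fin N →₀ ℕ) :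
    (linA E ^ b : AR A N).coeff α = csum b E α := by
  classical
  rw [w1_linA_pow, AddMonoidAlgebra.coeff_sum, Finsupp.finsetSum_apply, csum, Finset.sum_filter]
  refine Finset.sum_congr rfl fun l _ => ?_
  rw [AddMonoidAlgebra.coeff_single, Finsupp.single_apply]

/-- the total relation from the relations of the blocks -/
theorem csum_of_blocks {ζ : K} {b R : ℕ} (hb : 1 ≤ b) (hζ : IsPrimitiveRoot ζ b)
    (w : Fin (R * 2) → Fin R → ℕ → K) (E : Fin R → Fin 2 → A) (y : Fin (R * 2) → A)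
    (hcomm : ∀ j j', j < j' → ∀ ε δ, E j ε * E j' δ = ζ • (E j' δ * E j ε))
    (hw : ∀ j, ∀ m ≤ b, wsum (E j 0) (E j 1) b m = ∑ k, w k j m • y k) (α : Fin (R * 2) →₀ ℕ) :
    csum b (fun p : Fin (R * 2) => E (Q.bl.symm p).1 (Q.bl.symm p).2) α =
      ∑ k, coeff α (psi b R w k) • y k := by
  classical
  rw [← coeff_linA_pow]
  let φ : A →+* AR A (R * 2) := AddMonoidAlgebra.singleZeroRingHom
  let z : Fin (R * 2) → AR A (R * 2) := zA A (R * 2)
  have hz : ∀ p a, z p * φ a = AddMonoidAlgebra.single (Finsupp.single p 1) a := by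
    intro p a
    change AddMonoidAlgebra.single _ _ * AddMonoidAlgebra.single _ _ = _
    rw [AddMonoidAlgebra.single_mul_single, add_zero, one_mul]
  have hz' : ∀ p a, φ a * z p = AddMonoidAlgebra.single (Finsupp.single p 1) a := by
    intro p a
    change AddMonoidAlgebra.single _ _ * AddMonoidAlgebra.single _ _ = _
    rw [AddMonoidAlgebra.single_mul_single, zero_add, mul_one]
  have hlin : (linA (fun p : Fin (R * 2) => E (Q.bl.symm p).1 (Q.bl.symm p).2) : AR A (R * 2)) =
      ∑ j, (z (Q.bl (j, 0)) * φ (E j 0) + z (Q.bl (j, 1)) * φ (E j 1)) := by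
    rw [linA, Q.sum_bl]
    refine Finset.sum_congr rfl fun j _ => ?_
    rw [Fin.sum_univ_two, Equiv.symm_apply_apply, Equiv.symm_apply_apply, hz, hz]
  rw [hlin, qpow_sum hb hζ]
  · -- coefficients
    have h1 : ∀ j, (z (Q.bl (j, 0)) * φ (E j 0) + z (Q.bl (j, 1)) * φ (E j 1)) ^ b =
        ∑ m ∈ Finset.range (b + 1), ∑ k, w k j m •
          (AddMonoidAlgebra.single (Finsupp.single (Q.bl (j, 0)) (b - m) +
            Finsupp.single (Q.bl (j, 1)) m) (y k) : AR A (R * 2)) := by
      intro j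
      rw [wsum_eval φ _ _ (fun a => by rw [hz, hz']) (fun a => by rw [hz, hz']) ?_]
      · refine Finset.sum_congr rfl fun m hm => ?_
        rw [hw j m (Nat.lt_succ_iff.mp (Finset.mem_range.mp hm))]
        change AddMonoidAlgebra.single _ _ ^ _ * AddMonoidAlgebra.single _ _ ^ _ *
          AddMonoidAlgebra.single _ _ = _
        rw [AddMonoidAlgebra.single_pow, AddMonoidAlgebra.single_pow,
          AddMonoidAlgebra.single_mul_single, AddMonoidAlgebra.single_mul_single]
        simp only [one_pow, one_mul, add_zero, Finsupp.smul_single, smul_eq_mul, mul_one]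
        refine AddMonoidAlgebra.ext ?_
        refine Finsupp.ext fun β => ?_
        rw [AddMonoidAlgebra.coeff_sum, Finsupp.finsetSum_apply, AddMonoidAlgebra.coeff_single,
          Finsupp.single_apply]
        simp only [AddMonoidAlgebra.coeff_smul_apply, AddMonoidAlgebra.coeff_single,
          Finsupp.single_apply]
        split_ifs
        · rfl
        · simp
      · change AddMonoidAlgebra.single _ _ * AddMonoidAlgebra.single _ _ =
          AddMonoidAlgebra.single _ _ * AddMonoidAlgebra.single _ _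
        rw [AddMonoidAlgebra.single_mul_single, AddMonoidAlgebra.single_mul_single, add_comm]
    rw [Finset.sum_congr rfl fun j _ => h1 j]
    simp only [AddMonoidAlgebra.coeff_sum, Finsupp.finsetSum_apply,
      AddMonoidAlgebra.coeff_smul_apply, AddMonoidAlgebra.coeff_single, Finsupp.single_apply]
    have h2 : ∀ k, coeff α (psi b R w k) • y k = ∑ j, ∑ m ∈ Finset.range (b + 1),
        w k j m • (if Finsupp.single (Q.bl (j, (0 : Fin 2))) (b - m) +
            Finsupp.single (Q.bl (j, (1 : Fin 2))) m = α then y k else 0) := by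
      intro k
      rw [psi, coeff_sum, Finset.sum_smul]
      refine Finset.sum_congr rfl fun j _ => ?_
      rw [coeff_sum, Finset.sum_smul]
      refine Finset.sum_congr rfl fun m _ => ?_
      rw [coeff_C_mul, X_pow_eq_monomial, X_pow_eq_monomial, monomial_mul, one_mul,
        coeff_monomial, mul_smul]
      split_ifs
      · rw [one_smul]
      · rw [zero_smul]
    rw [Finset.sum_congr rfl fun k _ => h2 k]
    symm
    rw [Finset.sum_comm]
    exact Finset.sum_congr rfl fun j _ => Finset.sum_comm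
  · intro j j' hjj
    have h3 : ∀ i i' : Fin R, (z (Q.bl (i, 0)) * φ (E i 0) + z (Q.bl (i, 1)) * φ (E i 1)) *
        (z (Q.bl (i', 0)) * φ (E i' 0) + z (Q.bl (i', 1)) * φ (E i' 1)) =
        ∑ ε : Fin 2, ∑ δ : Fin 2, (AddMonoidAlgebra.single
          (Finsupp.single (Q.bl (i, ε)) 1 + Finsupp.single (Q.bl (i', δ)) 1) (E i ε * E i' δ) :
            AR A (R * 2)) := by
      intro i i'
      simp only [Fin.sum_univ_two, hz, add_mul, mul_add, AddMonoidAlgebra.single_mul_single]
      abel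
    rw [h3, h3, Finset.sum_comm, Finset.smul_sum]
    refine Finset.sum_congr rfl fun ε _ => ?_
    rw [Finset.smul_sum]
    refine Finset.sum_congr rfl fun δ _ => ?_
    rw [hcomm j j' hjj, add_comm (Finsupp.single (Q.bl (j, δ)) 1)]
    refine AddMonoidAlgebra.ext ?_
    refine Finsupp.ext fun β => ?_
    rw [AddMonoidAlgebra.coeff_smul_apply, AddMonoidAlgebra.coeff_single,
      AddMonoidAlgebra.coeff_single, Finsupp.single_apply, Finsupp.single_apply]
    split_ifs
    · rfl
    · simp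

end binom

end Vale.Agent.P200.W
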