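import Vale.Agent.P200.V.Reg
import Vale.Agent.P200.M.Trans
import Vale.Agent.P200.Q.Blocks
import Vale.Agent.P200.Q.Dom3

/-!
Eisenbud-Green-Harris for regular sequences of forms of the same prime degree `b`: definitions.

* `wsum x y N m` : sum of all words of length `N` with `m` letters `y` and `N - m` letters `x`;
* `csum b E α` : sum of all words of length `b` in the `E i` with content `α`;
* `psi b R w k` : the forms `ψ_k = ∑_j ∑_m w k j m X_{j0}^(b-m) X_{j1}^m` in `2 R` variables;
* `FF K N` : the field `K(y_0, ..., y_(N-1))`, `yv k = y_k`;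
* `cc w j m = ∑_k w k j m y_k` : the coefficients of the binary forms `F_j = ∑_k y_k ψ_k^(j)`.
-/

namespace Vale.Agent.P200.W

open MvPolynomial Module
open Vale.Agent.P200.B Vale.Agent.P200.G Vale.Agent.P200.L Vale.Agent.P200.M Vale.Agent.P200.V

/-- sum of all words of length `N` with `m` letters `y` and `N - m` letters `x` -/
def wsum {A : Type*} [Semiring A] (x y : A) : ℕ → ℕ → A
  | 0, 0 => 1
  | 0, _ + 1 => 0
  | N + 1, 0 => x * wsum x y N 0
  | N + 1, m + 1 => x * wsum x y N (m + 1) + y * wsum x y N m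

theorem wsum_zero_zero' {A : Type*} [Semiring A] (x y : A) : wsum x y 0 0 = 1 := by
  rw [wsum]

theorem wsum_zero_succ' {A : Type*} [Semiring A] (x y : A) (m : ℕ) : wsum x y 0 (m + 1) = 0 := by
  rw [wsum]

theorem wsum_succ_zero' {A : Type*} [Semiring A] (x y : A) (N : ℕ) :
    wsum x y (N + 1) 0 = x * wsum x y N 0 := by
  rw [wsum]

theorem wsum_succ_succ' {A : Type*} [Semiring A] (x y : A) (N m : ℕ) :
    wsum x y (N + 1) (m + 1) = x * wsum x y N (m + 1) + y * wsum x y N m := by
  rw [wsum]

/-- content of a word -/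
noncomputable def content {N b : ℕ} (l : Fin b → Fin N) : Fin N →₀ ℕ :=
  ∑ i, Finsupp.single (l i) 1

open scoped Classical in
/-- sum of all words of length `b` with content `α` -/
noncomputable def csum {A : Type*} [Semiring A] {N : ℕ} (b : ℕ) (E : Fin N → A)
    (α : Fin N →₀ ℕ) : A :=
  ∑ l : Fin b → Fin N with content l = α, (List.ofFn fun i => E (l i)).prod

section forms
variable {K : Type*} [Field K]

/-- the forms in `2 R` variables, the variable `(j, ε)` is `X (bl (j, ε))` -/
noncomputable def psi (b R : ℕ) (w : Fin (R * 2) → Fin R → ℕ → K) (k : Fin (R * 2)) :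
    MvPolynomial (Fin (R * 2)) K :=
  ∑ j : Fin R, ∑ m ∈ Finset.range (b + 1),
    C (w k j m) * (X (Q.bl (j, (0 : Fin 2))) ^ (b - m) * X (Q.bl (j, (1 : Fin 2))) ^ m)

/-- the rational functions in `N` variables -/
abbrev FF (K : Type*) [Field K] (N : ℕ) : Type _ := FractionRing (MvPolynomial (Fin N) K)

/-- the variables of `FF K N` -/
noncomputable def yv (K : Type*) [Field K] {N : ℕ} (k : Fin N) : FF K N :=
  algebraMap (MvPolynomial (Fin N) K) (FF K N) (X k)

/-- the coefficients of the generic binary forms -/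
noncomputable def cc {R : ℕ} (w : Fin (R * 2) → Fin R → ℕ → K) (j : Fin R) (m : ℕ) :
    FF K (R * 2) := ∑ k, algebraMap K (FF K (R * 2)) (w k j m) * yv K k

end forms

end Vale.Agent.P200.W
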