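import Vale.Agent.P200.W.Strand

/-!
The Euler characteristic relation for filtered modules.

Proof: apply `strand` to the associated graded module.  One way to get it as an honest `P`-module
(`P = K[y]`): let `V' = ℕ →₀ V` (or `PolynomialModule P V`) with `y_k` acting by
`single t v ↦ single (t + b) (y_k v)`; e.g. `PolynomialModule P V` is a `P[τ]`-module, restrict scalars along the ring map
`P → P[τ]`, `y_k ↦ y_k τ^b`.  Let `Rees = {φ | ∀ t, φ t ∈ M t}` and `W = Rees / τ Rees` where
`τ Rees = {φ | φ 0 = 0, ∀ t, φ (t+1) ∈ M t}`; `gr t` = image of `M t τ^t` (`≅ M t / M (t-1)`, `gr 0 ≅ M 0`), `pr t` induced by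
`φ ↦ single t (φ t)`, `E a` induced by `single t v ↦ single (t+1) (E a v)`.  `W` is generated over `P` by
the images of `M t`, `t < t0 + b` (by `gen` and induction).  `dim gr (t+1) = H (t+1) - H t`.
The relation `rel` holds on `W` because it holds on `V`.
-/

set_option linter.all false


namespace Vale.Agent.P200.W

open MvPolynomial Module
open Vale.Agent.P200.B Vale.Agent.P200.G Vale.Agent.P200.L Vale.Agent.P200.M Vale.Agent.P200.V
/-- the ring map `y_k ↦ y_k τ^b` -/
noncomputable def w9_hom (K : Type*) [Field K] (N b : ℕ) :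
    MvPolynomial (Fin N) K →ₐ[K] Polynomial (MvPolynomial (Fin N) K) :=
  MvPolynomial.aeval (fun k => Polynomial.monomial b (X k))

/-- finitely supported sequences in `V`, where `y_k` acts by `single t v ↦ single (t + b) (y_k v)` -/
def w9_L (K : Type*) [Field K] (N b : ℕ) (V : Type*) [AddCommGroup V]
    [Module (MvPolynomial (Fin N) K) V] : Type _ := PolynomialModule (MvPolynomial (Fin N) K) V

section rees
variable {K : Type*} [Field K] {N b : ℕ} {V : Type*} [AddCommGroup V] [Module K V]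
  [Module (MvPolynomial (Fin N) K) V] [IsScalarTower K (MvPolynomial (Fin N) K) V]

noncomputable instance w9_acg : AddCommGroup (w9_L K N b V) :=
  inferInstanceAs (AddCommGroup (PolynomialModule (MvPolynomial (Fin N) K) V))

noncomputable instance w9_modK : Module K (w9_L K N b V) :=
  inferInstanceAs (Module K (PolynomialModule (MvPolynomial (Fin N) K) V))

noncomputable instance w9_modP : Module (MvPolynomial (Fin N) K) (w9_L K N b V) :=
  Module.compHom (PolynomialModule (MvPolynomial (Fin N) K) V) (w9_hom K N b).toRingHom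

/-- the underlying element -/
def w9_pm (φ : w9_L K N b V) : PolynomialModule (MvPolynomial (Fin N) K) V := φ

/-- coefficients -/
noncomputable def w9_co (φ : w9_L K N b V) (n : ℕ) : V :=
  PolynomialModule.coeff (R := MvPolynomial (Fin N) K) φ n

/-- sequence with one entry -/
noncomputable def w9_sg (n : ℕ) (v : V) : w9_L K N b V :=
  PolynomialModule.single (MvPolynomial (Fin N) K) n v

theorem w9_ext {φ ψ : w9_L K N b V} (h : ∀ n, w9_co φ n = w9_co ψ n) : φ = ψ :=
  PolynomialModule.ext (R := MvPolynomial (Fin N) K) (Finsupp.ext h)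

theorem w9_co_add (φ ψ : w9_L K N b V) (n : ℕ) : w9_co (φ + ψ) n = w9_co φ n + w9_co ψ n := rfl

theorem w9_co_zero (n : ℕ) : w9_co (0 : w9_L K N b V) n = 0 := rfl

theorem w9_co_smul (c : K) (φ : w9_L K N b V) (n : ℕ) : w9_co (c • φ) n = c • w9_co φ n := rfl

theorem w9_co_sg (m n : ℕ) (v : V) :
    w9_co (w9_sg m v : w9_L K N b V) n = if m = n then v else 0 := Finsupp.single_apply

theorem w9_co_C (c : K) (φ : w9_L K N b V) (n : ℕ) :
    w9_co ((C c : MvPolynomial (Fin N) K) • φ) n = c • w9_co φ n := by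
  have h1 : w9_co ((C c : MvPolynomial (Fin N) K) • φ) n =
      PolynomialModule.coeff ((w9_hom K N b (C c)) • w9_pm φ) n := rfl
  have h2 : w9_hom K N b (C c) = Polynomial.monomial 0 (C c) := by
    rw [w9_hom, MvPolynomial.aeval_C, Polynomial.monomial_zero_left]
    rfl
  rw [h1, h2, PolynomialModule.monomial_smul_apply, if_pos (Nat.zero_le _), Nat.sub_zero,
    ← MvPolynomial.algebraMap_eq, algebraMap_smul]
  rfl

theorem w9_co_X (k : Fin N) (φ : w9_L K N b V) (n : ℕ) :
    w9_co ((X k : MvPolynomial (Fin N) K) • φ) n =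
      if b ≤ n then (X k : MvPolynomial (Fin N) K) • w9_co φ (n - b) else 0 := by
  have h1 : w9_co ((X k : MvPolynomial (Fin N) K) • φ) n =
      PolynomialModule.coeff ((w9_hom K N b (X k)) • w9_pm φ) n := rfl
  have h2 : w9_hom K N b (X k) = Polynomial.monomial b (X k) := by
    rw [w9_hom, MvPolynomial.aeval_X]
  rw [h1, h2, PolynomialModule.monomial_smul_apply]
  rfl

theorem w9_C_smul (c : K) (φ : w9_L K N b V) : (C c : MvPolynomial (Fin N) K) • φ = c • φ :=
  w9_ext fun n => by rw [w9_co_C, w9_co_smul]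

instance w9_tower : IsScalarTower K (MvPolynomial (Fin N) K) (w9_L K N b V) where
  smul_assoc c p φ := by
    rw [MvPolynomial.smul_eq_C_mul, mul_smul, w9_C_smul]

theorem w9_sg_add (n : ℕ) (v w : V) :
    (w9_sg n (v + w) : w9_L K N b V) = w9_sg n v + w9_sg n w :=
  w9_ext fun m => by rw [w9_co_add, w9_co_sg, w9_co_sg, w9_co_sg]; split_ifs <;> simp

theorem w9_sg_smul (n : ℕ) (c : K) (v : V) :
    (w9_sg n (c • v) : w9_L K N b V) = c • w9_sg n v :=
  w9_ext fun m => by rw [w9_co_smul, w9_co_sg, w9_co_sg]; split_ifs <;> simp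

theorem w9_X_sg (k : Fin N) (n : ℕ) (v : V) :
    (X k : MvPolynomial (Fin N) K) • (w9_sg n v : w9_L K N b V) =
      w9_sg (n + b) ((X k : MvPolynomial (Fin N) K) • v) :=
  w9_ext fun m => by
    rw [w9_co_X, w9_co_sg, w9_co_sg]
    by_cases h : n + b = m
    · rw [if_pos h, if_pos (by omega), if_pos (by omega)]
    · rw [if_neg h]
      by_cases h' : b ≤ m
      · rw [if_pos h', if_neg (by omega), smul_zero]
      · rw [if_neg h']

/-- the sum of the parts -/
theorem w9_decomp (φ : w9_L K N b V) : ∃ s : Finset ℕ, φ = ∑ t ∈ s, w9_sg t (w9_co φ t) := by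
  classical
  refine ⟨(PolynomialModule.coeff (R := MvPolynomial (Fin N) K) φ).support, ?_⟩
  refine w9_ext fun n => ?_
  have h : ∀ (s : Finset ℕ) (f : ℕ → w9_L K N b V), w9_co (∑ t ∈ s, f t) n =
      ∑ t ∈ s, w9_co (f t) n := by
    intro s f
    induction s using Finset.induction_on with
    | empty => rfl
    | insert a s ha ih => rw [Finset.sum_insert ha, Finset.sum_insert ha, w9_co_add, ih]
  rw [h]
  simp only [w9_co_sg]
  rw [Finset.sum_ite_eq']
  split_ifs with h'
  · rfl
  · exact Finsupp.notMem_support_iff.1 h'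

/-- sequences with `n`-th entry in `F n` -/
def w9_Sub (F : ℕ → Submodule K V)
    (hF : ∀ (k : Fin N) t u, u ∈ F t → (X k : MvPolynomial (Fin N) K) • u ∈ F (t + b)) :
    Submodule (MvPolynomial (Fin N) K) (w9_L K N b V) where
  carrier := {φ | ∀ t, w9_co φ t ∈ F t}
  add_mem' := fun {φ ψ} hφ hψ t => (F t).add_mem (hφ t) (hψ t)
  zero_mem' := fun t => (F t).zero_mem
  smul_mem' := by
    intro p
    induction p using MvPolynomial.induction_on with
    | C c =>
      intro φ hφ t
      rw [w9_co_C]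
      exact (F t).smul_mem _ (hφ t)
    | add p q hp hq =>
      intro φ hφ t
      rw [add_smul, w9_co_add]
      exact (F t).add_mem (hp hφ t) (hq hφ t)
    | mul_X p k hp =>
      intro φ hφ
      rw [mul_smul]
      apply hp
      intro t
      rw [w9_co_X]
      split_ifs with h
      · have := hF k (t - b) _ (hφ (t - b))
        rwa [Nat.sub_add_cancel h] at this
      · exact (F t).zero_mem

theorem w9_mem_Sub {F : ℕ → Submodule K V}
    {hF : ∀ (k : Fin N) t u, u ∈ F t → (X k : MvPolynomial (Fin N) K) • u ∈ F (t + b)}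
    {φ : w9_L K N b V} : φ ∈ w9_Sub F hF ↔ ∀ t, w9_co φ t ∈ F t := Iff.rfl

/-- the shifted operator -/
noncomputable def w9_op (E : Module.End (MvPolynomial (Fin N) K) V) :
    Module.End (MvPolynomial (Fin N) K) (w9_L K N b V) where
  toFun φ := (Polynomial.X : Polynomial (MvPolynomial (Fin N) K)) •
    (PolynomialModule.map (MvPolynomial (Fin N) K) E φ :
      PolynomialModule (MvPolynomial (Fin N) K) V)
  map_add' φ ψ := by
    have h := LinearMap.map_add (PolynomialModule.map (MvPolynomial (Fin N) K) E) (w9_pm φ)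
      (w9_pm ψ)
    have h1 : (Polynomial.X : Polynomial (MvPolynomial (Fin N) K)) •
      (PolynomialModule.map (MvPolynomial (Fin N) K) E (w9_pm φ + w9_pm ψ)) =
      (Polynomial.X : Polynomial (MvPolynomial (Fin N) K)) •
      (PolynomialModule.map (MvPolynomial (Fin N) K) E (w9_pm φ)) +
      (Polynomial.X : Polynomial (MvPolynomial (Fin N) K)) •
      (PolynomialModule.map (MvPolynomial (Fin N) K) E (w9_pm ψ)) := by
      rw [h, smul_add]
    exact h1
  map_smul' p φ := by
    have h := PolynomialModule.map_smul (MvPolynomial (Fin N) K) E (w9_hom K N b p) (w9_pm φ)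
    have h1 : Polynomial.map (algebraMap (MvPolynomial (Fin N) K) (MvPolynomial (Fin N) K))
      (w9_hom K N b p) = w9_hom K N b p := Polynomial.map_id
    rw [h1] at h
    have h2 : (Polynomial.X : Polynomial (MvPolynomial (Fin N) K)) •
      (PolynomialModule.map (MvPolynomial (Fin N) K) E (w9_hom K N b p • w9_pm φ)) =
      w9_hom K N b p • ((Polynomial.X : Polynomial (MvPolynomial (Fin N) K)) •
      (PolynomialModule.map (MvPolynomial (Fin N) K) E (w9_pm φ))) := by
      rw [h, smul_smul, smul_smul, mul_comm]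
    exact h2

theorem w9_co_op (E : Module.End (MvPolynomial (Fin N) K) V) (φ : w9_L K N b V) (n : ℕ) :
    w9_co (w9_op E φ) n = if 1 ≤ n then E (w9_co φ (n - 1)) else 0 := by
  have h1 : w9_co (w9_op E φ) n = PolynomialModule.coeff (R := MvPolynomial (Fin N) K)
    ((Polynomial.monomial 1 (1 : MvPolynomial (Fin N) K)) •
    (PolynomialModule.map (MvPolynomial (Fin N) K) E (w9_pm φ))) n := rfl
  rw [h1, PolynomialModule.monomial_smul_apply]
  split_ifs
  · rw [one_smul]; rfl
  · rfl

theorem w9_co_sum {ι : Type*} (s : Finset ι) (f : ι → w9_L K N b V) (n : ℕ) :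
    w9_co (∑ i ∈ s, f i) n = ∑ i ∈ s, w9_co (f i) n := by
  classical
  induction s using Finset.induction_on with
  | empty => rfl
  | insert a s ha ih => rw [Finset.sum_insert ha, Finset.sum_insert ha, w9_co_add, ih]

theorem w9_co_word (E : Fin N → Module.End (MvPolynomial (Fin N) K) V) (l : List (Fin N))
    (φ : w9_L K N b V) (n : ℕ) :
    w9_co ((l.map fun a => w9_op (E a)).prod φ) n =
      if l.length ≤ n then (l.map E).prod (w9_co φ (n - l.length)) else 0 := by
  induction l generalizing n with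
  | nil => simp
  | cons a l ih =>
    rw [List.map_cons, List.prod_cons, Module.End.mul_apply, w9_co_op, ih, List.length_cons]
    by_cases h : 1 ≤ n
    · rw [if_pos h]
      by_cases h' : l.length ≤ n - 1
      · rw [if_pos h', if_pos (by omega), List.map_cons, List.prod_cons, Module.End.mul_apply,
          show n - 1 - l.length = n - (l.length + 1) by omega]
      · rw [if_neg h', if_neg (by omega), map_zero]
    · rw [if_neg h, if_neg (by omega)]

theorem w9_co_csum (E : Fin N → Module.End (MvPolynomial (Fin N) K) V) (α : Fin N →₀ ℕ)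
    (φ : w9_L K N b V) (n : ℕ) :
    w9_co (csum b (fun a => w9_op (E a)) α φ) n =
      if b ≤ n then csum b E α (w9_co φ (n - b)) else 0 := by
  have h : ∀ l : Fin b → Fin N, w9_co ((List.ofFn fun i =>
      (w9_op (E (l i)) : Module.End (MvPolynomial (Fin N) K) (w9_L K N b V))).prod φ) n =
      if b ≤ n then (List.ofFn fun i => E (l i)).prod (w9_co φ (n - b)) else 0 := by
    intro l
    have := w9_co_word E (List.ofFn l) φ n
    rw [List.map_ofFn, List.map_ofFn, List.length_ofFn] at this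
    exact this
  unfold csum
  rw [LinearMap.sum_apply, w9_co_sum]
  simp only [h]
  split_ifs
  · rw [LinearMap.sum_apply]
  · exact Finset.sum_const_zero

theorem w9_word_comm {P A B : Type*} [CommRing P] [AddCommGroup A] [AddCommGroup B] [Module P A]
    [Module P B] (f : A → B) (EA : Fin N → Module.End P A) (EB : Fin N → Module.End P B)
    (h : ∀ a x, f (EA a x) = EB a (f x)) (l : List (Fin N)) (x : A) :
    f ((l.map EA).prod x) = (l.map EB).prod (f x) := by
  induction l with
  | nil => rfl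
  | cons a l ih =>
    rw [List.map_cons, List.prod_cons, Module.End.mul_apply, h, ih, List.map_cons, List.prod_cons,
      Module.End.mul_apply]

theorem w9_csum_comm {P A B : Type*} [CommRing P] [AddCommGroup A] [AddCommGroup B] [Module P A]
    [Module P B] (f : A →+ B) (EA : Fin N → Module.End P A) (EB : Fin N → Module.End P B)
    (h : ∀ a x, f (EA a x) = EB a (f x)) (b : ℕ) (α : Fin N →₀ ℕ) (x : A) :
    f (csum b EA α x) = csum b EB α (f x) := by
  have h1 : ∀ l : Fin b → Fin N, f ((List.ofFn fun i => EA (l i)).prod x) =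
      (List.ofFn fun i => EB (l i)).prod (f x) := by
    intro l
    have := w9_word_comm f EA EB h (List.ofFn l) x
    rw [List.map_ofFn, List.map_ofFn] at this
    exact this
  unfold csum
  rw [LinearMap.sum_apply, LinearMap.sum_apply, map_sum]
  simp only [h1]

theorem w9_rel (E : Fin N → Module.End (MvPolynomial (Fin N) K) V) (α : Fin N →₀ ℕ)
    (c : Fin N → K)
    (rel : csum b E α = algebraMap (MvPolynomial (Fin N) K)
      (Module.End (MvPolynomial (Fin N) K) V) (∑ k, C (c k) * X k)) (φ : w9_L K N b V) :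
    csum b (fun a => w9_op (E a)) α φ =
      (∑ k, C (c k) * X k : MvPolynomial (Fin N) K) • φ := by
  refine w9_ext fun n => ?_
  rw [w9_co_csum, rel, Finset.sum_smul, w9_co_sum]
  simp only [mul_smul, w9_co_C, w9_co_X, Module.algebraMap_end_apply, Finset.sum_smul]
  split_ifs
  · refine Finset.sum_congr rfl fun k _ => ?_
    rw [← MvPolynomial.algebraMap_eq, algebraMap_smul]
  · simp

/-- previous step of the filtration -/
def w9_prev (M : ℕ → Submodule K V) : ℕ → Submodule K V
  | 0 => ⊥
  | t + 1 => M t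

theorem w9_prev_le {M : ℕ → Submodule K V} (hmono : Monotone M) (t : ℕ) : w9_prev M t ≤ M t := by
  cases t with
  | zero => exact bot_le
  | succ t => exact hmono (Nat.le_succ t)

theorem w9_prev_y {M : ℕ → Submodule K V}
    (hy : ∀ (k : Fin N) t u, u ∈ M t → (X k : MvPolynomial (Fin N) K) • u ∈ M (t + b)) :
    ∀ (k : Fin N) t u, u ∈ w9_prev M t →
      (X k : MvPolynomial (Fin N) K) • u ∈ w9_prev M (t + b) := by
  intro k t u hu
  cases t with
  | zero =>
    have : u = 0 := hu
    rw [this, smul_zero]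
    exact Submodule.zero_mem _
  | succ t =>
    rw [show t + 1 + b = (t + b) + 1 by omega]
    exact hy k t u hu

theorem w9_prev_E {M : ℕ → Submodule K V} {E : Module.End (MvPolynomial (Fin N) K) V}
    (hE : ∀ t u, u ∈ M t → E u ∈ M (t + 1)) :
    ∀ t u, u ∈ w9_prev M t → E u ∈ w9_prev M (t + 1) := by
  intro t u hu
  cases t with
  | zero =>
    have : u = 0 := hu
    rw [this, map_zero]
    exact Submodule.zero_mem _
  | succ t => exact hE t u hu

theorem w9_op_mem {F : ℕ → Submodule K V}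
    {hF : ∀ (k : Fin N) t u, u ∈ F t → (X k : MvPolynomial (Fin N) K) • u ∈ F (t + b)}
    {E : Module.End (MvPolynomial (Fin N) K) V} (hE : ∀ t u, u ∈ F t → E u ∈ F (t + 1))
    {φ : w9_L K N b V} (hφ : φ ∈ w9_Sub F hF) : w9_op E φ ∈ w9_Sub F hF := by
  intro t
  rw [w9_co_op]
  split_ifs with h
  · have := hE (t - 1) _ (hφ (t - 1))
    rwa [Nat.sub_add_cancel h] at this
  · exact (F t).zero_mem

section quot
variable (M : ℕ → Submodule K V)
    (hy : ∀ (k : Fin N) t u, u ∈ M t → (X k : MvPolynomial (Fin N) K) • u ∈ M (t + b))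

/-- the submodule to be divided out -/
noncomputable def w9_Q : Submodule (MvPolynomial (Fin N) K) (w9_Sub (b := b) M hy) :=
  (w9_Sub (w9_prev M) (w9_prev_y hy)).comap (w9_Sub M hy).subtype

/-- the associated graded module -/
abbrev w9_W : Type _ := (w9_Sub (b := b) M hy) ⧸ (w9_Q M hy)

/-- inclusion of a piece -/
noncomputable def w9_inc (t : ℕ) : M t →ₗ[K] w9_Sub (b := b) M hy where
  toFun v := ⟨w9_sg t v, fun s => by
    rw [w9_co_sg]
    split_ifs with h
    · rw [← h]; exact v.2
    · exact (M s).zero_mem⟩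
  map_add' v w := Subtype.ext (w9_sg_add _ _ _)
  map_smul' c v := Subtype.ext (w9_sg_smul _ _ _)

/-- class of a homogeneous element -/
noncomputable def w9_ka (t : ℕ) : M t →ₗ[K] w9_W (b := b) M hy :=
  ((w9_Q M hy).mkQ.restrictScalars K) ∘ₗ (w9_inc M hy t)

/-- projection to a piece, before the quotient -/
noncomputable def w9_prS (c : ℕ) : w9_Sub (b := b) M hy →ₗ[K] w9_Sub (b := b) M hy where
  toFun φ := w9_inc M hy c ⟨w9_co φ.1 c, φ.2 c⟩
  map_add' φ ψ := by
    rw [← map_add]; rfl
  map_smul' a φ := by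
    rw [RingHom.id_apply, ← map_smul]; rfl

theorem w9_prS_mem (c : ℕ) : (w9_Q (b := b) M hy).restrictScalars K ≤
    ((w9_Q (b := b) M hy).restrictScalars K).comap (w9_prS M hy c) := by
  intro φ hφ t
  show w9_co (w9_sg c (w9_co φ.1 c)) t ∈ w9_prev M t
  rw [w9_co_sg]
  split_ifs with h
  · rw [← h]; exact hφ c
  · exact Submodule.zero_mem _

/-- projection to a piece -/
noncomputable def w9_pr (c : ℕ) : w9_W (b := b) M hy →ₗ[K] w9_W (b := b) M hy :=
  (Submodule.Quotient.restrictScalarsEquiv K (w9_Q M hy)).toLinearMap ∘ₗ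
    Submodule.mapQ _ _ (w9_prS M hy c) (w9_prS_mem M hy c) ∘ₗ
      (Submodule.Quotient.restrictScalarsEquiv K (w9_Q M hy)).symm.toLinearMap

theorem w9_pr_mk (c : ℕ) (φ : w9_Sub (b := b) M hy) :
    w9_pr M hy c (Submodule.Quotient.mk φ) = w9_ka M hy c ⟨w9_co φ.1 c, φ.2 c⟩ := rfl

theorem w9_ka_apply (t : ℕ) (v : M t) :
    w9_ka (b := b) M hy t v = Submodule.Quotient.mk (w9_inc M hy t v) := rfl

theorem w9_pr_ka (c : ℕ) (v : M c) : w9_pr (b := b) M hy c (w9_ka M hy c v) = w9_ka M hy c v := by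
  rw [w9_ka_apply, w9_pr_mk]
  have h : (⟨w9_co (w9_inc (b := b) M hy c v).1 c, (w9_inc (b := b) M hy c v).2 c⟩ : M c) = v := by
    apply Subtype.ext
    show w9_co (w9_sg c (v : V) : w9_L K N b V) c = v
    rw [w9_co_sg, if_pos rfl]
  rw [h, w9_ka_apply]

theorem w9_pr_ka_ne {c c' : ℕ} (h : c' ≠ c) (v : M c') :
    w9_pr (b := b) M hy c (w9_ka M hy c' v) = 0 := by
  rw [w9_ka_apply, w9_pr_mk]
  have h : (⟨w9_co (w9_inc (b := b) M hy c' v).1 c, (w9_inc (b := b) M hy c' v).2 c⟩ : M c)
      = 0 := by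
    apply Subtype.ext
    show w9_co (w9_sg c' (v : V) : w9_L K N b V) c = 0
    rw [w9_co_sg, if_neg h]
  rw [h, map_zero]

theorem w9_X_ka (k : Fin N) (t : ℕ) (v : M t) :
    (X k : MvPolynomial (Fin N) K) • w9_ka (b := b) M hy t v =
      w9_ka M hy (t + b) ⟨_, hy k t v.1 v.2⟩ := by
  rw [w9_ka_apply, w9_ka_apply, ← Submodule.Quotient.mk_smul]
  congr 1
  exact Subtype.ext (w9_X_sg k t v.1)

theorem w9_pr_X (c : ℕ) (k : Fin N) (u : w9_W (b := b) M hy) :
    w9_pr M hy (c + b) ((X k : MvPolynomial (Fin N) K) • u) =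
      (X k : MvPolynomial (Fin N) K) • w9_pr M hy c u := by
  obtain ⟨φ, rfl⟩ := Submodule.Quotient.mk_surjective _ u
  rw [← Submodule.Quotient.mk_smul, w9_pr_mk, w9_pr_mk, w9_X_ka]
  congr 1
  apply Subtype.ext
  show w9_co ((X k : MvPolynomial (Fin N) K) • φ.1) (c + b) = _
  rw [w9_co_X, if_pos (Nat.le_add_left _ _), Nat.add_sub_cancel]

theorem w9_pr_X0 (c : ℕ) (k : Fin N) (u : w9_W (b := b) M hy) (hc : c < b) :
    w9_pr M hy c ((X k : MvPolynomial (Fin N) K) • u) = 0 := by
  obtain ⟨φ, rfl⟩ := Submodule.Quotient.mk_surjective _ u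
  rw [← Submodule.Quotient.mk_smul, w9_pr_mk]
  have h : (⟨w9_co ((X k : MvPolynomial (Fin N) K) • φ).1 c,
      ((X k : MvPolynomial (Fin N) K) • φ).2 c⟩ : M c) = 0 := by
    apply Subtype.ext
    show w9_co ((X k : MvPolynomial (Fin N) K) • φ.1) c = 0
    rw [w9_co_X, if_neg (by omega)]
  rw [h, map_zero]

/-- the graded operator -/
noncomputable def w9_opW {E : Module.End (MvPolynomial (Fin N) K) V}
    (hE : ∀ t u, u ∈ M t → E u ∈ M (t + 1)) :
    Module.End (MvPolynomial (Fin N) K) (w9_W (b := b) M hy) :=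
  Submodule.mapQ _ _ ((w9_op E).restrict fun φ hφ => w9_op_mem hE hφ)
    (fun φ hφ => w9_op_mem (hF := w9_prev_y hy) (w9_prev_E hE) hφ)

theorem w9_opW_mk {E : Module.End (MvPolynomial (Fin N) K) V}
    (hE : ∀ t u, u ∈ M t → E u ∈ M (t + 1)) (φ : w9_Sub (b := b) M hy) :
    w9_opW M hy hE (Submodule.Quotient.mk φ) =
      Submodule.Quotient.mk ((w9_op E).restrict (fun φ hφ => w9_op_mem (hF := hy) hE hφ) φ) := rfl

theorem w9_op_sg (E : Module.End (MvPolynomial (Fin N) K) V) (t : ℕ) (v : V) :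
    w9_op E (w9_sg t v : w9_L K N b V) = w9_sg (t + 1) (E v) := by
  refine w9_ext fun m => ?_
  rw [w9_co_op, w9_co_sg, w9_co_sg]
  by_cases h : t + 1 = m
  · rw [if_pos h, if_pos (by omega), if_pos (by omega)]
  · rw [if_neg h]
    by_cases h' : 1 ≤ m
    · rw [if_pos h', if_neg (by omega), map_zero]
    · rw [if_neg h']

theorem w9_opW_ka {E : Module.End (MvPolynomial (Fin N) K) V}
    (hE : ∀ t u, u ∈ M t → E u ∈ M (t + 1)) (t : ℕ) (v : M t) :
    w9_opW (b := b) M hy hE (w9_ka M hy t v) = w9_ka M hy (t + 1) ⟨_, hE t v.1 v.2⟩ := by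
  rw [w9_ka_apply, w9_opW_mk, w9_ka_apply]
  congr 1
  exact Subtype.ext (w9_op_sg E t v.1)

theorem w9_rel_W (E : Fin N → Module.End (MvPolynomial (Fin N) K) V)
    (hE : ∀ a t u, u ∈ M t → E a u ∈ M (t + 1)) (α : Fin N →₀ ℕ) (c : Fin N → K)
    (rel : csum b E α = algebraMap (MvPolynomial (Fin N) K)
      (Module.End (MvPolynomial (Fin N) K) V) (∑ k, C (c k) * X k)) :
    csum b (fun a => w9_opW (b := b) M hy (hE a)) α = algebraMap (MvPolynomial (Fin N) K)
      (Module.End (MvPolynomial (Fin N) K) (w9_W (b := b) M hy)) (∑ k, C (c k) * X k) := by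
  refine LinearMap.ext fun u => ?_
  obtain ⟨φ, rfl⟩ := Submodule.Quotient.mk_surjective _ u
  rw [Module.algebraMap_end_apply, ← Submodule.Quotient.mk_smul]
  have h1 := w9_csum_comm ((w9_Q (b := b) M hy).mkQ.toAddMonoidHom)
    (fun a => (w9_op (E a)).restrict (fun φ hφ => w9_op_mem (hF := hy) (hE a) hφ))
    (fun a => w9_opW (b := b) M hy (hE a)) (fun a x => rfl) b α φ
  have h2 := w9_csum_comm ((w9_Sub (b := b) M hy).subtype.toAddMonoidHom)
    (fun a => (w9_op (E a)).restrict (fun φ hφ => w9_op_mem (hF := hy) (hE a) hφ))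
    (fun a => w9_op (E a)) (fun a x => rfl) b α φ
  refine h1.symm.trans ?_
  show Submodule.Quotient.mk _ = _
  congr 1
  apply Subtype.ext
  refine h2.trans ?_
  exact w9_rel E α c rel φ.1

theorem w9_ka_zero {t : ℕ} (v : M t) : w9_ka (b := b) M hy t v = 0 ↔ (v : V) ∈ w9_prev M t := by
  rw [w9_ka_apply, Submodule.Quotient.mk_eq_zero]
  constructor
  · intro h
    have := h t
    rw [show w9_co (((w9_Sub (b := b) M hy).subtype) (w9_inc M hy t v)) t =
      w9_co (w9_sg t (v : V) : w9_L K N b V) t from rfl, w9_co_sg, if_pos rfl] at this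
    exact this
  · intro h s
    rw [show w9_co (((w9_Sub (b := b) M hy).subtype) (w9_inc M hy t v)) s =
      w9_co (w9_sg t (v : V) : w9_L K N b V) s from rfl, w9_co_sg]
    split_ifs with hs
    · rw [← hs]; exact h
    · exact Submodule.zero_mem _

theorem w9_finrank (hmono : Monotone M) (hfin : ∀ t, FiniteDimensional K (M t)) (t : ℕ) :
    (finrank K (LinearMap.range (w9_ka (b := b) M hy (t + 1))) : ℤ) =
      (finrank K (M (t + 1)) : ℤ) - finrank K (M t) := by
  haveI := hfin (t + 1)
  have h1 := LinearMap.finrank_range_add_finrank_ker (w9_ka (b := b) M hy (t + 1))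
  have h2 : LinearMap.ker (w9_ka (b := b) M hy (t + 1)) =
      (M t).comap (M (t + 1)).subtype := by
    ext v
    rw [LinearMap.mem_ker, w9_ka_zero]
    rfl
  have h3 : finrank K ((M t).comap (M (t + 1)).subtype) = finrank K (M t) :=
    (Submodule.comapSubtypeEquivOfLe (hmono (Nat.le_succ t))).finrank_eq
  rw [h2, h3] at h1
  omega

theorem w9_sum_parts (u : w9_W (b := b) M hy) : ∃ (s : Finset ℕ) (v : ∀ t, M t),
    u = ∑ t ∈ s, w9_ka M hy t (v t) := by
  obtain ⟨φ, rfl⟩ := Submodule.Quotient.mk_surjective _ u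
  obtain ⟨s, hs⟩ := w9_decomp φ.1
  refine ⟨s, fun t => ⟨w9_co φ.1 t, φ.2 t⟩, ?_⟩
  have h : φ = ∑ t ∈ s, w9_inc M hy t ⟨w9_co φ.1 t, φ.2 t⟩ := by
    apply Subtype.ext
    rw [AddSubmonoidClass.coe_finset_sum]
    exact hs
  conv_lhs => rw [h]
  exact map_sum (w9_Q M hy).mkQ _ _

theorem w9_finite (hb : 2 ≤ b) (hfin : ∀ t, FiniteDimensional K (M t)) (t0 : ℕ)
    (gen : ∀ t, t0 ≤ t → ∀ u ∈ M (t + b), ∃ v ∈ M (t + b - 1), ∃ w : Fin N → V,
      (∀ k, w k ∈ M t) ∧ u = v + ∑ k, (X k : MvPolynomial (Fin N) K) • w k) :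
    Module.Finite (MvPolynomial (Fin N) K) (w9_W (b := b) M hy) := by
  classical
  have h0 : ∀ t, ∃ s : Finset (w9_W (b := b) M hy), Submodule.span K (s : Set _) =
      LinearMap.range (w9_ka (b := b) M hy t) := by
    intro t
    haveI := hfin t
    obtain ⟨s, hs⟩ := Module.Finite.iff_fg.1
      (inferInstance : Module.Finite K (LinearMap.range (w9_ka (b := b) M hy t)))
    exact ⟨s, hs⟩
  choose s hs using h0
  refine ⟨⟨(Finset.range (t0 + b)).biUnion s, ?_⟩⟩
  rw [eq_top_iff]
  have key : ∀ t, ∀ v : M t, w9_ka (b := b) M hy t v ∈ Submodule.span (MvPolynomial (Fin N) K)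
      (((Finset.range (t0 + b)).biUnion s : Finset _) : Set (w9_W (b := b) M hy)) := by
    intro t
    induction t using Nat.strong_induction_on with
    | _ t ih =>
      intro v
      by_cases ht : t < t0 + b
      · have h1 : w9_ka (b := b) M hy t v ∈ Submodule.span K (s t : Set (w9_W (b := b) M hy)) := by
          rw [hs t]; exact ⟨v, rfl⟩
        have h2 : Submodule.span K (s t : Set (w9_W (b := b) M hy)) ≤
            (Submodule.span (MvPolynomial (Fin N) K)
              (((Finset.range (t0 + b)).biUnion s : Finset _) : Set (w9_W (b := b) M hy))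
                ).restrictScalars K := by
          rw [Submodule.span_le]
          intro x hx
          apply Submodule.subset_span
          rw [Finset.coe_biUnion]
          exact Set.mem_biUnion (Finset.mem_coe.2 (Finset.mem_range.2 ht)) hx
        exact h2 h1
      · obtain ⟨t', rfl⟩ : ∃ t', t = t' + b := ⟨t - b, by omega⟩
        obtain ⟨v', hv', w, hw, hvw⟩ := gen t' (by omega) v.1 v.2
        have hv1 : v' ∈ w9_prev M (t' + b) := by
          obtain ⟨r, hr⟩ : ∃ r, t' + b = r + 1 := ⟨t' + b - 1, by omega⟩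
          rw [hr]
          rw [hr, Nat.add_sub_cancel] at hv'
          exact hv'
        have hX : ∀ k, (X k : MvPolynomial (Fin N) K) • w k ∈ M (t' + b) :=
          fun k => hy k t' _ (hw k)
        have hv2 : v' ∈ M (t' + b) := by
          have : v' = v.1 - ∑ k, (X k : MvPolynomial (Fin N) K) • w k := by
            rw [hvw, add_sub_cancel_right]
          rw [this]
          exact Submodule.sub_mem _ v.2 (Submodule.sum_mem _ fun k _ => hX k)
        have h3 : v = ⟨v', hv2⟩ + ∑ k, (⟨_, hX k⟩ : M (t' + b)) := by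
          apply Subtype.ext
          rw [Submodule.coe_add, AddSubmonoidClass.coe_finset_sum]
          exact hvw
        rw [h3, map_add, (w9_ka_zero M hy ⟨v', hv2⟩).2 hv1, zero_add, map_sum]
        refine Submodule.sum_mem _ fun k _ => ?_
        have h4 := w9_X_ka M hy k t' ⟨w k, hw k⟩
        rw [show (⟨(X k : MvPolynomial (Fin N) K) • w k, hX k⟩ : M (t' + b)) =
          ⟨_, hy k t' (⟨w k, hw k⟩ : M t').1 (⟨w k, hw k⟩ : M t').2⟩ from rfl, ← h4]
        exact Submodule.smul_mem _ _ (ih t' (by omega) _)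
  intro u _
  obtain ⟨s', v, rfl⟩ := w9_sum_parts M hy u
  exact Submodule.sum_mem _ fun t _ => key t (v t)

end quot

end rees

theorem filt_strand {K : Type*} [Field K] {N b : ℕ} (hb : 2 ≤ b)
    (ψ : Fin N → MvPolynomial (Fin N) K)
    (hψ : ∀ k, (ψ k).IsHomogeneous b) (hm : IsMPrimary (Ideal.span (Set.range ψ)))
    {V : Type*} [AddCommGroup V] [Module K V] [Module (MvPolynomial (Fin N) K) V]
    [IsScalarTower K (MvPolynomial (Fin N) K) V]
    (E : Fin N → Module.End (MvPolynomial (Fin N) K) V)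
    (rel : ∀ α, csum b E α = algebraMap (MvPolynomial (Fin N) K)
      (Module.End (MvPolynomial (Fin N) K) V) (∑ k, C (coeff α (ψ k)) * X k))
    (M : ℕ → Submodule K V) (hmono : Monotone M) (hfin : ∀ t, FiniteDimensional K (M t))
    (hE : ∀ a t u, u ∈ M t → E a u ∈ M (t + 1))
    (hy : ∀ k t u, u ∈ M t → (X k : MvPolynomial (Fin N) K) • u ∈ M (t + b))
    (t0 : ℕ) (gen : ∀ t, t0 ≤ t → ∀ u ∈ M (t + b), ∃ v ∈ M (t + b - 1), ∃ w : Fin N → V,
      (∀ k, w k ∈ M t) ∧ u = v + ∑ k, (X k : MvPolynomial (Fin N) K) • w k) :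
    ∃ t1, ∀ t, t1 ≤ t → ∀ r,
      ∑ i ∈ (Finset.range (N * (b - 1) + 1)).filter (fun i => i % b = r % b),
        (bx N b i : ℤ) * ((finrank K (M (t + i + 1)) : ℤ) - finrank K (M (t + i))) =
      ∑ i ∈ (Finset.range (N * (b - 1) + 1)).filter (fun i => i % b = 0),
        (bx N b i : ℤ) * ((finrank K (M (t + i + 1)) : ℤ) - finrank K (M (t + i))) := by
  haveI := w9_finite (b := b) M hy hb hfin t0 gen
  obtain ⟨t1, ht1⟩ := strand hb ψ hψ hm (W := w9_W (b := b) M hy)
    (fun t => LinearMap.range (w9_ka (b := b) M hy t)) (fun t => w9_pr (b := b) M hy t)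
    (by
      rintro c _ ⟨v, rfl⟩
      exact w9_pr_ka M hy c v)
    (by
      rintro c c' _ ⟨v, rfl⟩ h
      exact w9_pr_ka_ne M hy h v)
    (by
      intro c u
      obtain ⟨φ, rfl⟩ := Submodule.Quotient.mk_surjective _ u
      exact ⟨_, (w9_pr_mk M hy c φ).symm⟩)
    (fun c k u => w9_pr_X M hy c k u)
    (fun c k u hc => w9_pr_X0 M hy c k u hc)
    (fun t => by haveI := hfin t; infer_instance)
    (fun a => w9_opW (b := b) M hy (hE a))
    (by
      rintro a c _ ⟨v, rfl⟩
      exact ⟨_, (w9_opW_ka M hy (hE a) c v).symm⟩)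
    (by
      rintro k c _ ⟨v, rfl⟩
      exact ⟨_, (w9_X_ka M hy k c v).symm⟩)
    (fun α => w9_rel_W M hy E hE α (fun k => coeff α (ψ k)) (rel α))
  refine ⟨t1, fun t ht r => ?_⟩
  have h := ht1 (t + 1) (by omega) r
  have h1 : ∀ i, (finrank K (LinearMap.range (w9_ka (b := b) M hy (t + 1 + i))) : ℤ) =
      (finrank K (M (t + i + 1)) : ℤ) - finrank K (M (t + i)) := by
    intro i
    rw [show t + 1 + i = (t + i) + 1 by omega]
    exact w9_finrank M hy hmono hfin (t + i)
  simp only [h1] at h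
  exact h

end Vale.Agent.P200.W
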