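import Vale.Agent.P200.W.Defs
import Vale.Agent.P200.Q.Dom1

/-!
The complete intersection `A = K[X]/(ψ_0, ..., ψ_(N-1))` of forms of degree `b` in `N` variables,
in coordinates: a homogeneous basis `σ`, matrices `X a` of the multiplications by the variables, and
homotopies `h k a`.

Proof of `exists_homotopy`.  For every `k` let `B_k = K[X]/((ψ_l)_{l ≠ k}, ψ_k^2)`.  Since the `ψ` are a
regular sequence (in every order, `Q.syz_of_isRegSeq`, `G.CAReg`), multiplication by `ψ_k` is an
isomorphism from `A` onto `ψ_k B_k = ker (B_k → A)`; if homogeneous polynomials `e_s` (`s ∈ σ`, degree `deg s`) form a basis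
of `A` then `e_s`, `ψ_k e_s` form a basis of `B_k`.  Write
`X_a e_s = ∑_t (X a t s) e_t + ψ_k ∑_t (h k a t s) e_t` in `B_k` (the first matrix does not depend on
`k`; degrees: `deg t = deg s + 1`, resp. `deg t + b = deg s + 1`).  So `B_k` is the free module with
basis `σ` over the dual numbers `K[ε]`, `ε = ψ_k`, `X_a` acts by the matrix `X a + ε h k a`, and
`ψ_l` acts as `0` for `l ≠ k` and as `ε` for `l = k`.
Now let `W` be a `K`-space with operators `E a`, `y k` such that the `y k` commute with everything and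
`∑_{words of content α} E_word = ∑_k ψ_{k,α} y_k`.  On `B_k ⊗ W` the operator `Z = ∑_a X_a ⊗ E_a`
satisfies `Z^b = ∑_α X^α ⊗ csum_α = ∑_l ψ_l ⊗ y_l = ε y_k` (the `X_a` commute).  As `Z = z + ε h_k` with
`z = opm E X`, `h_k = opm E (h k)`, comparing the coefficients of `1` and `ε` gives `z^b = 0` and
`∑_i z^i h_k z^(b-1-i) = y_k`.
(The case `b = 2` is `Q/Dom1.lean` (construction of the matrices) and the first part of
`Q/Dom2.lean`; `card` is `G.hilb_span_eq_card_boxD`.)
-/

namespace Vale.Agent.P200.W

open MvPolynomial Module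
open Vale.Agent.P200.B Vale.Agent.P200.G Vale.Agent.P200.L Vale.Agent.P200.M Vale.Agent.P200.V

universe u v

variable {K : Type u} [Field K] {N : ℕ}

/-- `∑_a Y_a ⊗ E_a` -/
def opm {W : Type*} [AddCommGroup W] [Module K W] {σ : Type} [Fintype σ]
    (E : Fin N → Module.End K W) (Y : Fin N → Matrix σ σ K) : Module.End K (σ → W) where
  toFun u t := ∑ a, ∑ s, Y a t s • E a (u s)
  map_add' u v := by
    ext t
    simp [smul_add, Finset.sum_add_distrib]
  map_smul' k u := by
    ext t
    simp only [Pi.smul_apply, RingHom.id_apply, Finset.smul_sum, map_smul]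
    refine Finset.sum_congr rfl fun a _ => Finset.sum_congr rfl fun s _ => ?_
    rw [smul_comm]

/-- an operator on every component -/
def opd {W : Type*} [AddCommGroup W] [Module K W] (σ : Type) (y : Module.End K W) :
    Module.End K (σ → W) where
  toFun u t := y (u t)
  map_add' u v := by
    ext t
    simp
  map_smul' k u := by
    ext t
    simp

/-- coordinates of the complete intersection, with homotopies -/
structure HData (b : ℕ) (ψ : Fin N → MvPolynomial (Fin N) K) where
  σ : Type
  fin : Fintype σ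
  dec : DecidableEq σ
  deg : σ → ℕ
  X : Fin N → Matrix σ σ K
  h : Fin N → Fin N → Matrix σ σ K
  X_deg : ∀ a t s, X a t s ≠ 0 → deg t = deg s + 1
  h_deg : ∀ k a t s, h k a t s ≠ 0 → deg t + b = deg s + 1
  card : ∀ j, (Finset.univ.filter fun s => deg s = j).card =
    (boxD (fun _ : Fin N => b) j).card
  pow : ∀ (W : Type v) [AddCommGroup W] [Module K W] (E y : Fin N → Module.End K W),
    (∀ k a, y k * E a = E a * y k) → (∀ k l, y k * y l = y l * y k) →
    (∀ α, csum b E α = ∑ k, coeff α (ψ k) • y k) → opm E X ^ b = 0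
  htpy : ∀ (W : Type v) [AddCommGroup W] [Module K W] (E y : Fin N → Module.End K W),
    (∀ k a, y k * E a = E a * y k) → (∀ k l, y k * y l = y l * y k) →
    (∀ α, csum b E α = ∑ k, coeff α (ψ k) • y k) → ∀ k,
      ∑ i ∈ Finset.range b, opm E X ^ i * opm E (h k) * opm E X ^ (b - 1 - i) = opd σ (y k)

attribute [instance] HData.fin HData.dec

/-! ### Operators -/

section ops

variable {W : Type*} [AddCommGroup W] [Module K W] {σ : Type} [Fintype σ]

/-- `M ⊗ e` -/
def w7_op1 (M : Matrix σ σ K) (e : Module.End K W) : Module.End K (σ → W) where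
  toFun u t := ∑ s, M t s • e (u s)
  map_add' u v := by
    ext t
    simp [smul_add, Finset.sum_add_distrib]
  map_smul' k u := by
    ext t
    simp only [Pi.smul_apply, RingHom.id_apply, Finset.smul_sum, map_smul]
    refine Finset.sum_congr rfl fun s _ => ?_
    rw [smul_comm]

theorem w7_op1_apply (M : Matrix σ σ K) (e : Module.End K W) (u : σ → W) (t : σ) :
    w7_op1 M e u t = ∑ s, M t s • e (u s) := rfl

/-- `M ⊗ e`, as a bilinear map -/
def w7_op2 : Matrix σ σ K →ₗ[K] Module.End K W →ₗ[K] Module.End K (σ → W) :=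
  LinearMap.mk₂ K w7_op1
    (fun M M' e => by
      refine LinearMap.ext fun u => funext fun t => ?_
      simp only [LinearMap.add_apply, Pi.add_apply, w7_op1_apply, Matrix.add_apply, add_smul,
        Finset.sum_add_distrib])
    (fun c M e => by
      refine LinearMap.ext fun u => funext fun t => ?_
      simp only [LinearMap.smul_apply, Pi.smul_apply, w7_op1_apply, Matrix.smul_apply,
        smul_eq_mul, mul_smul, Finset.smul_sum])
    (fun M e e' => by
      refine LinearMap.ext fun u => funext fun t => ?_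
      simp only [LinearMap.add_apply, Pi.add_apply, w7_op1_apply, smul_add,
        Finset.sum_add_distrib])
    (fun c M e => by
      refine LinearMap.ext fun u => funext fun t => ?_
      simp only [LinearMap.smul_apply, Pi.smul_apply, w7_op1_apply, Finset.smul_sum]
      exact Finset.sum_congr rfl fun s _ => smul_comm _ _ _)

theorem w7_op2_apply (M : Matrix σ σ K) (e : Module.End K W) (u : σ → W) (t : σ) :
    w7_op2 M e u t = ∑ s, M t s • e (u s) := rfl

theorem w7_op2_mul (M M' : Matrix σ σ K) (e e' : Module.End K W) :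
    w7_op2 M e * w7_op2 M' e' = w7_op2 (M * M') (e * e') := by
  refine LinearMap.ext fun u => funext fun t => ?_
  rw [Module.End.mul_apply, w7_op2_apply, w7_op2_apply]
  simp only [w7_op2_apply, map_sum, map_smul, Finset.smul_sum, Matrix.mul_apply, Finset.sum_smul,
    Module.End.mul_apply, smul_smul]
  exact Finset.sum_comm

theorem w7_opm_eq (E : Fin N → Module.End K W) (Y : Fin N → Matrix σ σ K) :
    opm E Y = ∑ a, w7_op2 (Y a) (E a) := by
  refine LinearMap.ext fun u => funext fun t => ?_
  rw [LinearMap.sum_apply, Finset.sum_apply]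
  rfl

theorem w7_op2_one [DecidableEq σ] (y : Module.End K W) :
    w7_op2 (1 : Matrix σ σ K) y = opd σ y := by
  refine LinearMap.ext fun u => funext fun t => ?_
  rw [w7_op2_apply, Finset.sum_eq_single t]
  · rw [Matrix.one_apply_eq, one_smul]
    rfl
  · intro s _ hs
    rw [Matrix.one_apply_ne (Ne.symm hs), zero_smul]
  · intro h
    exact absurd (Finset.mem_univ t) h

theorem w7_op2_one_one [DecidableEq σ] :
    w7_op2 (1 : Matrix σ σ K) (1 : Module.End K W) = 1 := by
  rw [w7_op2_one]
  rfl

end ops

/-! ### Words -/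

section words

variable {W : Type*} [AddCommGroup W] [Module K W] {σ : Type} [Fintype σ] [DecidableEq σ]

theorem w7_sum_cons {M : Type*} [AddCommMonoid M] (n : ℕ) (f : (Fin (n + 1) → Fin N) → M) :
    ∑ l, f l = ∑ a, ∑ l : Fin n → Fin N, f (Fin.cons a l) := by
  rw [← Fintype.sum_prod_type' (f := fun a (l : Fin n → Fin N) =>
    f (Fin.cons (α := fun _ => Fin N) a l))]
  exact (Fintype.sum_equiv (Fin.consEquiv fun _ => Fin N) _ _ fun _ => rfl).symm

theorem w7_prod_cons (n : ℕ) (a : Fin N) (l : Fin n → Fin N) :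
    ∏ i, (X ((Fin.cons a l : Fin (n + 1) → Fin N) i) : MvPolynomial (Fin N) K) =
      X a * ∏ i, X (l i) := by
  rw [Fin.prod_univ_succ, Fin.cons_zero]
  simp only [Fin.cons_succ]

theorem w7_ofFn_cons {A : Type*} [Monoid A] (E : Fin N → A) (n : ℕ) (a : Fin N)
    (l : Fin n → Fin N) :
    (List.ofFn fun i => E ((Fin.cons a l : Fin (n + 1) → Fin N) i)).prod =
      E a * (List.ofFn fun i => E (l i)).prod := by
  rw [List.ofFn_succ, List.prod_cons, Fin.cons_zero]
  simp only [Fin.cons_succ]

variable (A H : MvPolynomial (Fin N) K →ₗ[K] Matrix σ σ K) (E : Fin N → Module.End K W)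

/-- the sum over all words -/
noncomputable def w7_ws (n : ℕ) : Module.End K (σ → W) :=
  ∑ l : Fin n → Fin N, w7_op2 (A (∏ i, X (l i))) (List.ofFn fun i => E (l i)).prod

variable {A H}

theorem w7_ws_zero : w7_ws A E 0 = w7_op2 (A 1) 1 := by
  unfold w7_ws
  rw [Fintype.sum_unique]
  simp

theorem w7_ws_succ (hm : ∀ p p', A (p * p') = A p * A p') (n : ℕ) :
    w7_ws A E (n + 1) = opm E (fun a => A (X a)) * w7_ws A E n := by
  unfold w7_ws
  rw [w7_sum_cons, w7_opm_eq, Finset.sum_mul]
  refine Finset.sum_congr rfl fun a _ => ?_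
  rw [Finset.mul_sum]
  refine Finset.sum_congr rfl fun l _ => ?_
  rw [w7_op2_mul, w7_prod_cons, w7_ofFn_cons, hm]

theorem w7_ws_succ' (hm : ∀ p p', H (p * p') = A p * H p' + H p * A p') (n : ℕ) :
    w7_ws H E (n + 1) = opm E (fun a => A (X a)) * w7_ws H E n +
      opm E (fun a => H (X a)) * w7_ws A E n := by
  unfold w7_ws
  rw [w7_sum_cons, w7_opm_eq, w7_opm_eq, Finset.sum_mul, Finset.sum_mul,
    ← Finset.sum_add_distrib]
  refine Finset.sum_congr rfl fun a _ => ?_
  rw [Finset.mul_sum, Finset.mul_sum, ← Finset.sum_add_distrib]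
  refine Finset.sum_congr rfl fun l _ => ?_
  rw [w7_op2_mul, w7_op2_mul, w7_prod_cons, w7_ofFn_cons, hm, map_add, LinearMap.add_apply]

theorem w7_pow (h1 : A 1 = 1) (hm : ∀ p p', A (p * p') = A p * A p') (n : ℕ) :
    opm E (fun a => A (X a)) ^ n = w7_ws A E n := by
  induction n with
  | zero => rw [pow_zero, w7_ws_zero, h1, w7_op2_one_one]
  | succ n ih => rw [pow_succ', ih, w7_ws_succ E hm]

theorem w7_der (h1 : A 1 = 1) (hm : ∀ p p', A (p * p') = A p * A p') (h0 : H 1 = 0)
    (hm' : ∀ p p', H (p * p') = A p * H p' + H p * A p') (n : ℕ) :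
    ∑ i ∈ Finset.range n, opm E (fun a => A (X a)) ^ i * opm E (fun a => H (X a)) *
      opm E (fun a => A (X a)) ^ (n - 1 - i) = w7_ws H E n := by
  induction n with
  | zero => rw [w7_ws_zero, h0, map_zero, LinearMap.zero_apply, Finset.range_zero,
      Finset.sum_empty]
  | succ n ih =>
    rw [w7_ws_succ' E hm', ← ih, Finset.sum_range_succ', Finset.mul_sum, ← w7_pow E h1 hm n]
    congr 1
    refine Finset.sum_congr rfl fun i _ => ?_
    rw [pow_succ', mul_assoc, mul_assoc, mul_assoc]
    congr 4
    omega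

theorem w7_prod_X {n : ℕ} (l : Fin n → Fin N) :
    (∏ i, X (l i) : MvPolynomial (Fin N) K) = monomial (content l) 1 := by
  unfold content
  rw [monomial_sum_one]
  rfl

theorem w7_word_sum {b : ℕ} (ψ : Fin N → MvPolynomial (Fin N) K) (y : Fin N → Module.End K W)
    (h : ∀ α, csum b E α = ∑ k, coeff α (ψ k) • y k) :
    w7_ws A E b = ∑ k, w7_op2 (A (ψ k)) (y k) := by
  classical
  set F : Finset (Fin N →₀ ℕ) := (Finset.univ.image fun l : Fin b → Fin N => content l) ∪
    Finset.univ.biUnion fun k => (ψ k).support with hF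
  have hFψ : ∀ k, ψ k = ∑ α ∈ F, coeff α (ψ k) • (monomial α 1 : MvPolynomial (Fin N) K) := by
    intro k
    conv_lhs => rw [← support_sum_monomial_coeff (ψ k)]
    rw [Finset.sum_subset (s₂ := F)]
    · refine Finset.sum_congr rfl fun α _ => ?_
      rw [smul_monomial, smul_eq_mul, mul_one]
    · exact (Finset.subset_biUnion_of_mem (fun k => (ψ k).support) (Finset.mem_univ k)).trans
        Finset.subset_union_right
    · intro α _ hα
      rw [notMem_support_iff.1 hα, monomial_zero]
  have h1 : w7_ws A E b = ∑ α ∈ F, w7_op2 (A (monomial α 1)) (csum b E α) := by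
    unfold w7_ws
    rw [← Finset.sum_fiberwise_of_maps_to (s := Finset.univ) (t := F)
      (g := fun l : Fin b → Fin N => content l) (fun l _ => Finset.mem_union_left _
        (Finset.mem_image_of_mem _ (Finset.mem_univ l)))]
    refine Finset.sum_congr rfl fun α _ => ?_
    unfold csum
    rw [map_sum]
    refine Finset.sum_congr (by congr) fun l hl => ?_
    rw [w7_prod_X]
    congr 3
    simpa using hl
  rw [h1]
  simp only [h, map_sum, map_smul]
  rw [Finset.sum_comm]
  refine Finset.sum_congr rfl fun k _ => ?_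
  conv_rhs => rw [hFψ k]
  rw [map_sum, map_sum, LinearMap.sum_apply]
  refine Finset.sum_congr rfl fun α _ => ?_
  rw [map_smul, map_smul, LinearMap.smul_apply]

end words

/-! ### Construction -/

/-- an abstract form of the coordinates of `S / I` -/
theorem w7_main {b : ℕ} (ψ : Fin N → MvPolynomial (Fin N) K)
    (hψ : ∀ k, (ψ k).IsHomogeneous b)
    (hsyz : ∀ g : Fin N → MvPolynomial (Fin N) K, ∑ m, ψ m * g m = 0 →
      ∀ m, g m ∈ Ideal.span (Set.range ψ))
    (σ : Type) [Fintype σ] [DecidableEq σ] (deg : σ → ℕ)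
    (hcard : ∀ j, (Finset.univ.filter fun s => deg s = j).card =
      (boxD (fun _ : Fin N => b) j).card)
    (q : MvPolynomial (Fin N) K →ₗ[K] (σ → K)) (bs : σ → MvPolynomial (Fin N) K)
    (hb : ∀ s, (bs s).IsHomogeneous (deg s))
    (hqb : ∀ s, q (bs s) = Pi.single s 1)
    (hq0 : ∀ u, q u = 0 ↔ u ∈ Ideal.span (Set.range ψ))
    (hqd : ∀ u j, u.IsHomogeneous j → ∀ s, q u s ≠ 0 → deg s = j) :
    Nonempty (HData.{u, v} b ψ) := by
  classical
  set I := Ideal.span (Set.range ψ) with hIdef
  -- the section
  let s : (σ → K) →ₗ[K] MvPolynomial (Fin N) K := Fintype.linearCombination K bs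
  have hs : ∀ v, s v = ∑ t, v t • bs t := fun v => Fintype.linearCombination_apply K bs v
  have hqs : ∀ v, q (s v) = v := by
    intro v
    rw [hs, map_sum]
    ext t
    simp only [map_smul, hqb, Finset.sum_apply, Pi.smul_apply, smul_eq_mul]
    simp [Pi.single_apply]
  have hsub : ∀ u, u - s (q u) ∈ I := by
    intro u
    rw [← hq0, map_sub, hqs, sub_self]
  have hqeq : ∀ u v, u - v ∈ I → q u = q v := by
    intro u v h
    rw [← hq0, map_sub, sub_eq_zero] at h
    exact h
  have hmulq : ∀ p u, q (p * u) = q (p * s (q u)) := by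
    intro p u
    refine hqeq _ _ ?_
    rw [← mul_sub]
    exact I.mul_mem_left _ (hsub u)
  -- representations in the ideal
  let P : (Fin N → MvPolynomial (Fin N) K) →ₗ[K] MvPolynomial (Fin N) K :=
    { toFun := fun g => ∑ m, ψ m * g m
      map_add' := fun g g' => by simp [mul_add, Finset.sum_add_distrib]
      map_smul' := fun c g => by simp [Finset.smul_sum] }
  have hP : ∀ g, P g = ∑ m, ψ m * g m := fun g => rfl
  have hPI : ∀ u ∈ I, ∃ g, P g = u := by
    intro u hu
    obtain ⟨g, hg⟩ := (Submodule.mem_span_range_iff_exists_fun (MvPolynomial (Fin N) K)).1 hu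
    refine ⟨g, ?_⟩
    rw [hP, ← hg]
    exact Finset.sum_congr rfl fun m _ => by rw [smul_eq_mul, mul_comm]
  obtain ⟨R, hR⟩ : ∃ R : MvPolynomial (Fin N) K →ₗ[K] (Fin N → MvPolynomial (Fin N) K),
      ∀ u, u = s (q u) + ∑ m, ψ m * R u m := by
    obtain ⟨R, hR⟩ := Module.projective_lifting_property P.rangeRestrict
      (LinearMap.codRestrict (LinearMap.range P) (LinearMap.id - s ∘ₗ q)
        (fun u => by
          obtain ⟨g, hg⟩ := hPI _ (hsub u)
          exact ⟨g, hg⟩)) P.surjective_rangeRestrict
    refine ⟨R, fun u => ?_⟩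
    have h1 := congrArg Subtype.val (LinearMap.congr_fun hR u)
    have h2 : P (R u) = u - s (q u) := h1
    rw [← hP, h2]
    ring
  let r : Fin N → MvPolynomial (Fin N) K →ₗ[K] (σ → K) := fun k => q ∘ₗ LinearMap.proj k ∘ₗ R
  have hr : ∀ k u, r k u = q (R u k) := fun k u => rfl
  have hru : ∀ u (g : Fin N → MvPolynomial (Fin N) K), u = s (q u) + ∑ m, ψ m * g m →
      ∀ k, r k u = q (g k) := by
    intro u g hg k
    rw [hr]
    refine hqeq _ _ ?_
    refine hsyz (fun m => R u m - g m) ?_ k
    simp only [mul_sub, Finset.sum_sub_distrib]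
    rw [sub_eq_zero]
    exact add_left_cancel ((hR u).symm.trans hg)
  have hrψ : ∀ k l u, r k (ψ l * u) = if l = k then q u else 0 := by
    intro k l u
    have h1 : q (ψ l * u) = 0 := (hq0 _).2 (I.mul_mem_right _ (Ideal.subset_span ⟨l, rfl⟩))
    rw [hru (ψ l * u) (Pi.single l u) (by
      rw [h1, map_zero, zero_add, Finset.sum_eq_single l]
      · rw [Pi.single_eq_same]
      · intro m _ hm
        rw [Pi.single_eq_of_ne hm, mul_zero]
      · intro h
        exact absurd (Finset.mem_univ l) h) k]
    by_cases hlk : l = k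
    · subst hlk
      rw [Pi.single_eq_same, if_pos rfl]
    · rw [Pi.single_eq_of_ne (Ne.symm hlk), if_neg hlk, map_zero]
  have hrs : ∀ k v, r k (s v) = 0 := by
    intro k v
    rw [hru (s v) 0 (by simp [hqs]) k, Pi.zero_apply, map_zero]
  have hrmul : ∀ k p u, r k (p * u) = r k (p * s (q u)) + q (p * s (r k u)) := by
    intro k p u
    have h1 : p * u = p * s (q u) + ∑ m, ψ m * (p * R u m) := by
      conv_lhs => rw [hR u]
      rw [mul_add, Finset.mul_sum]
      congr 1
      exact Finset.sum_congr rfl fun m _ => by ring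
    conv_lhs => rw [h1]
    rw [map_add, map_sum]
    congr 1
    rw [Finset.sum_eq_single k]
    · rw [hrψ, if_pos rfl, hmulq, hr]
    · intro m _ hm
      rw [hrψ, if_neg hm]
    · intro h
      exact absurd (Finset.mem_univ k) h
  -- degrees
  have hsd : ∀ u j, u.IsHomogeneous j → (s (q u)).IsHomogeneous j := by
    intro u j hu
    rw [hs]
    refine IsHomogeneous.sum _ _ _ fun t _ => ?_
    by_cases h : q u t = 0
    · rw [h, zero_smul]
      exact isHomogeneous_zero _ _ _
    · rw [smul_eq_C_mul, ← hqd _ _ hu t h]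
      have := (isHomogeneous_C (Fin N) (q u t)).mul (hb t)
      rwa [zero_add] at this
  have hrd : ∀ k u j, u.IsHomogeneous j → ∀ t, r k u t ≠ 0 → deg t + b = j := by
    intro k u j hu t ht
    have hv : (u - s (q u)).IsHomogeneous j := hu.sub (hsd u j hu)
    have h1 : u - s (q u) = ∑ m, homogeneousComponent j (ψ m * R u m) := by
      rw [← map_sum]
      conv_rhs => rw [show ∑ m, ψ m * R u m = u - s (q u) from by
        conv_rhs => rw [hR u]
        rw [map_add, hqs, (hq0 _).2 (Ideal.sum_mem _ fun m _ => I.mul_mem_right _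
          (Ideal.subset_span ⟨m, rfl⟩)), add_zero]
        ring]
      rw [comp_self hv]
    rcases lt_or_ge j b with hjb | hjb
    · exfalso
      apply ht
      rw [hru u 0 (by
        have h2 : u - s (q u) = 0 := by
          rw [h1]
          exact Finset.sum_eq_zero fun m _ => comp_mul_of_lt (hψ m) _ hjb
        rw [sub_eq_zero] at h2
        simpa using h2) k]
      simp
    · obtain ⟨e, rfl⟩ : ∃ e, j = e + b := ⟨j - b, by omega⟩
      rw [hru u (fun m => homogeneousComponent e (R u m)) (by
        rw [← sub_eq_iff_eq_add', h1]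
        refine Finset.sum_congr rfl fun m _ => ?_
        rw [← comp_mul_add (hψ m)]) k] at ht
      rw [hqd _ e (homogeneousComponent_isHomogeneous _ _) t ht]
  -- the operators
  let fA : MvPolynomial (Fin N) K → (σ → K) →ₗ[K] (σ → K) := fun p =>
    q ∘ₗ LinearMap.mulLeft K p ∘ₗ s
  let fH : Fin N → MvPolynomial (Fin N) K → (σ → K) →ₗ[K] (σ → K) := fun k p =>
    r k ∘ₗ LinearMap.mulLeft K p ∘ₗ s
  have hfA : ∀ p v, fA p v = q (p * s v) := fun p v => rfl
  have hfH : ∀ k p v, fH k p v = r k (p * s v) := fun k p v => rfl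
  let A : MvPolynomial (Fin N) K →ₗ[K] Matrix σ σ K :=
    { toFun := fun p => LinearMap.toMatrix' (fA p)
      map_add' := fun p p' => by
        rw [← map_add]
        congr 1
        refine LinearMap.ext fun v => ?_
        rw [LinearMap.add_apply, hfA, hfA, hfA, add_mul, map_add]
      map_smul' := fun c p => by
        rw [RingHom.id_apply, ← map_smul]
        congr 1
        refine LinearMap.ext fun v => ?_
        rw [LinearMap.smul_apply, hfA, hfA, smul_mul_assoc, map_smul] }
  let H : Fin N → MvPolynomial (Fin N) K →ₗ[K] Matrix σ σ K := fun k =>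
    { toFun := fun p => LinearMap.toMatrix' (fH k p)
      map_add' := fun p p' => by
        rw [← map_add]
        congr 1
        refine LinearMap.ext fun v => ?_
        rw [LinearMap.add_apply, hfH, hfH, hfH, add_mul, map_add]
      map_smul' := fun c p => by
        rw [RingHom.id_apply, ← map_smul]
        congr 1
        refine LinearMap.ext fun v => ?_
        rw [LinearMap.smul_apply, hfH, hfH, smul_mul_assoc, map_smul] }
  have hA : ∀ p, A p = LinearMap.toMatrix' (fA p) := fun p => rfl
  have hH : ∀ k p, H k p = LinearMap.toMatrix' (fH k p) := fun k p => rfl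
  have hA1 : A 1 = 1 := by
    rw [hA, show fA 1 = LinearMap.id from LinearMap.ext fun v => by
      rw [hfA, one_mul, hqs, LinearMap.id_apply], LinearMap.toMatrix'_id]
  have hH1 : ∀ k, H k 1 = 0 := by
    intro k
    rw [hH, show fH k 1 = 0 from LinearMap.ext fun v => by
      rw [hfH, one_mul, hrs, LinearMap.zero_apply], map_zero]
  have hAm : ∀ p p', A (p * p') = A p * A p' := by
    intro p p'
    rw [hA, hA, hA, ← LinearMap.toMatrix'_comp]
    congr 1
    refine LinearMap.ext fun v => ?_
    change fA (p * p') v = fA p (fA p' v)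
    rw [hfA, hfA, hfA, mul_assoc, hmulq]
  have hHm : ∀ k p p', H k (p * p') = A p * H k p' + H k p * A p' := by
    intro k p p'
    rw [hA, hA, hH, hH, hH, ← LinearMap.toMatrix'_comp, ← LinearMap.toMatrix'_comp, ← map_add]
    congr 1
    refine LinearMap.ext fun v => ?_
    change fH k (p * p') v = fA p (fH k p' v) + fH k p (fA p' v)
    rw [hfA, hfA, hfH, hfH, hfH, mul_assoc, hrmul, add_comm]
  have hAψ : ∀ l, A (ψ l) = 0 := by
    intro l
    rw [hA, show fA (ψ l) = 0 from LinearMap.ext fun v => by
      rw [hfA, LinearMap.zero_apply, hq0]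
      exact I.mul_mem_right _ (Ideal.subset_span ⟨l, rfl⟩), map_zero]
  have hHψ : ∀ k l, H k (ψ l) = if l = k then 1 else 0 := by
    intro k l
    rw [hH]
    by_cases hlk : l = k
    · rw [if_pos hlk, show fH k (ψ l) = LinearMap.id from LinearMap.ext fun v => by
        rw [hfH, hrψ, if_pos hlk, hqs, LinearMap.id_apply], LinearMap.toMatrix'_id]
    · rw [if_neg hlk, show fH k (ψ l) = 0 from LinearMap.ext fun v => by
        rw [hfH, hrψ, if_neg hlk, LinearMap.zero_apply], map_zero]
  have hXb : ∀ a s', (X a * s (Pi.single s' 1) : MvPolynomial (Fin N) K).IsHomogeneous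
      (deg s' + 1) := by
    intro a s'
    have h1 : s (Pi.single s' 1) = bs s' := by
      rw [hs, Finset.sum_eq_single s']
      · rw [Pi.single_eq_same, one_smul]
      · intro t _ ht
        rw [Pi.single_eq_of_ne ht, zero_smul]
      · intro h
        exact absurd (Finset.mem_univ s') h
    rw [h1]
    have := (isHomogeneous_X K a).mul (hb s')
    rwa [add_comm] at this
  exact ⟨{
    σ := σ
    fin := inferInstance
    dec := inferInstance
    deg := deg
    X := fun a => A (X a)
    h := fun k a => H k (X a)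
    X_deg := by
      intro a t s' h
      rw [hA, LinearMap.toMatrix'_apply, hfA] at h
      exact hqd _ _ (hXb a s') t h
    h_deg := by
      intro k a t s' h
      rw [hH, LinearMap.toMatrix'_apply, hfH] at h
      exact hrd k _ _ (hXb a s') t h
    card := hcard
    pow := by
      intro W _ _ E y _ _ h
      rw [w7_pow E hA1 hAm, w7_word_sum E ψ y h]
      exact Finset.sum_eq_zero fun k _ => by rw [hAψ, map_zero, LinearMap.zero_apply]
    htpy := by
      intro W _ _ E y _ _ h k
      rw [w7_der E hA1 hAm (hH1 k) (hHm k), w7_word_sum E ψ y h, Finset.sum_eq_single k]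
      · rw [hHψ, if_pos rfl, w7_op2_one]
      · intro l _ hl
        rw [hHψ, if_neg hl, map_zero, LinearMap.zero_apply]
      · intro h
        exact absurd (Finset.mem_univ k) h }⟩

/-! ### Extension of scalars -/

section ext

variable {b : ℕ} (ψ : Fin N → MvPolynomial (Fin N) K)

theorem w7_mprim (L : Type*) [Field L] [Algebra K L]
    (hm : IsMPrimary (Ideal.span (Set.range ψ))) :
    IsMPrimary (Ideal.span (Set.range fun k =>
      MvPolynomial.map (σ := Fin N) (algebraMap K L) (ψ k))) := by
  obtain ⟨M, hM⟩ := hm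
  refine ⟨M, fun d hd g hg => ?_⟩
  have e1 : Set.range (fun k => MvPolynomial.map (σ := Fin N) (algebraMap K L) (ψ k)) =
      (MvPolynomial.map (σ := Fin N) (algebraMap K L)) '' Set.range ψ := by
    rw [← Set.range_comp]
    rfl
  rw [e1, ← Ideal.map_span, mem_map_iff_bcc]
  intro φ
  refine hM d hd _ ?_
  rw [← comp_self hg, ← homogeneousComponent_bcc]
  exact homogeneousComponent_isHomogeneous _ _

theorem w7_syz (hb : 1 ≤ b) (hψ : ∀ k, (ψ k).IsHomogeneous b)
    (hm : IsMPrimary (Ideal.span (Set.range ψ))) (g : Fin N → MvPolynomial (Fin N) K)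
    (hg : ∑ m, ψ m * g m = 0) (m : Fin N) : g m ∈ Ideal.span (Set.range ψ) := by
  let L := AlgebraicClosure K
  have hreg := isRegSeq_of_isMPrimary (fun _ : Fin N => b) (fun _ => hb)
    (fun k => MvPolynomial.map (σ := Fin N) (algebraMap K L) (ψ k))
    (fun k => (hψ k).map _) (w7_mprim ψ L hm)
  have h1 := Q.syz_of_isRegSeq _ hreg
    (fun k => MvPolynomial.map (σ := Fin N) (algebraMap K L) (g k)) (by
      simp only [← map_mul, ← map_sum]
      rw [hg, map_zero]) m
  have e1 : Set.range (fun k => MvPolynomial.map (σ := Fin N) (algebraMap K L) (ψ k)) =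
      (MvPolynomial.map (σ := Fin N) (algebraMap K L)) '' Set.range ψ := by
    rw [← Set.range_comp]
    rfl
  rw [e1, ← Ideal.map_span, mem_map_iff_bcc] at h1
  obtain ⟨φ, hφ⟩ : ∃ φ : L →ₗ[K] K, φ 1 = 1 := by
    obtain ⟨φ, hφ⟩ := LinearMap.exists_leftInverse_of_injective (Algebra.linearMap K L)
      (LinearMap.ker_eq_bot.2 (algebraMap K L).injective)
    refine ⟨φ, ?_⟩
    have h4 := LinearMap.congr_fun hφ 1
    rwa [LinearMap.comp_apply, Algebra.linearMap_apply, map_one, LinearMap.id_apply] at h4
  have h2 := h1 φ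
  have h3 := bcc_smul_map φ (1 : L) (g m)
  rw [one_smul, hφ, one_smul] at h3
  rwa [h3] at h2

theorem w7_hilb (hb : 1 ≤ b) (hψ : ∀ k, (ψ k).IsHomogeneous b)
    (hm : IsMPrimary (Ideal.span (Set.range ψ))) (d : ℕ) :
    hilb (Ideal.span (Set.range ψ)) d = (boxD (fun _ : Fin N => b) d).card := by
  let L := AlgebraicClosure K
  have h1 := hilb_span_eq_card_boxD (fun _ : Fin N => b) (fun _ => hb)
    (fun k => MvPolynomial.map (σ := Fin N) (algebraMap K L) (ψ k))
    (fun k => (hψ k).map _) (w7_mprim ψ L hm) d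
  have e1 : Set.range (fun k => MvPolynomial.map (σ := Fin N) (algebraMap K L) (ψ k)) =
      (MvPolynomial.map (σ := Fin N) (algebraMap K L)) '' Set.range ψ := by
    rw [← Set.range_comp]
    rfl
  rw [e1, ← Ideal.map_span, hilb_baseChange _ (homIdeal_span (by
    rintro _ ⟨k, rfl⟩
    exact ⟨b, hψ k⟩))] at h1
  exact h1

end ext

theorem exists_homotopy {b : ℕ} (hb : 2 ≤ b) (ψ : Fin N → MvPolynomial (Fin N) K)
    (hψ : ∀ k, (ψ k).IsHomogeneous b) (hm : IsMPrimary (Ideal.span (Set.range ψ))) :
    Nonempty (HData.{u, v} b ψ) := by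
  classical
  have hdim := w7_hilb ψ (by omega) hψ hm
  obtain ⟨M, hM⟩ := id hm
  have hbig : ∀ j, M ≤ j → hilb (Ideal.span (Set.range ψ)) j = 0 := fun j hj =>
    hilb_eq_zero_iff.2 fun g hg => hM j hj g hg
  have hI : HomIdeal (Ideal.span (Set.range ψ)) := homIdeal_span (by
    rintro f ⟨m, rfl⟩
    exact ⟨b, hψ m⟩)
  choose q bs hbs hqb hq0 using fun j => Q.d1_exists_coord (Ideal.span (Set.range ψ)) j (hdim j)
  have hqj : ∀ j u, q j u = q j (homogeneousComponent j u) := by
    intro j u
    rw [← sub_eq_zero, ← map_sub, hq0, map_sub, comp_self (homogeneousComponent_isHomogeneous _ _),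
      sub_self]
    exact Ideal.zero_mem _
  have hqne : ∀ j k u, u.IsHomogeneous k → k ≠ j → q j u = 0 := by
    intro j k u hu hkj
    rw [hqj, homogeneousComponent_of_mem hu, if_neg (Ne.symm hkj), map_zero]
  refine w7_main ψ hψ (w7_syz ψ (by omega) hψ hm)
    (Σ j : Fin M, Fin (boxD (fun _ : Fin N => b) j).card) (fun s => (s.1 : ℕ)) ?_
    (LinearMap.pi fun s => (LinearMap.proj s.2) ∘ₗ (q s.1)) (fun s => bs s.1 s.2) ?_ ?_ ?_ ?_
  · intro j
    by_cases hj : j < M
    · have h1 : (Finset.univ.filter fun s : (Σ j : Fin M,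
          Fin (boxD (fun _ : Fin N => b) j).card) =>
          (s.1 : ℕ) = j) = Finset.univ.map ⟨fun i : Fin (boxD (fun _ : Fin N => b) j).card =>
            (⟨⟨j, hj⟩, i⟩ : (Σ j : Fin M, Fin (boxD (fun _ : Fin N => b) j).card)), by
              intro x y hxy
              simpa using hxy⟩ := by
        ext s
        simp only [Finset.mem_filter, Finset.mem_univ, true_and, Finset.mem_map,
          Function.Embedding.coeFn_mk]
        constructor
        · intro hs
          obtain ⟨⟨k, hk⟩, i⟩ := s
          simp only at hs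
          subst hs
          exact ⟨i, rfl⟩
        · rintro ⟨i, rfl⟩
          rfl
      rw [h1, Finset.card_map, Finset.card_univ, Fintype.card_fin]
    · rw [← hdim, hbig j (by omega), Finset.card_eq_zero, Finset.filter_eq_empty_iff]
      intro s _
      have := s.1.2
      omega
  · intro s
    exact hbs _ _
  · rintro ⟨j, i⟩
    ext ⟨k, l⟩
    simp only [LinearMap.pi_apply, LinearMap.comp_apply, LinearMap.proj_apply]
    by_cases hjk : j = k
    · subst hjk
      rw [hqb]
      by_cases hil : l = i
      · subst hil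
        simp
      · rw [Pi.single_eq_of_ne hil, Pi.single_eq_of_ne]
        intro h
        apply hil
        simpa using h
    · rw [hqne k j _ (hbs _ _) (fun h => hjk (Fin.ext h)), Pi.single_eq_of_ne]
      · rfl
      · intro h
        apply hjk
        exact (congrArg Sigma.fst h).symm
  · intro u
    constructor
    · intro h
      refine mem_of_forall_comp fun j => ?_
      by_cases hj : j < M
      · rw [← hq0]
        ext i
        exact congrFun h ⟨⟨j, hj⟩, i⟩
      · exact hM j (by omega) _ (homogeneousComponent_isHomogeneous _ _)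
    · intro h
      ext s
      have := (hq0 s.1 u).2 (hI u h _)
      simp only [LinearMap.pi_apply, LinearMap.comp_apply, LinearMap.proj_apply, this]
      rfl
  · intro u j hu s hs
    by_contra hne
    apply hs
    simp only [LinearMap.pi_apply, LinearMap.comp_apply, LinearMap.proj_apply]
    rw [hqne s.1 j u hu (fun h => hne h.symm)]
    rfl

end Vale.Agent.P200.W
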