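import Vale.Agent.P200.W.Defs

/-!
The operators of the block algebra.  `G = Fin R → ZMod b`; on functions `φ : G → Ω`:
`(sg j φ)(κ) = ρ_j ζ^(∑_{i<j} κ_i) φ(κ + e_j)`, `(th j φ)(κ) = θ_j(κ_j) φ(κ)`, and
`EE j 0 = sg j`, `EE j 1 = - th j * sg j`.

* `EE_comm`: `sg j * sg j' = ζ • (sg j' * sg j)` for `j < j'` (`κ_j` changes by one in the exponent
  of the second factor; `ζ^((κ_j+1).val) = ζ^(κ_j.val) ζ` because `ζ^b = 1`); `th j` commutes with
  `th j'` and with `sg j'` for `j ≠ j'`.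
* `wsum_EE`: with indeterminates `s`, `t`: `s sg - t th sg = (s - t th) sg` and `sg th = th' sg` where
  `th'` is the diagonal operator `θ_j(κ_j + 1)`; so `(s sg - t th sg)^b =
  ∏_{i<b} (s - t θ_j(κ_j + i)) sg^b = ρ_j^b ∏_{i ∈ ZMod b} (s - t θ_j(i))`, `sg^b = ρ_j^b`.
  (A direct way: prove by induction on `N` that
  `(wsum (EE j 0) (EE j 1) N m φ)(κ) = ρ_j^N ζ^(N e(κ)) e_m(-θ_j(κ_j), ..., -θ_j(κ_j+N-1)) φ(κ + N e_j)`
  with `e_m` = coefficient of `T^m` in `∏_{i<N} (1 - T θ_j(κ_j + i))`, `e(κ) = ∑_{i<j} κ_i`.)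
* `words_EE`: see below.
-/

namespace Vale.Agent.P200.W

open MvPolynomial Module
open Vale.Agent.P200.B Vale.Agent.P200.G Vale.Agent.P200.L Vale.Agent.P200.M Vale.Agent.P200.V

variable {Ω : Type*} [Field Ω] {b R : ℕ}

/-- weighted shifts -/
def sg (ζ : Ω) (ρ : Fin R → Ω) (j : Fin R) : Module.End Ω ((Fin R → ZMod b) → Ω) where
  toFun φ κ := ρ j * ζ ^ (∑ i ∈ Finset.Iio j, (κ i).val) * φ (κ + Pi.single j 1)
  map_add' φ ψ := by
    funext κ
    simp only [Pi.add_apply, mul_add]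
  map_smul' c φ := by
    funext κ
    simp only [Pi.smul_apply, smul_eq_mul, RingHom.id_apply]
    ring

/-- diagonal operators -/
def th (θ : Fin R → ZMod b → Ω) (j : Fin R) : Module.End Ω ((Fin R → ZMod b) → Ω) where
  toFun φ κ := θ j (κ j) * φ κ
  map_add' φ ψ := by
    funext κ
    simp only [Pi.add_apply, mul_add]
  map_smul' c φ := by
    funext κ
    simp only [Pi.smul_apply, smul_eq_mul, RingHom.id_apply]
    ring

/-- the generators -/
def EE (ζ : Ω) (ρ : Fin R → Ω) (θ : Fin R → ZMod b → Ω) (j : Fin R) :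
    Fin 2 → Module.End Ω ((Fin R → ZMod b) → Ω) :=
  ![sg ζ ρ j, -(th θ j * sg ζ ρ j)]

/-- the diagonal factor of `EE j ε` -/
def w4_co (θ : Fin R → ZMod b → Ω) (j : Fin R) (ε : Fin 2) (t : ZMod b) : Ω :=
  if ε = 0 then 1 else -θ j t

theorem w4_EE_apply (ζ : Ω) (ρ : Fin R → Ω) (θ : Fin R → ZMod b → Ω) (j : Fin R) (ε : Fin 2)
    (φ : (Fin R → ZMod b) → Ω) (κ : Fin R → ZMod b) :
    EE ζ ρ θ j ε φ κ = w4_co θ j ε (κ j) *
      (ρ j * ζ ^ (∑ i ∈ Finset.Iio j, (κ i).val) * φ (κ + Pi.single j 1)) := by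
  fin_cases ε
  · simp [EE, w4_co, sg]
  · simp [EE, w4_co, sg, th]

theorem w4_sum_ge {j j' : Fin R} (h : j ≤ j') (κ : Fin R → ZMod b) (x : ZMod b) :
    ∑ i ∈ Finset.Iio j, ((κ + Pi.single j' x : Fin R → ZMod b) i).val = ∑ i ∈ Finset.Iio j, (κ i).val := by
  refine Finset.sum_congr rfl fun i hi => ?_
  have hi' : i ≠ j' := fun e => absurd (Finset.mem_Iio.1 hi) (not_lt.2 (e ▸ h))
  rw [Pi.add_apply, Pi.single_eq_of_ne hi', add_zero]

theorem w4_pow_val [NeZero b] {ζ : Ω} (hζ : ζ ^ b = 1) (t : ZMod b) :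
    ζ ^ (t + 1).val = ζ * ζ ^ t.val := by
  have h1 : (t + 1).val = (t.val + 1) % b := by
    rw [ZMod.val_add, ZMod.val_one_eq_one_mod, Nat.add_mod_mod]
  rw [h1, ← pow_succ']
  conv_rhs => rw [← Nat.div_add_mod (t.val + 1) b, pow_add, pow_mul, hζ, one_pow, one_mul]

theorem w4_pow_sum [NeZero b] {ζ : Ω} (hζ : ζ ^ b = 1) {j j' : Fin R} (h : j < j')
    (κ : Fin R → ZMod b) :
    ζ ^ (∑ i ∈ Finset.Iio j', ((κ + Pi.single j 1 : Fin R → ZMod b) i).val) =
      ζ * ζ ^ (∑ i ∈ Finset.Iio j', (κ i).val) := by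
  have hmem : j ∈ Finset.Iio j' := Finset.mem_Iio.2 h
  rw [← Finset.add_sum_erase _ _ hmem, ← Finset.add_sum_erase _ (fun i => (κ i).val) hmem,
    pow_add, pow_add, Pi.add_apply, Pi.single_eq_same, w4_pow_val hζ]
  have h1 : ∑ i ∈ (Finset.Iio j').erase j, ((κ + Pi.single j 1 : Fin R → ZMod b) i).val =
      ∑ i ∈ (Finset.Iio j').erase j, (κ i).val := by
    refine Finset.sum_congr rfl fun i hi => ?_
    rw [Pi.add_apply, Pi.single_eq_of_ne (Finset.ne_of_mem_erase hi), add_zero]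
  rw [h1]
  ring

theorem EE_comm [NeZero b] {ζ : Ω} (hζ : ζ ^ b = 1) (ρ : Fin R → Ω) (θ : Fin R → ZMod b → Ω)
    {j j' : Fin R} (hj : j < j') (ε δ : Fin 2) :
    EE ζ ρ θ j ε * EE ζ ρ θ j' δ = ζ • (EE ζ ρ θ j' δ * EE ζ ρ θ j ε) := by
  refine LinearMap.ext fun φ => ?_
  funext κ
  rw [Module.End.mul_apply, LinearMap.smul_apply, Pi.smul_apply, smul_eq_mul,
    Module.End.mul_apply, w4_EE_apply, w4_EE_apply, w4_EE_apply, w4_EE_apply,
    w4_pow_sum hζ hj, w4_sum_ge hj.le, Pi.add_apply, Pi.add_apply,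
    Pi.single_eq_of_ne hj.ne', Pi.single_eq_of_ne hj.ne, add_zero, add_zero,
    add_right_comm κ (Pi.single j' 1)]
  ring

/-- elementary symmetric functions of `-θ t, ..., -θ (t + N - 1)` -/
def w4_el (θ : ZMod b → Ω) : ℕ → ℕ → ZMod b → Ω
  | 0, 0, _ => 1
  | 0, _ + 1, _ => 0
  | N + 1, 0, t => w4_el θ N 0 (t + 1)
  | N + 1, m + 1, t => w4_el θ N (m + 1) (t + 1) + -θ t * w4_el θ N m (t + 1)

theorem w4_el_gt (θ : ZMod b → Ω) (N : ℕ) : ∀ (m : ℕ) (t : ZMod b), N < m → w4_el θ N m t = 0 := by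
  induction N with
  | zero =>
    intro m t hm
    obtain ⟨m, rfl⟩ := Nat.exists_eq_succ_of_ne_zero hm.ne'
    rfl
  | succ N ih =>
    intro m t hm
    obtain ⟨m, rfl⟩ := Nat.exists_eq_succ_of_ne_zero (show m ≠ 0 by omega)
    show w4_el θ N (m + 1) (t + 1) + -θ t * w4_el θ N m (t + 1) = 0
    rw [ih (m + 1) _ (by omega), ih m _ (by omega), mul_zero, add_zero]

theorem w4_el_gen (θ : ZMod b → Ω) (N : ℕ) : ∀ t : ZMod b,
    ∏ i ∈ Finset.range N, (Polynomial.X - Polynomial.C (θ (t + i))) =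
      ∑ m ∈ Finset.range (N + 1), Polynomial.C (w4_el θ N m t) * Polynomial.X ^ (N - m) := by
  induction N with
  | zero => intro t; simp [w4_el]
  | succ N ih =>
    intro t
    have h1 : ∏ i ∈ Finset.range N,
        (Polynomial.X - Polynomial.C (θ (t + ((i + 1 : ℕ) : ZMod b)))) =
        ∏ i ∈ Finset.range N, (Polynomial.X - Polynomial.C (θ (t + 1 + (i : ZMod b)))) := by
      refine Finset.prod_congr rfl fun i _ => ?_
      rw [Nat.cast_succ, add_assoc t 1, add_comm 1 (i : ZMod b)]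
    rw [Finset.prod_range_succ', h1, ih (t + 1), Nat.cast_zero, add_zero]
    have h2 : ∑ m ∈ Finset.range (N + 1 + 1), Polynomial.C (w4_el θ N m (t + 1)) *
        Polynomial.X ^ (N + 1 - m) = (∑ m ∈ Finset.range (N + 1),
          Polynomial.C (w4_el θ N m (t + 1)) * Polynomial.X ^ (N - m)) * Polynomial.X := by
      rw [Finset.sum_range_succ, w4_el_gt θ N (N + 1) _ (Nat.lt_succ_self N), map_zero, zero_mul,
        add_zero, Finset.sum_mul]
      refine Finset.sum_congr rfl fun m hm => ?_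
      rw [Finset.mem_range] at hm
      rw [show N + 1 - m = N - m + 1 by omega, pow_succ, mul_assoc]
    have h3 : ∑ m ∈ Finset.range (N + 1 + 1), Polynomial.C (w4_el θ (N + 1) m t) *
        Polynomial.X ^ (N + 1 - m) = ∑ m ∈ Finset.range (N + 1 + 1),
          Polynomial.C (w4_el θ N m (t + 1)) * Polynomial.X ^ (N + 1 - m) -
        (∑ m ∈ Finset.range (N + 1),
          Polynomial.C (w4_el θ N m (t + 1)) * Polynomial.X ^ (N - m)) *
            Polynomial.C (θ t) := by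
      rw [Finset.sum_range_succ' _ (N + 1), Finset.sum_range_succ' _ (N + 1),
        Finset.sum_mul, add_sub_right_comm, ← Finset.sum_sub_distrib]
      congr 1
      refine Finset.sum_congr rfl fun m hm => ?_
      show Polynomial.C (w4_el θ N (m + 1) (t + 1) + -θ t * w4_el θ N m (t + 1)) * _ = _
      rw [show N + 1 - (m + 1) = N - m by omega, map_add, map_mul, map_neg]
      ring
    rw [h3, h2, mul_sub]

theorem w4_wsum_apply [NeZero b] (ζ : Ω) (ρ : Fin R → Ω) (θ : Fin R → ZMod b → Ω) (j : Fin R)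
    (φ : (Fin R → ZMod b) → Ω) (N : ℕ) : ∀ (m : ℕ) (κ : Fin R → ZMod b),
    wsum (EE ζ ρ θ j 0) (EE ζ ρ θ j 1) N m φ κ = w4_el (θ j) N m (κ j) *
      (ρ j ^ N * ζ ^ (N * ∑ i ∈ Finset.Iio j, (κ i).val) *
        φ (κ + Pi.single j (N : ZMod b))) := by
  induction N with
  | zero =>
    intro m κ
    cases m with
    | zero => simp [wsum, w4_el]
    | succ m => simp [wsum, w4_el]
  | succ N ih =>
    intro m κ
    have hκ : κ + Pi.single j 1 + Pi.single j (N : ZMod b) =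
        κ + Pi.single j ((N + 1 : ℕ) : ZMod b) := by
      rw [add_assoc, ← Pi.single_add, Nat.cast_succ, add_comm (1 : ZMod b)]
    cases m with
    | zero =>
      simp only [wsum, Module.End.mul_apply]
      rw [w4_EE_apply, ih, w4_sum_ge le_rfl, hκ, Pi.add_apply, Pi.single_eq_same]
      simp only [w4_co, if_true, w4_el]
      ring
    | succ m =>
      simp only [wsum, Module.End.mul_apply, LinearMap.add_apply, Pi.add_apply]
      rw [w4_EE_apply, w4_EE_apply, ih, ih, w4_sum_ge le_rfl, hκ, Pi.add_apply,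
        Pi.single_eq_same]
      have h10 : ¬ ((1 : Fin 2) = 0) := by decide
      simp only [w4_co, if_true, if_neg h10, w4_el]
      ring

theorem w4_coeff (f : ℕ → Ω) {m : ℕ} (hm : m ≤ b) :
    (∑ m ∈ Finset.range (b + 1), Polynomial.C (f m) * Polynomial.X ^ (b - m)).coeff (b - m) =
      f m := by
  rw [Polynomial.finsetSum_coeff, Finset.sum_eq_single m]
  · rw [Polynomial.coeff_C_mul_X_pow, if_pos rfl]
  · intro m' hm' hne
    rw [Finset.mem_range] at hm'
    rw [Polynomial.coeff_C_mul_X_pow, if_neg (by omega)]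
  · intro h
    exact absurd (Finset.mem_range.2 (by omega)) h

theorem w4_prod [NeZero b] {A : Type*} [CommMonoid A] (f : ZMod b → A) (t : ZMod b) :
    ∏ i ∈ Finset.range b, f (t + i) = ∏ i, f i := by
  refine Finset.prod_bij' (fun i _ => t + (i : ZMod b)) (fun x _ => (x - t).val) ?_ ?_ ?_ ?_ ?_
  · intro i _; exact Finset.mem_univ _
  · intro x _; exact Finset.mem_range.2 (ZMod.val_lt _)
  · intro i hi
    rw [add_sub_cancel_left, ZMod.val_cast_of_lt (Finset.mem_range.1 hi)]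
  · intro x _
    rw [ZMod.natCast_zmod_val, add_sub_cancel]
  · intro i _; rfl

theorem wsum_EE [NeZero b] {ζ : Ω} (hζ : ζ ^ b = 1) (ρ : Fin R → Ω) (θ : Fin R → ZMod b → Ω)
    (j : Fin R) (c : ℕ → Ω) (hρ : ρ j ^ b = c 0)
    (hc : ∑ m ∈ Finset.range (b + 1), Polynomial.C (c m) * Polynomial.X ^ (b - m) =
      Polynomial.C (c 0) * ∏ i, (Polynomial.X - Polynomial.C (θ j i))) {m : ℕ} (hm : m ≤ b) :
    wsum (EE ζ ρ θ j 0) (EE ζ ρ θ j 1) b m =
      algebraMap Ω (Module.End Ω ((Fin R → ZMod b) → Ω)) (c m) := by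
  have key : ∀ t : ZMod b, c m = c 0 * w4_el (θ j) b m t := by
    intro t
    rw [← w4_prod (fun i => (Polynomial.X - Polynomial.C (θ j i))) t, w4_el_gen,
      Finset.mul_sum] at hc
    have h1 := congrArg (fun q : Polynomial Ω => q.coeff (b - m)) hc
    rw [w4_coeff c hm] at h1
    have h2 : ∑ m ∈ Finset.range (b + 1), Polynomial.C (c 0) *
        (Polynomial.C (w4_el (θ j) b m t) * Polynomial.X ^ (b - m)) =
        ∑ m ∈ Finset.range (b + 1), Polynomial.C (c 0 * w4_el (θ j) b m t) *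
          Polynomial.X ^ (b - m) := by
      refine Finset.sum_congr rfl fun m _ => ?_
      rw [map_mul, mul_assoc]
    rw [h2, w4_coeff (fun m => c 0 * w4_el (θ j) b m t) hm] at h1
    exact h1
  refine LinearMap.ext fun φ => ?_
  funext κ
  rw [w4_wsum_apply, Module.algebraMap_end_apply, Pi.smul_apply, smul_eq_mul, key (κ j), hρ,
    pow_mul, hζ, one_pow, CharP.cast_eq_zero, Pi.single_zero, add_zero]
  ring

end Vale.Agent.P200.W
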