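import Vale.Agent.P200.W.Homot

/-!
The Euler characteristic relation for graded modules over the algebra with `(∑ E_a X_a)^b = ∑ y_k ψ_k`.

`P = K[y_0..y_(N-1)]`, `W` a finitely generated graded `P`-module (`y_k = X k` of degree `b`), `E a` of
degree one with `∑_{words of content α} E_word = ∑_k ψ_{k,α} y_k`.  Then for large `t` the sum
`∑_{i ≡ r mod b} a_i dim W_(t+i)` (`a_i = card (boxD b i)` = coefficient of `s^i` in
`(1 + ... + s^(b-1))^N`) does not depend on `r`.

Proof (compare `Q/Dom2.lean`, the case `b = 2`; `noeth_step`, `Vg`, `finrank_Vg` can be adapted).  Take the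
`HData`, `z = opm E X` on `σ → W`, `z^b = 0`, `∑_i z^i h_k z^(b-1-i) = y_k`.  If `z v = 0` then
`y_k v = z^(b-1) h_k v`; if `z^(b-1) v = 0` then `y_k v = z (∑_{i ≥ 1} z^(i-1) h_k z^(b-1-i) v)`.
Let `C_{c,j}` be the space of the families supported on `deg s = j` with values in `W_c`.  The kernels
of `z` and of `z^(b-1)` on `C_{c,j}` are stable under the `y_k`; since `σ → W` is a noetherian
`P`-module, for large `c` every element of the kernel is `∑ y_k v_k` with `v_k` in the kernel in degree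
`c - b`.  Hence for `c` large (all `j`): `ker (z | C_{c,j}) = z^(b-1) C_{c-b+1,j-b+1}` and
`ker (z^(b-1) | C_{c,j}) = z C_{c-1,j-1}` (the right sides are `0` if `j < b - 1`, resp. `j = 0`).
Put `C_j = C_{t+j,j}`, `k_j = dim ker z`, `l_j = dim ker z^(b-1)` on `C_j`.  Rank-nullity:
`dim C_j = k_j + l_(j+1)` and `dim C_j = l_j + k_(j+b-1)`; `l_0 = 0` and `k_j = 0` for `j < b-1`.
With `K_r = ∑_{j ≡ r} k_j`, `Λ_r = ∑_{j ≡ r} l_j`: `c_r := ∑_{j ≡ r} dim C_j = K_r + Λ_(r+1) = Λ_r + K_(r-1)`,
so `c_r = c_(r-1)`.  Finally `dim C_j = a_j dim W_(t+j)`.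
-/

namespace Vale.Agent.P200.W

open MvPolynomial Module
open Vale.Agent.P200.B Vale.Agent.P200.G Vale.Agent.P200.L Vale.Agent.P200.M Vale.Agent.P200.V

/-- the coefficients of `(1 + s + ... + s^(b-1))^N` -/
def bx (N b i : ℕ) : ℕ := (boxD (fun _ : Fin N => b) i).card

universe u v

section w8
variable {K : Type u} [Field K] {N b : ℕ}
variable {W : Type v} [AddCommGroup W] [Module K W] [Module (MvPolynomial (Fin N) K) W]
    [IsScalarTower K (MvPolynomial (Fin N) K) W]

/-- restriction of scalars as a ring homomorphism -/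
noncomputable def w8_res (K : Type u) [Field K] {N : ℕ} (W : Type v) [AddCommGroup W] [Module K W]
    [Module (MvPolynomial (Fin N) K) W] [IsScalarTower K (MvPolynomial (Fin N) K) W] :
    Module.End (MvPolynomial (Fin N) K) W →+* Module.End K W where
  toFun f := f.restrictScalars K
  map_one' := rfl
  map_mul' _ _ := rfl
  map_zero' := rfl
  map_add' _ _ := rfl

theorem w8_res_apply (f : Module.End (MvPolynomial (Fin N) K) W) (u : W) :
    w8_res K W f u = f u := rfl

theorem w8_csum (E : Fin N → Module.End (MvPolynomial (Fin N) K) W) (α : Fin N →₀ ℕ) :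
    csum b (fun a => w8_res K W (E a)) α = w8_res K W (csum b E α) := by
  unfold csum
  rw [map_sum]
  refine Finset.sum_congr rfl fun l _ => ?_
  rw [map_list_prod, List.map_ofFn]
  rfl

/-- multiplication by a variable -/
noncomputable def w8_y (K : Type u) [Field K] {N : ℕ} (W : Type v) [AddCommGroup W] [Module K W]
    [Module (MvPolynomial (Fin N) K) W] [IsScalarTower K (MvPolynomial (Fin N) K) W]
    (k : Fin N) : Module.End K W :=
  w8_res K W (algebraMap (MvPolynomial (Fin N) K) (Module.End (MvPolynomial (Fin N) K) W) (X k))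

theorem w8_y_apply (k : Fin N) (u : W) :
    w8_y K W k u = (X k : MvPolynomial (Fin N) K) • u := rfl

theorem w8_C (k : K) (x : W) : (MvPolynomial.C k : MvPolynomial (Fin N) K) • x = k • x := by
  rw [← MvPolynomial.algebraMap_eq, algebraMap_smul]

theorem w8_rel {ψ : Fin N → MvPolynomial (Fin N) K}
    (E : Fin N → Module.End (MvPolynomial (Fin N) K) W)
    (rel : ∀ α, csum b E α = algebraMap (MvPolynomial (Fin N) K)
      (Module.End (MvPolynomial (Fin N) K) W) (∑ k, C (coeff α (ψ k)) * X k)) (α : Fin N →₀ ℕ) :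
    csum b (fun a => w8_res K W (E a)) α = ∑ k, coeff α (ψ k) • w8_y K W k := by
  rw [w8_csum, rel]
  ext u
  rw [w8_res_apply, Module.algebraMap_end_apply, Finset.sum_smul, LinearMap.sum_apply]
  refine Finset.sum_congr rfl fun k _ => ?_
  rw [mul_smul, w8_C, LinearMap.smul_apply, w8_y_apply]

variable {σ : Type} [Fintype σ]

omit [Module (MvPolynomial (Fin N) K) W] [IsScalarTower K (MvPolynomial (Fin N) K) W] in
theorem w8_opm_apply (E : Fin N → Module.End K W) (Y : Fin N → Matrix σ σ K) (u : σ → W) (t : σ) :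
    opm E Y u t = ∑ a, ∑ s, Y a t s • E a (u s) := rfl

theorem w8_opm_X (E : Fin N → Module.End (MvPolynomial (Fin N) K) W) (Y : Fin N → Matrix σ σ K)
    (u : σ → W) (m : Fin N) :
    opm (fun a => w8_res K W (E a)) Y ((X m : MvPolynomial (Fin N) K) • u) =
      (X m : MvPolynomial (Fin N) K) • opm (fun a => w8_res K W (E a)) Y u := by
  ext t
  simp only [w8_opm_apply, Pi.smul_apply, Finset.smul_sum, w8_res_apply, map_smul]
  refine Finset.sum_congr rfl fun a _ => Finset.sum_congr rfl fun s _ => ?_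
  rw [smul_comm]

theorem w8_pow_X (E : Fin N → Module.End (MvPolynomial (Fin N) K) W) (Y : Fin N → Matrix σ σ K)
    (m : Fin N) (i : ℕ) : ∀ (u : σ → W),
    (opm (fun a => w8_res K W (E a)) Y ^ i) ((X m : MvPolynomial (Fin N) K) • u) =
      (X m : MvPolynomial (Fin N) K) • (opm (fun a => w8_res K W (E a)) Y ^ i) u := by
  induction i with
  | zero => intro u; rfl
  | succ i ih =>
    intro u
    rw [pow_succ, Module.End.mul_apply, Module.End.mul_apply, w8_opm_X, ih]

/-- the piece of degree `c` supported in degree `j` -/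
def w8V (deg : σ → ℕ) (M : ℕ → Submodule K W) (c j : ℕ) : Submodule K (σ → W) where
  carrier := {u | ∀ s, (deg s = j → u s ∈ M c) ∧ (deg s ≠ j → u s = 0)}
  add_mem' := by
    intro u v hu hv s
    exact ⟨fun h => (M c).add_mem ((hu s).1 h) ((hv s).1 h), fun h => by
      rw [Pi.add_apply, (hu s).2 h, (hv s).2 h, add_zero]⟩
  zero_mem' := by
    intro s
    exact ⟨fun h => (M c).zero_mem, fun h => rfl⟩
  smul_mem' := by
    intro k u hu s
    exact ⟨fun h => (M c).smul_mem k ((hu s).1 h), fun h => by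
      rw [Pi.smul_apply, (hu s).2 h, smul_zero]⟩

omit [Fintype σ] in
theorem w8V_apply_mem {deg : σ → ℕ} {M : ℕ → Submodule K W} {c j : ℕ} {u : σ → W}
    (hu : u ∈ w8V deg M c j) (s : σ) : u s ∈ M c := by
  by_cases h : deg s = j
  · exact (hu s).1 h
  · rw [(hu s).2 h]; exact (M c).zero_mem

/-- linear equivalence of `w8V` with a power of `M c` -/
def w8VEquiv (deg : σ → ℕ) (M : ℕ → Submodule K W) (c j : ℕ) :
    w8V deg M c j ≃ₗ[K] ({s : σ // deg s = j} → M c) where
  toFun u s := ⟨u.1 s.1, (u.2 s.1).1 s.2⟩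
  map_add' u v := by ext s; rfl
  map_smul' k u := by ext s; rfl
  invFun f := ⟨fun s => if h : deg s = j then (f ⟨s, h⟩ : W) else 0, fun s => by
    refine ⟨fun h => ?_, fun h => ?_⟩
    · simp only [h, dif_pos]; exact (f _).2
    · simp only [h, dif_neg, not_false_iff]⟩
  left_inv u := by
    ext s
    by_cases h : deg s = j
    · simp [h]
    · simp [h, (u.2 s).2 h]
  right_inv f := by
    ext s
    simp [s.2]

theorem w8_finrank_V (deg : σ → ℕ) (M : ℕ → Submodule K W) (c j : ℕ)
    (hfin : FiniteDimensional K (M c)) :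
    Module.finrank K (w8V deg M c j) =
      (Finset.univ.filter fun s => deg s = j).card * Module.finrank K (M c) := by
  rw [(w8VEquiv deg M c j).finrank_eq, Module.finrank_pi_fintype]
  simp only [Finset.sum_const, Finset.card_univ, smul_eq_mul]
  rw [Fintype.card_subtype]

theorem w8_finite_V (deg : σ → ℕ) (M : ℕ → Submodule K W) (c j : ℕ)
    (hfin : FiniteDimensional K (M c)) : FiniteDimensional K (w8V deg M c j) :=
  LinearEquiv.finiteDimensional (w8VEquiv deg M c j).symm

omit [IsScalarTower K (MvPolynomial (Fin N) K) W] in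
theorem w8_X_mem {deg : σ → ℕ} {M : ℕ → Submodule K W}
    (hy : ∀ k c u, u ∈ M c → (X k : MvPolynomial (Fin N) K) • u ∈ M (c + b))
    (m : Fin N) {c j : ℕ} {u : σ → W} (hu : u ∈ w8V deg M c j) :
    (X m : MvPolynomial (Fin N) K) • u ∈ w8V deg M (c + b) j := by
  intro t
  refine ⟨fun _ => ?_, fun ht => ?_⟩
  · exact hy m c _ (w8V_apply_mem hu t)
  · rw [Pi.smul_apply, (hu t).2 ht, smul_zero]

theorem w8_d_mem {deg : σ → ℕ} {M : ℕ → Submodule K W} {E : Fin N → Module.End K W}
    {Y : Fin N → Matrix σ σ K} (hY : ∀ a t s, Y a t s ≠ 0 → deg t = deg s + 1)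
    (hE : ∀ a c u, u ∈ M c → E a u ∈ M (c + 1)) {c j : ℕ} {u : σ → W}
    (hu : u ∈ w8V deg M c j) : opm E Y u ∈ w8V deg M (c + 1) (j + 1) := by
  intro t
  refine ⟨fun _ => ?_, fun ht => ?_⟩
  · rw [w8_opm_apply]
    exact Submodule.sum_mem _ fun a _ => Submodule.sum_mem _ fun s _ =>
      (M _).smul_mem _ (hE a c _ (w8V_apply_mem hu s))
  · rw [w8_opm_apply]
    refine Finset.sum_eq_zero fun a _ => Finset.sum_eq_zero fun s _ => ?_
    by_cases hX : Y a t s = 0
    · rw [hX, zero_smul]
    · have h1 := hY a t s hX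
      have h2 : deg s ≠ j := by
        intro h; apply ht; rw [h1, h]
      rw [(hu s).2 h2, map_zero, smul_zero]

theorem w8_dpow_mem {deg : σ → ℕ} {M : ℕ → Submodule K W} {E : Fin N → Module.End K W}
    {Y : Fin N → Matrix σ σ K} (hY : ∀ a t s, Y a t s ≠ 0 → deg t = deg s + 1)
    (hE : ∀ a c u, u ∈ M c → E a u ∈ M (c + 1)) (i : ℕ) : ∀ {c j : ℕ} {u : σ → W}
    (_ : u ∈ w8V deg M c j), (opm E Y ^ i) u ∈ w8V deg M (c + i) (j + i) := by
  induction i with
  | zero => intro c j u hu; exact hu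
  | succ i ih =>
    intro c j u hu
    rw [pow_succ, Module.End.mul_apply]
    have h := ih (w8_d_mem hY hE hu)
    have e1 : c + 1 + i = c + (i + 1) := by omega
    have e2 : j + 1 + i = j + (i + 1) := by omega
    rwa [e1, e2] at h

theorem w8_s_mem {deg : σ → ℕ} {M : ℕ → Submodule K W} {E : Fin N → Module.End K W}
    {Y : Fin N → Matrix σ σ K} (hY : ∀ a t s, Y a t s ≠ 0 → deg t + b = deg s + 1)
    (hE : ∀ a c u, u ∈ M c → E a u ∈ M (c + 1)) {c j : ℕ} {u : σ → W}
    (hu : u ∈ w8V deg M c j) : opm E Y u ∈ w8V deg M (c + 1) (j + 1 - b) := by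
  intro t
  refine ⟨fun _ => ?_, fun ht => ?_⟩
  · rw [w8_opm_apply]
    exact Submodule.sum_mem _ fun a _ => Submodule.sum_mem _ fun s _ =>
      (M _).smul_mem _ (hE a c _ (w8V_apply_mem hu s))
  · rw [w8_opm_apply]
    refine Finset.sum_eq_zero fun a _ => Finset.sum_eq_zero fun s _ => ?_
    by_cases hX : Y a t s = 0
    · rw [hX, zero_smul]
    · have h1 := hY a t s hX
      have h2 : deg s ≠ j := by
        intro h; apply ht; omega
      rw [(hu s).2 h2, map_zero, smul_zero]

theorem w8_s_zero {deg : σ → ℕ} {M : ℕ → Submodule K W} {E : Fin N → Module.End K W}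
    {Y : Fin N → Matrix σ σ K} (hY : ∀ a t s, Y a t s ≠ 0 → deg t + b = deg s + 1)
    {c j : ℕ} (hj : j + 1 < b) {u : σ → W}
    (hu : u ∈ w8V deg M c j) : opm E Y u = 0 := by
  ext t
  rw [w8_opm_apply]
  refine Finset.sum_eq_zero fun a _ => Finset.sum_eq_zero fun s _ => ?_
  by_cases hX : Y a t s = 0
  · rw [hX, zero_smul]
  · have h1 := hY a t s hX
    have h2 : deg s ≠ j := by omega
    rw [(hu s).2 h2, map_zero, smul_zero]

theorem w8_noeth (hb : 1 ≤ b) [IsNoetherian (MvPolynomial (Fin N) K) W]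
    (gr : ℕ → Submodule K W) (pr : ℕ → W →ₗ[K] W)
    (pr_self : ∀ c u, u ∈ gr c → pr c u = u) (pr_ne : ∀ c c' u, u ∈ gr c' → c' ≠ c → pr c u = 0)
    (pr_y : ∀ c k u, pr (c + b) ((X k : MvPolynomial (Fin N) K) • u) =
      (X k : MvPolynomial (Fin N) K) • pr c u)
    (pr_y0 : ∀ c k u, c < b → pr c ((X k : MvPolynomial (Fin N) K) • u) = 0)
    (Z : ℕ → Submodule K (σ → W)) (hZ : ∀ c u, u ∈ Z c → ∀ s, u s ∈ gr c)
    (hyZ : ∀ m c u, u ∈ Z c → (X m : MvPolynomial (Fin N) K) • u ∈ Z (c + b)) :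
    ∃ n, ∀ c, n ≤ c → ∀ z ∈ Z (c + b), ∃ w : Fin N → (σ → W), (∀ m, w m ∈ Z c) ∧
      z = ∑ m, (X m : MvPolynomial (Fin N) K) • w m := by
  classical
  let Y : ℕ →o Submodule (MvPolynomial (Fin N) K) (σ → W) :=
    ⟨fun n => Submodule.span _ (⋃ c ∈ Set.Iic n, (Z c : Set (σ → W))), by
      intro n m hnm
      apply Submodule.span_mono
      apply Set.biUnion_subset_biUnion_left
      exact Set.Iic_subset_Iic.2 hnm⟩
  obtain ⟨n, hn⟩ := monotone_stabilizes_iff_noetherian.2
    (inferInstance : IsNoetherian (MvPolynomial (Fin N) K) (σ → W)) Y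
  refine ⟨n, ?_⟩
  let S : Set (σ → W) := {u | (∀ c, (fun s => pr c (u s)) ∈ Z c) ∧ ∀ c, n ≤ c →
        ∃ w : Fin N → (σ → W), (∀ m, w m ∈ Z c) ∧
          (fun s => pr (c + b) (u s)) = ∑ m, (X m : MvPolynomial (Fin N) K) • w m}
  have hSadd : ∀ u v, u ∈ S → v ∈ S → u + v ∈ S := by
    intro u v hu hv
    refine ⟨fun c => ?_, fun c hc => ?_⟩
    · have := (Z c).add_mem (hu.1 c) (hv.1 c)
      convert this using 1
      ext s; simp
    · obtain ⟨w, hw, hw'⟩ := hu.2 c hc
      obtain ⟨w', hw1, hw1'⟩ := hv.2 c hc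
      refine ⟨w + w', fun m => (Z c).add_mem (hw m) (hw1 m), ?_⟩
      have : (fun s => pr (c + b) ((u + v) s)) =
        (fun s => pr (c + b) (u s)) + (fun s => pr (c + b) (v s)) := by
        ext s; simp
      rw [this, hw', hw1', ← Finset.sum_add_distrib]
      simp [smul_add]
  have hSK : ∀ (k : K) u, u ∈ S → (MvPolynomial.C k : MvPolynomial (Fin N) K) • u ∈ S := by
    intro k u hu
    refine ⟨fun c => ?_, fun c hc => ?_⟩
    · have := (Z c).smul_mem k (hu.1 c)
      convert this using 1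
      ext s; simp [w8_C]
    · obtain ⟨w, hw, hw'⟩ := hu.2 c hc
      refine ⟨k • w, fun m => (Z c).smul_mem k (hw m), ?_⟩
      have : (fun s => pr (c + b) (((MvPolynomial.C k : MvPolynomial (Fin N) K) • u) s)) =
        k • (fun s => pr (c + b) (u s)) := by
        ext s; simp [w8_C]
      rw [this, hw', Finset.smul_sum]
      refine Finset.sum_congr rfl fun m _ => ?_
      rw [Pi.smul_apply, smul_comm]
  have hSX : ∀ (m : Fin N) u, u ∈ S → (X m : MvPolynomial (Fin N) K) • u ∈ S := by
    intro m u hu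
    refine ⟨fun c => ?_, fun c hc => ?_⟩
    · by_cases hc : c < b
      · have : (fun s => pr c (((X m : MvPolynomial (Fin N) K) • u) s)) = 0 := by
          ext s
          rw [Pi.smul_apply, pr_y0 c m _ hc]; rfl
        rw [this]; exact (Z c).zero_mem
      · obtain ⟨c', rfl⟩ : ∃ c', c = c' + b := ⟨c - b, by omega⟩
        have : (fun s => pr (c' + b) (((X m : MvPolynomial (Fin N) K) • u) s)) =
            (X m : MvPolynomial (Fin N) K) • (fun s => pr c' (u s)) := by
          ext s
          rw [Pi.smul_apply, pr_y c' m _]; rfl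
        rw [this]; exact hyZ m c' _ (hu.1 c')
    · refine ⟨Pi.single m (fun s => pr c (u s)), fun m' => ?_, ?_⟩
      · by_cases h : m' = m
        · subst h
          rw [Pi.single_eq_same]; exact hu.1 c
        · rw [Pi.single_eq_of_ne h]; exact (Z c).zero_mem
      · rw [Finset.sum_eq_single m]
        · ext s
          rw [Pi.single_eq_same, Pi.smul_apply, pr_y c m _]; rfl
        · intro b _ hb
          rw [Pi.single_eq_of_ne hb, smul_zero]
        · simp
  let T : Submodule (MvPolynomial (Fin N) K) (σ → W) :=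
    { carrier := S
      add_mem' := fun {u v} hu hv => hSadd u v hu hv
      zero_mem' := by
        refine ⟨fun c => ?_, fun c hc => ⟨0, fun m => (Z c).zero_mem, ?_⟩⟩
        · have : (fun s => pr c ((0 : σ → W) s)) = 0 := by ext s; simp
          rw [this]; exact (Z c).zero_mem
        · ext s; simp
      smul_mem' := by
        intro p
        induction p using MvPolynomial.induction_on with
        | C k => exact fun {u} hu => hSK k u hu
        | add p q hp hq =>
          intro u hu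
          rw [add_smul]
          exact hSadd _ _ (hp hu) (hq hu)
        | mul_X p m hp =>
          intro u hu
          rw [mul_smul]
          exact hp (hSX m u hu) }
  intro c hc z hz
  have hT : Y n ≤ T := by
    apply Submodule.span_le.2
    intro u hu
    simp only [Set.mem_iUnion] at hu
    obtain ⟨c', hc', hu⟩ := hu
    have hne : ∀ c, c' ≠ c → (fun s => pr c (u s)) = 0 := by
      intro c hne
      ext s
      exact pr_ne c c' _ (hZ c' u hu s) hne
    refine ⟨fun c => ?_, fun c hc => ?_⟩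
    · by_cases h : c' = c
      · subst h
        have : (fun s => pr c' (u s)) = u := by
          ext s
          exact pr_self c' _ (hZ c' u hu s)
        rw [this]; exact hu
      · rw [hne c h]; exact (Z c).zero_mem
    · refine ⟨0, fun m => (Z c).zero_mem, ?_⟩
      rw [hne (c + b) (by have : c' ≤ n := hc'; omega)]
      simp
  have hz1 : z ∈ Y (c + b) := Submodule.subset_span (by
    simp only [Set.mem_iUnion]
    exact ⟨c + b, Set.mem_Iic.2 (le_refl _), hz⟩)
  rw [← hn (c + b) (by omega)] at hz1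
  obtain ⟨w, hw, hw'⟩ := (hT hz1).2 c hc
  refine ⟨w, hw, ?_⟩
  rw [← hw']
  ext s
  exact (pr_self _ _ (hZ _ _ hz s)).symm

theorem w8_rank {U : Type*} [AddCommGroup U] [Module K U] (f : U →ₗ[K] U) (S T : Submodule K U)
    [FiniteDimensional K S] (h1 : ∀ u ∈ S, f u ∈ T) (h2 : ∀ z ∈ T, ∃ u ∈ S, z = f u) :
    Module.finrank K S =
      Module.finrank K (S ⊓ LinearMap.ker f : Submodule K U) + Module.finrank K T := by
  have e1 := LinearMap.finrank_range_add_finrank_ker (f.domRestrict S)
  have e2 : LinearMap.range (f.domRestrict S) = T := by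
    ext x
    constructor
    · rintro ⟨u, rfl⟩
      exact h1 u.1 u.2
    · intro hx
      obtain ⟨u, hu, rfl⟩ := h2 x hx
      exact ⟨⟨u, hu⟩, rfl⟩
  have e3 : Module.finrank K (LinearMap.ker (f.domRestrict S)) =
      Module.finrank K (S ⊓ LinearMap.ker f : Submodule K U) := by
    rw [LinearMap.ker_domRestrict, ← Submodule.map_comap_subtype]
    exact (Submodule.equivSubtypeMap _ _).finrank_eq
  rw [← e1, e2, e3, add_comm]

/-- sums over a residue class -/
theorem w8_sum_mod (hb : 1 ≤ b) (D : ℕ → ℤ) (L Q r : ℕ) (hr : r < b) (hL : L ≤ b * Q)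
    (hD : ∀ i, L ≤ i → D i = 0) :
    ∑ i ∈ (Finset.range L).filter (fun i => i % b = r), D i =
      ∑ q ∈ Finset.range Q, D (b * q + r) := by
  have h1 : ∑ i ∈ (Finset.range L).filter (fun i => i % b = r), D i =
      ∑ i ∈ (Finset.range (b * Q)).filter (fun i => i % b = r), D i := by
    apply Finset.sum_subset
    · intro i hi
      rw [Finset.mem_filter, Finset.mem_range] at hi ⊢
      exact ⟨by omega, hi.2⟩
    · intro i hi hi'
      rw [Finset.mem_filter, Finset.mem_range] at hi hi'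
      apply hD
      by_contra h
      exact hi' ⟨by omega, hi.2⟩
  rw [h1]
  refine Finset.sum_nbij' (fun i => i / b) (fun q => b * q + r) ?_ ?_ ?_ ?_ ?_
  · intro i hi
    rw [Finset.mem_filter, Finset.mem_range] at hi
    rw [Finset.mem_range]
    exact Nat.div_lt_of_lt_mul hi.1
  · intro q hq
    rw [Finset.mem_range] at hq
    rw [Finset.mem_filter, Finset.mem_range]
    refine ⟨?_, ?_⟩
    · calc b * q + r < b * q + b := by omega
        _ = b * (q + 1) := by ring
        _ ≤ b * Q := Nat.mul_le_mul_left b hq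
    · rw [Nat.mul_add_mod]
      exact Nat.mod_eq_of_lt hr
  · intro i hi
    rw [Finset.mem_filter, Finset.mem_range] at hi
    show b * (i / b) + r = i
    rw [← hi.2]
    exact Nat.div_add_mod i b
  · intro q _
    show (b * q + r) / b = q
    rw [Nat.mul_add_div (by omega), Nat.div_eq_of_lt hr, add_zero]
  · intro i hi
    rw [Finset.mem_filter, Finset.mem_range] at hi
    show D i = D (b * (i / b) + r)
    rw [← hi.2, Nat.div_add_mod]

/-- the telescoping of the residue classes -/
theorem w8_telescope (hb : 1 ≤ b) (D k l : ℕ → ℤ) (Q : ℕ)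
    (hA : ∀ j, j < b * Q → D j = k j + l (j + 1))
    (hB : ∀ j, j < b * Q → D j = l j + k (j + (b - 1)))
    (hk0 : ∀ j, j + 1 < b → k j = 0) (hkQ : ∀ j, b * Q ≤ j → j < b * Q + b → k j = 0)
    (r : ℕ) (hr : r < b) :
    ∑ q ∈ Finset.range Q, D (b * q + r) = ∑ q ∈ Finset.range Q, D (b * q) := by
  induction r with
  | zero => rfl
  | succ r ih =>
    rw [← ih (by omega)]
    have hlt : ∀ q ∈ Finset.range Q, ∀ x, x < b → b * q + x < b * Q := by
      intro q hq x hx
      rw [Finset.mem_range] at hq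
      calc b * q + x < b * q + b := by omega
        _ = b * (q + 1) := by ring
        _ ≤ b * Q := Nat.mul_le_mul_left b hq
    have h1 : ∑ q ∈ Finset.range Q, D (b * q + (r + 1)) =
        ∑ q ∈ Finset.range Q, (l (b * q + (r + 1)) + k (b * (q + 1) + r)) := by
      refine Finset.sum_congr rfl fun q hq => ?_
      rw [hB _ (hlt q hq (r + 1) hr)]
      have e : b * q + (r + 1) + (b - 1) = b * (q + 1) + r := by
        rw [Nat.mul_add, mul_one]
        omega
      rw [e]
    have h2 : ∑ q ∈ Finset.range Q, D (b * q + r) =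
        ∑ q ∈ Finset.range Q, (k (b * q + r) + l (b * q + (r + 1))) := by
      refine Finset.sum_congr rfl fun q hq => ?_
      rw [hA _ (hlt q hq r (by omega))]
      rfl
    rw [h1, h2, Finset.sum_add_distrib, Finset.sum_add_distrib, add_comm]
    congr 1
    have h3 := Finset.sum_range_succ (fun q => k (b * q + r)) Q
    have h4 := Finset.sum_range_succ' (fun q => k (b * q + r)) Q
    have h5 : k (b * Q + r) = 0 := hkQ _ (by omega) (by omega)
    have h6 : k (b * 0 + r) = 0 := by
      rw [mul_zero, zero_add]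
      exact hk0 r hr
    rw [h5, add_zero] at h3
    rw [h6, add_zero] at h4
    rw [← h3, ← h4]

theorem w8_bx_zero (i : ℕ) (hi : N * (b - 1) < i) : bx N b i = 0 := by
  unfold bx
  rw [Finset.card_eq_zero, Finset.eq_empty_iff_forall_notMem]
  intro m hm
  unfold boxD at hm
  rw [Finset.mem_filter, Fintype.mem_piFinset] at hm
  have h1 : ∑ i, m i ≤ ∑ _i : Fin N, (b - 1) := by
    refine Finset.sum_le_sum fun i _ => ?_
    have h2 : m i < b := Finset.mem_range.1 (hm.1 i)
    omega
  rw [Finset.sum_const, Finset.card_univ, Fintype.card_fin, smul_eq_mul, hm.2] at h1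
  omega

end w8

section w8b
variable {K : Type u} [Field K] {N b : ℕ}
variable {W : Type v} [AddCommGroup W] [Module K W] [Module (MvPolynomial (Fin N) K) W]
    [IsScalarTower K (MvPolynomial (Fin N) K) W]
    {ψ : Fin N → MvPolynomial (Fin N) K}

theorem w8_comm (E : Fin N → Module.End (MvPolynomial (Fin N) K) W) (k a : Fin N) :
    w8_y K W k * w8_res K W (E a) = w8_res K W (E a) * w8_y K W k := by
  ext u
  show (X k : MvPolynomial (Fin N) K) • E a u = E a ((X k : MvPolynomial (Fin N) K) • u)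
  rw [map_smul]

theorem w8_comm' (k l : Fin N) : w8_y K W k * w8_y K W l = w8_y K W l * w8_y K W k := by
  ext u
  show (X k : MvPolynomial (Fin N) K) • (X l : MvPolynomial (Fin N) K) • u =
    (X l : MvPolynomial (Fin N) K) • (X k : MvPolynomial (Fin N) K) • u
  rw [smul_comm]

theorem w8_pow (A : HData.{u, v} b ψ) (E : Fin N → Module.End (MvPolynomial (Fin N) K) W)
    (rel : ∀ α, csum b E α = algebraMap (MvPolynomial (Fin N) K)
      (Module.End (MvPolynomial (Fin N) K) W) (∑ k, C (coeff α (ψ k)) * X k)) :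
    opm (fun a => w8_res K W (E a)) A.X ^ b = 0 :=
  A.pow W (fun a => w8_res K W (E a)) (w8_y K W) (w8_comm E) w8_comm' (w8_rel E rel)

theorem w8_htpy (A : HData.{u, v} b ψ) (E : Fin N → Module.End (MvPolynomial (Fin N) K) W)
    (rel : ∀ α, csum b E α = algebraMap (MvPolynomial (Fin N) K)
      (Module.End (MvPolynomial (Fin N) K) W) (∑ k, C (coeff α (ψ k)) * X k))
    (k : Fin N) (u : A.σ → W) :
    (X k : MvPolynomial (Fin N) K) • u = ∑ i ∈ Finset.range b,
      (opm (fun a => w8_res K W (E a)) A.X ^ i) (opm (fun a => w8_res K W (E a)) (A.h k)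
        ((opm (fun a => w8_res K W (E a)) A.X ^ (b - 1 - i)) u)) := by
  have h := A.htpy W (fun a => w8_res K W (E a)) (w8_y K W) (w8_comm E) w8_comm' (w8_rel E rel) k
  have h2 := LinearMap.congr_fun h u
  rw [LinearMap.sum_apply] at h2
  have h3 : opd A.σ (w8_y K W k) u = (X k : MvPolynomial (Fin N) K) • u := rfl
  rw [← h3, ← h2]
  rfl

variable [IsNoetherian (MvPolynomial (Fin N) K) W]

theorem w8_core1 (hb : 2 ≤ b)
    (gr : ℕ → Submodule K W) (pr : ℕ → W →ₗ[K] W)
    (pr_self : ∀ c u, u ∈ gr c → pr c u = u) (pr_ne : ∀ c c' u, u ∈ gr c' → c' ≠ c → pr c u = 0)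
    (pr_y : ∀ c k u, pr (c + b) ((X k : MvPolynomial (Fin N) K) • u) =
      (X k : MvPolynomial (Fin N) K) • pr c u)
    (pr_y0 : ∀ c k u, c < b → pr c ((X k : MvPolynomial (Fin N) K) • u) = 0)
    (A : HData.{u, v} b ψ) (E : Fin N → Module.End (MvPolynomial (Fin N) K) W)
    (hE : ∀ a c u, u ∈ gr c → E a u ∈ gr (c + 1))
    (hy : ∀ k c u, u ∈ gr c → (X k : MvPolynomial (Fin N) K) • u ∈ gr (c + b))
    (rel : ∀ α, csum b E α = algebraMap (MvPolynomial (Fin N) K)
      (Module.End (MvPolynomial (Fin N) K) W) (∑ k, C (coeff α (ψ k)) * X k)) (j : ℕ) :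
    ∃ n, ∀ c, n ≤ c → ∀ z ∈ w8V A.deg gr (c + b) j,
      opm (fun a => w8_res K W (E a)) A.X z = 0 →
      (j + 1 < b → z = 0) ∧ (b ≤ j + 1 → ∃ u ∈ w8V A.deg gr (c + 1) (j + 1 - b),
        z = (opm (fun a => w8_res K W (E a)) A.X ^ (b - 1)) u) := by
  obtain ⟨n, hn⟩ := w8_noeth (by omega) gr pr pr_self pr_ne pr_y pr_y0
    (fun c => w8V A.deg gr c j ⊓ LinearMap.ker (opm (fun a => w8_res K W (E a)) A.X))
    (fun c u hu s => w8V_apply_mem hu.1 s)
    (fun m c u hu => ⟨w8_X_mem hy m hu.1, by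
      have h := LinearMap.mem_ker.1 hu.2
      show opm (fun a => w8_res K W (E a)) A.X _ = 0
      rw [w8_opm_X, h, smul_zero]⟩)
  refine ⟨n, fun c hc z hz hz0 => ?_⟩
  obtain ⟨w, hw, hw'⟩ := hn c hc z ⟨hz, hz0⟩
  have key : ∀ m, (X m : MvPolynomial (Fin N) K) • w m =
      (opm (fun a => w8_res K W (E a)) A.X ^ (b - 1))
        (opm (fun a => w8_res K W (E a)) (A.h m) (w m)) := by
    intro m
    have h0 : opm (fun a => w8_res K W (E a)) A.X (w m) = 0 := LinearMap.mem_ker.1 (hw m).2
    rw [w8_htpy A E rel m (w m), Finset.sum_eq_single (b - 1)]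
    · rw [Nat.sub_self, pow_zero]
      rfl
    · intro i hi hib
      rw [Finset.mem_range] at hi
      obtain ⟨s, hs⟩ : ∃ s, b - 1 - i = s + 1 := ⟨b - 1 - i - 1, by omega⟩
      rw [hs, pow_succ, Module.End.mul_apply, h0, map_zero, map_zero, map_zero]
    · intro h
      exact absurd (Finset.mem_range.2 (by omega)) h
  constructor
  · intro hj
    rw [hw']
    refine Finset.sum_eq_zero fun m _ => ?_
    rw [key m, w8_s_zero (A.h_deg m) hj (hw m).1, map_zero]
  · intro hj
    refine ⟨∑ m, opm (fun a => w8_res K W (E a)) (A.h m) (w m),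
      Submodule.sum_mem _ fun m _ => w8_s_mem (A.h_deg m) hE (hw m).1, ?_⟩
    rw [hw', map_sum]
    exact Finset.sum_congr rfl fun m _ => key m

theorem w8_core2 (hb : 2 ≤ b)
    (gr : ℕ → Submodule K W) (pr : ℕ → W →ₗ[K] W)
    (pr_self : ∀ c u, u ∈ gr c → pr c u = u) (pr_ne : ∀ c c' u, u ∈ gr c' → c' ≠ c → pr c u = 0)
    (pr_y : ∀ c k u, pr (c + b) ((X k : MvPolynomial (Fin N) K) • u) =
      (X k : MvPolynomial (Fin N) K) • pr c u)
    (pr_y0 : ∀ c k u, c < b → pr c ((X k : MvPolynomial (Fin N) K) • u) = 0)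
    (A : HData.{u, v} b ψ) (E : Fin N → Module.End (MvPolynomial (Fin N) K) W)
    (hE : ∀ a c u, u ∈ gr c → E a u ∈ gr (c + 1))
    (hy : ∀ k c u, u ∈ gr c → (X k : MvPolynomial (Fin N) K) • u ∈ gr (c + b))
    (rel : ∀ α, csum b E α = algebraMap (MvPolynomial (Fin N) K)
      (Module.End (MvPolynomial (Fin N) K) W) (∑ k, C (coeff α (ψ k)) * X k)) (j : ℕ) :
    ∃ n, ∀ c, n ≤ c → ∀ z ∈ w8V A.deg gr (c + b) (j + 1),
      (opm (fun a => w8_res K W (E a)) A.X ^ (b - 1)) z = 0 →
      ∃ u ∈ w8V A.deg gr (c + b - 1) j, z = opm (fun a => w8_res K W (E a)) A.X u := by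
  obtain ⟨n, hn⟩ := w8_noeth (by omega) gr pr pr_self pr_ne pr_y pr_y0
    (fun c => w8V A.deg gr c (j + 1) ⊓
      LinearMap.ker (opm (fun a => w8_res K W (E a)) A.X ^ (b - 1)))
    (fun c u hu s => w8V_apply_mem hu.1 s)
    (fun m c u hu => ⟨w8_X_mem hy m hu.1, by
      have h := LinearMap.mem_ker.1 hu.2
      show (opm (fun a => w8_res K W (E a)) A.X ^ (b - 1)) _ = 0
      rw [w8_pow_X, h, smul_zero]⟩)
  refine ⟨n, fun c hc z hz hz0 => ?_⟩
  obtain ⟨w, hw, hw'⟩ := hn c hc z ⟨hz, hz0⟩
  obtain ⟨d, rfl⟩ : ∃ d, b = d + 2 := ⟨b - 2, by omega⟩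
  have key : ∀ m, ∃ u ∈ w8V A.deg gr (c + (d + 2) - 1) j,
      (X m : MvPolynomial (Fin N) K) • w m = opm (fun a => w8_res K W (E a)) A.X u := by
    intro m
    have h0 : (opm (fun a => w8_res K W (E a)) A.X ^ (d + 2 - 1)) (w m) = 0 :=
      LinearMap.mem_ker.1 (hw m).2
    refine ⟨∑ i ∈ Finset.range (d + 1), (opm (fun a => w8_res K W (E a)) A.X ^ i)
      (opm (fun a => w8_res K W (E a)) (A.h m)
        ((opm (fun a => w8_res K W (E a)) A.X ^ (d + 2 - 1 - (i + 1))) (w m))),
      Submodule.sum_mem _ fun i hi => ?_, ?_⟩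
    · rw [Finset.mem_range] at hi
      have m1 := w8_dpow_mem (E := fun a => w8_res K W (E a)) A.X_deg hE (d + 2 - 1 - (i + 1))
        (hw m).1
      by_cases hij : i ≤ j
      · have m2 := w8_s_mem (E := fun a => w8_res K W (E a)) (A.h_deg m) hE m1
        have m3 := w8_dpow_mem (E := fun a => w8_res K W (E a)) A.X_deg hE i m2
        have e1 : c + (d + 2 - 1 - (i + 1)) + 1 + i = c + (d + 2) - 1 := by omega
        have e2 : j + 1 + (d + 2 - 1 - (i + 1)) + 1 - (d + 2) + i = j := by omega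
        rwa [e1, e2] at m3
      · rw [w8_s_zero (E := fun a => w8_res K W (E a)) (A.h_deg m) (by omega) m1, map_zero]
        exact Submodule.zero_mem _
    · rw [w8_htpy A E rel m (w m), Finset.sum_range_succ', map_sum]
      have e0 : (opm (fun a => w8_res K W (E a)) A.X ^ (d + 2 - 1 - 0)) (w m) = 0 := h0
      rw [e0, map_zero, map_zero, add_zero]
      refine Finset.sum_congr rfl fun i _ => ?_
      rw [pow_succ', Module.End.mul_apply]
  choose u hu hu' using key
  refine ⟨∑ m, u m, Submodule.sum_mem _ fun m _ => hu m, ?_⟩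
  rw [hw', map_sum]
  exact Finset.sum_congr rfl fun m _ => hu' m

end w8b

theorem strand {K : Type*} [Field K] {N b : ℕ} (hb : 2 ≤ b)
    (ψ : Fin N → MvPolynomial (Fin N) K)
    (hψ : ∀ k, (ψ k).IsHomogeneous b) (hm : IsMPrimary (Ideal.span (Set.range ψ)))
    {W : Type*} [AddCommGroup W] [Module K W] [Module (MvPolynomial (Fin N) K) W]
    [IsScalarTower K (MvPolynomial (Fin N) K) W] [Module.Finite (MvPolynomial (Fin N) K) W]
    (gr : ℕ → Submodule K W) (pr : ℕ → W →ₗ[K] W)
    (pr_self : ∀ c u, u ∈ gr c → pr c u = u) (pr_ne : ∀ c c' u, u ∈ gr c' → c' ≠ c → pr c u = 0)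
    (pr_mem : ∀ c u, pr c u ∈ gr c)
    (pr_y : ∀ c k u, pr (c + b) ((X k : MvPolynomial (Fin N) K) • u) =
      (X k : MvPolynomial (Fin N) K) • pr c u)
    (pr_y0 : ∀ c k u, c < b → pr c ((X k : MvPolynomial (Fin N) K) • u) = 0)
    (hfin : ∀ c, FiniteDimensional K (gr c))
    (E : Fin N → Module.End (MvPolynomial (Fin N) K) W)
    (hE : ∀ a c u, u ∈ gr c → E a u ∈ gr (c + 1))
    (hy : ∀ k c u, u ∈ gr c → (X k : MvPolynomial (Fin N) K) • u ∈ gr (c + b))
    (rel : ∀ α, csum b E α = algebraMap (MvPolynomial (Fin N) K)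
      (Module.End (MvPolynomial (Fin N) K) W) (∑ k, C (coeff α (ψ k)) * X k)) :
    ∃ t0, ∀ t, t0 ≤ t → ∀ r,
      ∑ i ∈ (Finset.range (N * (b - 1) + 1)).filter (fun i => i % b = r % b),
        (bx N b i : ℤ) * (finrank K (gr (t + i)) : ℤ) =
      ∑ i ∈ (Finset.range (N * (b - 1) + 1)).filter (fun i => i % b = 0),
        (bx N b i : ℤ) * (finrank K (gr (t + i)) : ℤ) := by
  classical
  obtain ⟨A⟩ := exists_homotopy hb ψ hψ hm
  have : IsNoetherian (MvPolynomial (Fin N) K) W :=
    isNoetherian_of_isNoetherianRing_of_finite _ _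
  choose n1 hn1 using w8_core1 hb gr pr pr_self pr_ne pr_y pr_y0 A E hE hy rel
  choose n2 hn2 using w8_core2 hb gr pr pr_self pr_ne pr_y pr_y0 A E hE hy rel
  set Q := N * (b - 1) + 1 with hQ
  refine ⟨(Finset.range (b * Q + b + b)).sup n1 + (Finset.range (b * Q + b + b)).sup n2 + b + 1,
    fun t ht r => ?_⟩
  have hle1 : ∀ j, j < b * Q + b + b → n1 j + b + 1 ≤ t := by
    intro j hj
    have := Finset.le_sup (f := n1) (Finset.mem_range.2 hj)
    omega
  have hle2 : ∀ j, j < b * Q + b + b → n2 j + b + 1 ≤ t := by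
    intro j hj
    have := Finset.le_sup (f := n2) (Finset.mem_range.2 hj)
    omega
  have hbQ : N * (b - 1) + 1 ≤ b * Q := by
    calc N * (b - 1) + 1 = 1 * Q := by rw [one_mul]
      _ ≤ b * Q := Nat.mul_le_mul_right _ (by omega)
  let zop : Module.End K (A.σ → W) := opm (fun a => w8_res K W (E a)) A.X
  have hzb : zop ^ b = 0 := w8_pow A E rel
  let kf : ℕ → ℤ := fun j => (finrank K
    (w8V A.deg gr (t + j) j ⊓ LinearMap.ker zop : Submodule K (A.σ → W)) : ℤ)
  let lf : ℕ → ℤ := fun j => (finrank K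
    (w8V A.deg gr (t + j) j ⊓ LinearMap.ker (zop ^ (b - 1)) : Submodule K (A.σ → W)) : ℤ)
  let D : ℕ → ℤ := fun i => (bx N b i : ℤ) * (finrank K (gr (t + i)) : ℤ)
  have hD : ∀ j, D j = (finrank K (w8V A.deg gr (t + j) j) : ℤ) := by
    intro j
    rw [w8_finrank_V A.deg gr (t + j) j (hfin _), A.card j]
    simp only [D, bx]
    push_cast
    rfl
  have hD0 : ∀ i, N * (b - 1) + 1 ≤ i → D i = 0 := by
    intro i hi
    simp only [D]
    rw [w8_bx_zero i (by omega), Nat.cast_zero, zero_mul]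
  have hA : ∀ j, j < b * Q → D j = kf j + lf (j + 1) := by
    intro j hj
    have := w8_finite_V A.deg gr (t + j) j (hfin _)
    have h := w8_rank zop (w8V A.deg gr (t + j) j)
      (w8V A.deg gr (t + (j + 1)) (j + 1) ⊓ LinearMap.ker (zop ^ (b - 1)))
      (fun u hu => ⟨w8_d_mem A.X_deg hE hu, by
        show (zop ^ (b - 1)) (zop u) = 0
        rw [← Module.End.mul_apply, ← pow_succ, Nat.sub_add_cancel (by omega), hzb]
        rfl⟩)
      (fun z hz => by
        have e : t + (j + 1) = t + j + 1 - b + b := by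
          have := hle2 j (by omega)
          omega
        have hz1 := hz.1
        rw [e] at hz1
        obtain ⟨u, hu, hu'⟩ := hn2 j (t + j + 1 - b) (by
          have := hle2 j (by omega)
          omega) z hz1 hz.2
        have e' : t + j + 1 - b + b - 1 = t + j := by
          have := hle2 j (by omega)
          omega
        rw [e'] at hu
        exact ⟨u, hu, hu'⟩)
    rw [hD, h]
    push_cast
    rfl
  have hB : ∀ j, j < b * Q → D j = lf j + kf (j + (b - 1)) := by
    intro j hj
    have := w8_finite_V A.deg gr (t + j) j (hfin _)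
    have h := w8_rank (zop ^ (b - 1)) (w8V A.deg gr (t + j) j)
      (w8V A.deg gr (t + (j + (b - 1))) (j + (b - 1)) ⊓ LinearMap.ker zop)
      (fun u hu => ⟨by
        have h := w8_dpow_mem (E := fun a => w8_res K W (E a)) A.X_deg hE (b - 1) hu
        rwa [add_assoc] at h, by
        show zop ((zop ^ (b - 1)) u) = 0
        rw [← Module.End.mul_apply, ← pow_succ', Nat.sub_add_cancel (by omega), hzb]
        rfl⟩)
      (fun z hz => by
        have hh := hle1 (j + (b - 1)) (by omega)
        have e : t + (j + (b - 1)) = t + j - 1 + b := by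
          omega
        have hz1 := hz.1
        rw [e] at hz1
        obtain ⟨u, hu, hu'⟩ := (hn1 (j + (b - 1)) (t + j - 1) (by omega) z hz1 hz.2).2 (by omega)
        have e' : t + j - 1 + 1 = t + j := by omega
        have e'' : j + (b - 1) + 1 - b = j := by omega
        rw [e', e''] at hu
        exact ⟨u, hu, hu'⟩)
    rw [hD, h]
    push_cast
    rfl
  have hk0 : ∀ j, j + 1 < b → kf j = 0 := by
    intro j hj
    have hh := hle1 j (by omega)
    have hbot : (w8V A.deg gr (t + j) j ⊓ LinearMap.ker zop : Submodule K (A.σ → W)) = ⊥ := by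
      rw [eq_bot_iff]
      rintro z ⟨hz, hz0⟩
      have e : t + j = t + j - b + b := by omega
      rw [e] at hz
      exact (hn1 j (t + j - b) (by omega) z hz hz0).1 hj
    simp only [kf]
    rw [hbot, finrank_bot]
    rfl
  have hkQ : ∀ j, b * Q ≤ j → j < b * Q + b → kf j = 0 := by
    intro j hj _
    have := w8_finite_V A.deg gr (t + j) j (hfin _)
    have h1 : (finrank K (w8V A.deg gr (t + j) j) : ℤ) = 0 := by
      rw [← hD j]
      exact hD0 j (by omega)
    have h2 := Submodule.finrank_mono (inf_le_left :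
      w8V A.deg gr (t + j) j ⊓ LinearMap.ker zop ≤ w8V A.deg gr (t + j) j)
    have h3 : finrank K (w8V A.deg gr (t + j) j ⊓ LinearMap.ker zop : Submodule K (A.σ → W)) = 0 := by
      have : finrank K (w8V A.deg gr (t + j) j) = 0 := by exact_mod_cast h1
      omega
    simp only [kf]
    rw [h3]
    rfl
  have main : ∀ r, r < b →
      ∑ i ∈ (Finset.range (N * (b - 1) + 1)).filter (fun i => i % b = r), D i =
        ∑ q ∈ Finset.range Q, D (b * q) := by
    intro r hr
    rw [w8_sum_mod (by omega) D _ Q r hr hbQ hD0]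
    exact w8_telescope (by omega) D kf lf Q hA hB hk0 hkQ r hr
  have f1 := main (r % b) (Nat.mod_lt _ (by omega))
  have f2 := main 0 (by omega)
  exact f1.trans f2.symm

end Vale.Agent.P200.W
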